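import Vale.Agent.P106.U.H127.Gsup

/-!
# P106 / U / H127 : mixtures for the supremum over random labels (helper127)

* `cond_sum_le_gsup` : `∑ P(C = z) gsup (P | C = z) Y Z ≤ gsup P (Y, C) (Z, C)` ;
* `gsup_le_cond_sum` : `gsup P (Y, C) (Z, C) ≤ ∑ P(C = z) gsup (P | C = z) Y Z` ;
* `gsup_mix_ge`, `gsup_mix_le` : the same without `C` in the side information, price `(1 + Λ) H(C)`.
-/

set_option autoImplicit false

namespace Vale.Agent.P106.U.H127

open Finset Vale.Agent.P127 Vale.Agent.P127.Stk Vale.Agent.P127.U.JSB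

variable {Ω : Type} [Fintype Ω] {τ : Type} {σ γ ζ η : Type*} {Λ : ℝ} {sh : τ → η} {Ad : Ω → τ → Prop}
  {g : Ω → τ → ℝ} {P : Law Ω} {X : Ω → σ} {Y : Ω → γ} {Z : Ω → ζ}

theorem GB.cond (hB : GB sh Ad g P) {V : Type*} (C : Ω → V) (z : V) : GB sh Ad g (P.cond C z) := by
  obtain ⟨G, S, h⟩ := hB
  exact ⟨G, S, fun ω hω => h ω (cond_supp P C z hω)⟩

theorem NE.cond (hN : NE Ad P) {V : Type*} (C : Ω → V) (z : V) : NE Ad (P.cond C z) :=
  fun ω hω => hN ω (cond_supp P C z hω)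

/-- expectation as average over the values of `C` -/
theorem ex_cond_sum {V : Type*} (P : Law Ω) (f : Ω → ℝ) (C : Ω → V) :
    ∑ z ∈ img C, P.pr C z * (P.cond C z).ex f = P.ex f := by
  unfold Law.ex
  simp only [Finset.mul_sum]
  rw [Finset.sum_comm]
  refine Finset.sum_congr rfl fun ω _ => ?_
  rw [← cond_avg P C ω, Finset.sum_mul]
  exact Finset.sum_congr rfl fun z _ => by ring

/-- the conditioned law of an extension is an extension of the conditioned law -/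
theorem cond_ext {V : Type*} {Ω' : Type} [Fintype Ω'] {P' : Law Ω'} {P : Law Ω} {π : Ω' → Ω}
    (h : ∀ ω, P'.pr π ω = P.w ω) (C : Ω → V) {z : V} (hz : 0 < P.pr C z) (ω : Ω) :
    (P'.cond (fun ω => C (π ω)) z).pr π ω = (P.cond C z).w ω := by
  classical
  have hz' : P'.pr (fun ω => C (π ω)) z = P.pr C z := Stk.pr_law_aux P' P π h C z
  have hz0 : 0 < P'.pr (fun ω => C (π ω)) z := by rw [hz']; exact hz
  unfold Law.pr
  by_cases hC : C ω = z
  · rw [P.cond_w C z hz, if_pos hC, ← h ω]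
    unfold Law.pr
    rw [Finset.sum_div]
    refine Finset.sum_congr rfl fun ω' hω' => ?_
    have e : π ω' = ω := by simpa using hω'
    rw [P'.cond_w _ z hz0, if_pos (by rw [e]; exact hC), hz']
    rfl
  · rw [P.cond_w C z hz, if_neg hC]
    refine Finset.sum_eq_zero fun ω' hω' => ?_
    have e : π ω' = ω := by simpa using hω'
    rw [P'.cond_w _ z hz0, if_neg (by rw [e]; exact hC)]

/-- value as average over the values of `C` -/
theorem gval_cond_sum {V : Type*} {Ω' : Type} [Fintype Ω'] (P' : Law Ω') (π : Ω' → Ω) (W : Ω' → τ) (C : Ω → V) :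
    gval Λ sh g X (fun ω => (Y ω, C ω)) (fun ω => (Z ω, C ω)) P' π W =
      ∑ z ∈ img (fun ω => C (π ω)), P'.pr (fun ω => C (π ω)) z *
        gval Λ sh g X Y Z (P'.cond (fun ω => C (π ω)) z) π W := by
  set C' : Ω' → V := fun ω => C (π ω) with hC'
  have a1 : Stk.hc P' (fun ω => X (π ω)) (fun ω => (W ω, (Y (π ω), C (π ω)))) =
      Stk.hc P' (fun ω => X (π ω)) (fun ω => ((W ω, Y (π ω)), C' ω)) := by
    refine le_antisymm ?_ ?_
    · refine Stk.hc_mono_right P' _ fun ω ω' _ _ e => ?_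
      simp only [Prod.mk.injEq, hC'] at e ⊢
      exact ⟨⟨e.1, e.2.1⟩, e.2.2⟩
    · refine Stk.hc_mono_right P' _ fun ω ω' _ _ e => ?_
      simp only [Prod.mk.injEq, hC'] at e ⊢
      exact ⟨e.1.1, e.1.2, e.2⟩
  have a2 := hc_cond_sum P' (fun ω => X (π ω)) (fun ω => (W ω, Y (π ω))) C'
  have a3 := hc_cond_sum P' (fun ω => sh (W ω)) (fun ω => Z (π ω)) C'
  have a4 := ex_cond_sum P' (fun ω => g (π ω) (W ω)) C'
  unfold gval
  have a5 : Stk.hc P' (fun ω => sh (W ω)) (fun ω => (Z (π ω), C (π ω))) =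
      Stk.hc P' (fun ω => sh (W ω)) (fun ω => (Z (π ω), C' ω)) := rfl
  rw [a1, a5, a2, a3, ← a4, Finset.mul_sum, ← Finset.sum_add_distrib, ← Finset.sum_sub_distrib]
  exact Finset.sum_congr rfl fun z _ => by ring

/-- **mixture, upper bound** -/
theorem gsup_le_cond_sum {V : Type*} (C : Ω → V) (hΛ : 0 ≤ Λ) (hB : GB sh Ad g P) (hN : NE Ad P) :
    gsup Λ sh Ad g P X (fun ω => (Y ω, C ω)) (fun ω => (Z ω, C ω)) ≤
      ∑ z ∈ img C, P.pr C z * gsup Λ sh Ad g (P.cond C z) X Y Z := by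
  classical
  refine gsup_le hN fun Ω' _ P' π W h1 h2 => ?_
  rw [gval_cond_sum]
  set C' : Ω' → V := fun ω => C (π ω) with hC'
  have hsub : img C' ⊆ img C := by
    intro z hz
    obtain ⟨ω, rfl⟩ := mem_img.1 hz
    exact mem_img.2 ⟨π ω, rfl⟩
  have hprz : ∀ z, P'.pr C' z = P.pr C z := fun z => Stk.pr_law_aux P' P π h1 C z
  have e2 : ∑ z ∈ img C', P.pr C z * gsup Λ sh Ad g (P.cond C z) X Y Z =
      ∑ z ∈ img C, P.pr C z * gsup Λ sh Ad g (P.cond C z) X Y Z := by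
    refine Finset.sum_subset hsub fun z _ hz => ?_
    have : P.pr C z = 0 := by
      rw [← hprz z]
      unfold Law.pr
      refine Finset.sum_eq_zero fun ω hω => ?_
      have e : C' ω = z := by simpa using hω
      exact absurd (mem_img.2 ⟨ω, e⟩) hz
    rw [this, zero_mul]
  rw [← e2]
  refine Finset.sum_le_sum fun z _ => ?_
  rw [hprz z]
  rcases (P.pr_nonneg C z).eq_or_lt with h0 | h0
  · rw [← h0, zero_mul, zero_mul]
  · refine mul_le_mul_of_nonneg_left ?_ h0.le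
    exact gval_le_gsup hΛ (hB.cond C z) (cond_ext h1 C h0) fun ω hω => h2 ω (cond_supp P' C' z hω)

/-- **mixture, lower bound** -/
theorem cond_sum_le_gsup {V : Type} (C : Ω → V) (hΛ : 0 ≤ Λ) (hB : GB sh Ad g P) (hN : NE Ad P) :
    ∑ z ∈ img C, P.pr C z * gsup Λ sh Ad g (P.cond C z) X Y Z ≤
      gsup Λ sh Ad g P X (fun ω => (Y ω, C ω)) (fun ω => (Z ω, C ω)) := by
  classical
  refine le_of_forall_pos_le_add fun ε hε => ?_
  have hnear := fun z : {z // z ∈ img C} => exists_near (Λ := Λ) (sh := sh) (g := g) (X := X) (Y := Y)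
    (Z := Z) (hN.cond C z.1) hε
  choose Ω' iF Q π W g1 g2 g3 using hnear
  have a0 : ∀ z : {z // z ∈ img C}, 0 ≤ P.pr C z.1 := fun z => P.pr_nonneg _ _
  have a1 : ∑ z : {z // z ∈ img C}, P.pr C z.1 = 1 := by
    rw [Finset.sum_coe_sort (img C) (fun z => P.pr C z)]
    exact P.sum_pr_image C
  set M : Law (Σ z, Ω' z) := sumL (fun z : {z // z ∈ img C} => P.pr C z.1) a0 a1 Q with hM
  have hMw : ∀ p : (Σ z, Ω' z), M.w p = P.pr C p.1.1 * (Q p.1).w p.2 := fun p => rfl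
  set ρ : (Σ z, Ω' z) → Ω := fun p => π p.1 p.2 with hρ
  set W' : (Σ z, Ω' z) → τ := fun p => W p.1 p.2 with hW'
  have hpos : ∀ p : (Σ z, Ω' z), 0 < M.w p → 0 < P.pr C p.1.1 ∧ 0 < (Q p.1).w p.2 := by
    intro p hp
    rw [hMw] at hp
    have b1 := P.pr_nonneg C p.1.1
    have b2 := (Q p.1).nn p.2
    constructor
    · rcases b1.eq_or_lt with h2 | h2
      · rw [← h2, zero_mul] at hp
        exact absurd hp (lt_irrefl 0)
      · exact h2
    · rcases b2.eq_or_lt with h2 | h2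
      · rw [← h2, mul_zero] at hp
        exact absurd hp (lt_irrefl 0)
      · exact h2
  have hC : ∀ p : (Σ z, Ω' z), 0 < M.w p → C (ρ p) = p.1.1 := by
    intro p hp
    obtain ⟨b1, b2⟩ := hpos p hp
    refine cond_supp' P C p.1.1 b1 ?_
    rw [← g1 p.1 (ρ p)]
    exact (Q p.1).pr_pos (π p.1) b2
  have hpr : ∀ ω, M.pr ρ ω = P.w ω := by
    intro ω
    rw [hM, sumL_pr]
    have e : ∀ z : {z // z ∈ img C}, (Q z).pr (fun ω' => ρ ⟨z, ω'⟩) ω = (P.cond C z.1).w ω :=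
      fun z => g1 z ω
    simp only [e]
    rw [Finset.sum_coe_sort (img C) (fun z => P.pr C z * (P.cond C z).w ω)]
    exact cond_avg P C ω
  have hle : gval Λ sh g X (fun ω => (Y ω, C ω)) (fun ω => (Z ω, C ω)) M ρ W' ≤
      gsup Λ sh Ad g P X (fun ω => (Y ω, C ω)) (fun ω => (Z ω, C ω)) :=
    gval_le_gsup hΛ hB hpr fun p hp => g2 p.1 p.2 (hpos p hp).2
  have hge : ∑ z : {z // z ∈ img C}, P.pr C z.1 * gval Λ sh g X Y Z (Q z) (π z) (W z) ≤
      gval Λ sh g X (fun ω => (Y ω, C ω)) (fun ω => (Z ω, C ω)) M ρ W' := by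
    have e1 : Stk.hc M (fun p => X (ρ p)) (fun p => ((W' p, Y (ρ p)), p.1)) ≤
        Stk.hc M (fun p => X (ρ p)) (fun p => (W' p, (Y (ρ p), C (ρ p)))) := by
      refine Stk.hc_mono_right M _ ?_
      intro p p' hp hp' e
      simp only [Prod.mk.injEq] at e
      show (W' p, (Y (ρ p), C (ρ p))) = (W' p', (Y (ρ p'), C (ρ p')))
      rw [hC p hp, hC p' hp', e.1.1, e.1.2, e.2]
    have f1 : Stk.hc M (fun p => sh (W' p)) (fun p => (Z (ρ p), p.1)) ≤
        Stk.hc M (fun p => sh (W' p)) (fun p => (Z (ρ p), C (ρ p))) := by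
      refine Stk.hc_mono_right M _ ?_
      intro p p' hp hp' e
      simp only [Prod.mk.injEq] at e
      show (Z (ρ p), C (ρ p)) = (Z (ρ p'), C (ρ p'))
      rw [hC p hp, hC p' hp', e.1, e.2]
    have e2 := sumL_hc (a := fun z : {z // z ∈ img C} => P.pr C z.1) (h0 := a0) (h1 := a1)
      (Q := Q) (fun p => X (ρ p)) (fun p => (W' p, Y (ρ p)))
    have f2 := sumL_hc (a := fun z : {z // z ∈ img C} => P.pr C z.1) (h0 := a0) (h1 := a1)
      (Q := Q) (fun p => sh (W' p)) (fun p => Z (ρ p))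
    have e3 := sumL_ex (a := fun z : {z // z ∈ img C} => P.pr C z.1) (h0 := a0) (h1 := a1)
      (Q := Q) (fun p => g (ρ p) (W' p))
    rw [← hM] at e2 f2 e3
    rw [e2] at e1
    rw [f2] at f1
    have f3 := mul_le_mul_of_nonneg_left f1 hΛ
    have e4 : ∑ z : {z // z ∈ img C}, P.pr C z.1 * gval Λ sh g X Y Z (Q z) (π z) (W z) =
        ∑ z : {z // z ∈ img C}, P.pr C z.1 * Stk.hc (Q z) (fun ω => X (ρ ⟨z, ω⟩))
          (fun ω => (W' ⟨z, ω⟩, Y (ρ ⟨z, ω⟩))) +
        Λ * ∑ z : {z // z ∈ img C}, P.pr C z.1 * Stk.hc (Q z) (fun ω => sh (W' ⟨z, ω⟩))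
          (fun ω => Z (ρ ⟨z, ω⟩)) -
        ∑ z : {z // z ∈ img C}, P.pr C z.1 * (Q z).ex (fun ω => g (ρ ⟨z, ω⟩) (W' ⟨z, ω⟩)) := by
      rw [Finset.mul_sum, ← Finset.sum_add_distrib, ← Finset.sum_sub_distrib]
      refine Finset.sum_congr rfl fun z _ => ?_
      unfold gval
      simp only [hρ, hW']
      ring
    rw [e4]
    unfold gval
    rw [e3]
    linarith
  have hav : ∑ z ∈ img C, P.pr C z * gsup Λ sh Ad g (P.cond C z) X Y Z - ε ≤
      ∑ z : {z // z ∈ img C}, P.pr C z.1 * gval Λ sh g X Y Z (Q z) (π z) (W z) := by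
    have e : ∑ z ∈ img C, P.pr C z * gsup Λ sh Ad g (P.cond C z) X Y Z - ε =
        ∑ z : {z // z ∈ img C}, P.pr C z.1 * (gsup Λ sh Ad g (P.cond C z.1) X Y Z - ε) := by
      simp only [mul_sub, Finset.sum_sub_distrib]
      rw [← Finset.sum_mul, a1, one_mul, Finset.sum_coe_sort (img C)
        (fun z => P.pr C z * gsup Λ sh Ad g (P.cond C z) X Y Z)]
    rw [e]
    exact Finset.sum_le_sum fun z _ => mul_le_mul_of_nonneg_left (g3 z) (a0 z)
  linarith

/-- **mixture, exact** -/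
theorem gsup_cond_sum {V : Type} (C : Ω → V) (hΛ : 0 ≤ Λ) (hB : GB sh Ad g P) (hN : NE Ad P) :
    gsup Λ sh Ad g P X (fun ω => (Y ω, C ω)) (fun ω => (Z ω, C ω)) =
      ∑ z ∈ img C, P.pr C z * gsup Λ sh Ad g (P.cond C z) X Y Z :=
  le_antisymm (gsup_le_cond_sum C hΛ hB hN) (cond_sum_le_gsup C hΛ hB hN)

/-- the supremum is at least the average of the suprema of the conditioned laws -/
theorem gsup_mix_ge {V : Type} (C : Ω → V) (hΛ : 0 ≤ Λ) (hB : GB sh Ad g P) (hN : NE Ad P) :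
    ∑ z ∈ img C, P.pr C z * gsup Λ sh Ad g (P.cond C z) X Y Z ≤ gsup Λ sh Ad g P X Y Z :=
  (cond_sum_le_gsup C hΛ hB hN).trans (gsup_mono_cond C hΛ hB hN)

/-- the supremum is at most the average of the suprema of the conditioned laws, plus the entropy of `C` -/
theorem gsup_mix_le {V : Type} (C : Ω → V) (hΛ : 0 ≤ Λ) (hB : GB sh Ad g P) (hN : NE Ad P) :
    gsup Λ sh Ad g P X Y Z ≤ ∑ z ∈ img C, P.pr C z * gsup Λ sh Ad g (P.cond C z) X Y Z +
      Stk.hc P C Y + Λ * Stk.hc P C Z := by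
  have h1 := gsup_le_add (X := X) (Y := Y) (Z := Z) C hΛ hB hN
  have h2 := gsup_le_cond_sum (X := X) (Y := Y) (Z := Z) C hΛ hB hN
  linarith

end Vale.Agent.P106.U.H127
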