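import Vale.Agent.P106.U.H127.Jun
import Vale.Agent.P106.U.H61.PLem
import Vale.Agent.P106.U.H465.Res
import Vale.Agent.P106.U.H101.OffT

/-!
# P106 / U / H127 : row [JUN] over helper61's places, helper712's windows (helper127)

* **`FJ`** : mean of `C2.junT` (weighted events of kappa and gamma of the far pairs) `≤ nB Tc 24576 J`, the fact about the letter
  offsets;  **`rowJun : RowJun FJ`**.
* `Ctx.jY`, `jX`, `jD`, `jZ`, `jW`, `jR` : the family (B) of helper101's `oT_gen` (places, words, inputs, pairs, weights, radii;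
  `jb r = r.2`, `MB = 1536 J`);  `jhB` : its hypothesis `hB`;  **`fJ_of`** : its conclusion (B) gives `FJ`.
-/

set_option autoImplicit false

namespace Vale.Agent.P106.U.H61.PS

open Finset Vale.Agent.P127 Vale.Agent.P127.Stk Vale.Agent.P127.U Vale.Agent.P106.W
open Vale.Agent.P127.U.CellD (q2 Nb q2_pos q2_le q2_add q2_mul_pow)
open Vale.Agent.P106.U Vale.Agent.P106.U.H449
open Vale.Agent.P106.U.LinkR Vale.Agent.P106.U.InsL Vale.Agent.P106.U.InpC Vale.Agent.P106.U.StripL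
open Vale.Agent.P106.U.H565 Vale.Agent.P106.U.H823.NumW Vale.Agent.P106.U.H823.PathNum
open Vale.Agent.P106.U.H712.Fam (Win Vl Pl pfC)
open Vale.Agent.P106.U.S3 (Run Pf)
open Vale.Agent.P106.U.H61.Ext2
open Vale.Agent.P106.U.S3.PthW (Inp)
open Vale.Agent.P106.U.H101.TN (wo3)
open Vale.Agent.P106.U.H715.RegC (RCe RCe_of_le)

/-! ### one window -/

section win

variable {Ω : Type} [Fintype Ω] (w : Win Ω)

open Classical in
theorem cv_J (k : ℕ) (z : Vl) : (w.cv k z).I.J = w.c.I.J := by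
  unfold Win.cv
  split_ifs <;> rfl

open Classical in
theorem cv_I (k : ℕ) (z : Vl) : (w.cv k z).I = w.c.I := by
  unfold Win.cv
  split_ifs <;> rfl

/-- a point of the support -/
theorem win_pt {k : ℕ} {z : Vl} (hz : 0 < w.Q1.pr (w.Z k) z) : ∃ ω, 0 < w.Q1.w ω ∧ w.Z k ω = z :=
  ⟨_, supp_cond hz (H465.GcK.ex_supp (w.Q1.cond (w.Z k) z)).choose_spec⟩

/-- the letter of the closure -/
theorem win_hx {k : ℕ} {z : Vl} (hz : 0 < w.Q1.pr (w.Z k) z) : (w.cv k z).HX (w.cv_m k z) := by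
  suffices h : ∀ h3 : 3 ≤ (w.cv k z).I.m, (w.cv k z).HX h3 from h _
  rw [w.cv_eq hz]
  intro h3
  exact C1.mk2_hx (c := w.c.c1 w.gd w.cn) (hm := w.hm) (cc := w.cc) (in0 := w.in0) (hc := w.hc) (hz := hz)
    (C0.zW_hw w.Q1 le_rfl)

/-- the second word at the levels of the data -/
theorem win_RC {k : ℕ} {z : Vl} (hz : 0 < w.Q1.pr (w.Z k) z) {a : ℕ} (ha : a ≤ w.c.I.ha) :
    (w.cv k z).RC a = H339W.RCz w.c.I.ha k z.2 k a := by
  rw [w.cv_eq hz]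
  have h5 : (w.c.c2 w.hm w.cc w.gd w.cn w.in0 w.hc w.s w.bt w.b0 k z hz w.oO w.oK w.oG w.oN).RC a = RCe w.c.I.ha z.2 k a :=
    C1.mk2_RC (c := w.c.c1 w.gd w.cn) (hm := w.hm) (cc := w.cc) (in0 := w.in0) (hc := w.hc) (hz := hz)
      (ps := 4) (o := w.oO) (oK := w.oK) (oG := w.oG) (oN := w.oN) (fun ω' _ h' => by
        have e1 : w.Z k ω' = z := h'
        show w.c.Zr w.hm w.cc w.s w.Q1 w.b0 k ω' = z.2
        rw [← w.Z_snd, e1]) ha
  rw [h5, RCe_of_le ha]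
  unfold H339W.RCz
  rw [min_self]

/-- the second word on the zone of a young level -/
theorem win_zone {q : H712.Fam.Par} {k : ℕ} {z : Vl} (hz : 0 < w.Q1.pr (w.Z k) z) (hD : 2 ≤ q.D0) :
    ∀ v ∈ w.Vs q k z, ∀ a, a < v → v ≤ a + q.g → (w.cv k z).RC (a + 1) = (w.cv k z).RC a + 1 := by
  intro v hv a ha hva
  obtain ⟨ω, hω, hwz⟩ := win_pt w hz
  have he : w.c.Zr w.hm w.cc w.s w.Q1 w.b0 k ω = z.2 := by rw [← w.Z_snd, hwz]
  have HL := H339W.lag w.cn w.in0 w.hc he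
  obtain ⟨-, -, h3, h4⟩ := HL.dg hD hv (a' := a) (by omega) hva
  have hvn := (H661.Yng.mem_Vs.1 hv).1
  rw [win_RC w hz (by omega), win_RC w hz (by omega)]
  exact h4 k le_rfl (by omega)

/-- the cost `cJun` of helper712's prefix data -/
theorem cJun_pfC {C : C2 Ω} {h3 : 3 ≤ C.I.m} {Rm : ℕ} {cc : ℝ} {Ac rc : ℕ} (H : C.Hyp Rm cc Ac rc) (HX : C.HX h3)
    (h16 : 16 ≤ C.I.m) {B g μ : ℕ} (hμ : μ ≤ B) (hg : 2 * C.I.J * (B / C.I.m + 6) < g) {Vs Xs : Finset ℕ}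
    (hz : ∀ v ∈ Vs, ∀ a, a < v → v ≤ a + g → C.RC (a + 1) = C.RC a + 1) {K'' : ℝ} (hK : 280 ≤ K'') (R0 : ℕ → ℕ)
    (o : Fin 7 → ℝ) (o' : ℕ → ℝ) :
    cJun (C.erun h3) C.num B (pfC C h3 R0 B) Vs Xs μ K'' o o' ≤
      q2 (μ / 8 + C.I.m / 2) / K'' * (6144 * C.I.J + C.junT g) := by
  unfold pfC
  split_ifs
  · exact C2.cJun_le H HX h16 hμ hg hz hK o o'
  · exact C2.cJun_le H HX h16 hμ hg hz hK o o'

/-- **one place** -/
theorem cJun_win {Rm : ℕ} (ho : w.Ho Rm) {q : H712.Fam.Par} {k : ℕ} {z : Vl} (hz : 0 < w.Q1.pr (w.Z k) z)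
    (hg : Win.good k z) (hD : 2 ≤ q.D0) (h16 : 16 ≤ w.c.I.m) {μ : ℕ} (hμ : μ ≤ q.B)
    (hz0 : 2 * w.c.I.J * (q.B / w.c.I.m + 6) < q.g) {K'' : ℝ} (hK : 280 ≤ K'') (o : Fin 7 → ℝ) (o' : ℕ → ℝ) :
    cJun (w.R k z) (w.nm k z) q.B (w.F q k z) (w.Vs q k z) (w.Xs q k z) μ K'' o o' ≤
      q2 (μ / 8 + w.c.I.m / 2) / K'' * (6144 * w.c.I.J + (w.cv k z).junT q.g) := by
  obtain ⟨Ac, rc, H⟩ := ho.hyp k z hz hg
  have e := cv_I w k z
  have h1 := cJun_pfC (Xs := w.Xs q k z) H (win_hx w hz) (by rw [e]; exact h16) hμ (by rw [e]; exact hz0)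
    (win_zone w (q := q) hz hD) hK (w.rt z 0) o o'
  rw [e] at h1
  exact h1

open Classical in
/-- a constant and a function -/
theorem av_lin (T : ℕ) (f : ℕ → Vl → ℝ) {a b : ℝ} (ha : 0 ≤ a) (hb : 0 ≤ b) :
    w.av T (fun k z => a * (b + f k z)) ≤ a * (b * T + w.av T f) := by
  have h1 : w.av T (fun k z => a * (b + f k z)) ≤ ∑ k ∈ range T, a * (b +
      w.Q1.ex (fun ω => if Win.good k (w.Z k ω) then f k (w.Z k ω) else 0)) := by
    unfold Win.av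
    refine Finset.sum_le_sum fun k _ => ?_
    have h2 : a * (b + w.Q1.ex (fun ω => if Win.good k (w.Z k ω) then f k (w.Z k ω) else 0)) =
        w.Q1.ex (fun ω => a * (b + if Win.good k (w.Z k ω) then f k (w.Z k ω) else 0)) := by
      rw [w.Q1.ex_const_mul a, w.Q1.ex_add (fun _ => b), w.Q1.ex_const]
    rw [h2]
    refine w.Q1.ex_mono fun ω _ => ?_
    split_ifs with hg
    · exact le_rfl
    · rw [add_zero]
      positivity
  refine h1.trans (le_of_eq ?_)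
  unfold Win.av
  rw [← Finset.mul_sum, Finset.sum_add_distrib, Finset.sum_const, Finset.card_range, nsmul_eq_mul]
  ring

end win

namespace Ctx

variable {σ : S5.Cst} {cc : ℝ} {J M Md : ℕ} {p : Par} {X0 R0 h0 : ℕ} {Ω : Type} [Fintype Ω]
  (x : Ctx σ cc J M Md p X0 R0 h0 Ω)

theorem bs_le (hT : 1 ≤ p.Tc) (hs : 1 ≤ p.s) : x.bs.card ≤ x.nB := by
  have h1 : 1 ≤ p.Tc * p.s := Nat.mul_pos hT hs
  have h2 : x.bs.card ≤ (range (x.nB + 1 - p.Tc * p.s)).card := Finset.card_filter_le _ _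
  rw [Finset.card_range] at h2
  omega

theorem mean_lin (oo : Oo) (hT : 1 ≤ p.Tc) (hs : 1 ≤ p.s) (T : ℕ) (f : Win Ω → ℕ → Vl → ℝ) {a b : ℝ} (ha : 0 ≤ a)
    (hb : 0 ≤ b) : x.mean oo T (fun w k z => a * (b + f w k z)) ≤ a * (b * (x.nB * T) + x.mean oo T f) := by
  unfold mean
  refine (Finset.sum_le_sum fun b0 _ => av_lin (x.win oo b0) T (f (x.win oo b0)) ha hb).trans ?_
  rw [← Finset.mul_sum, Finset.sum_add_distrib, Finset.sum_const, nsmul_eq_mul]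
  refine mul_le_mul_of_nonneg_left ?_ ha
  have h1 : (x.bs.card : ℝ) ≤ x.nB := by exact_mod_cast x.bs_le hT hs
  have h2 : (x.bs.card : ℝ) * (b * T) ≤ x.nB * (b * T) := mul_le_mul_of_nonneg_right h1 (by positivity)
  linarith

end Ctx

/-- **the fact about the letter offsets for [JUN]** -/
def FJ : FO := fun _ _ _ J _ _ p _ _ _ _ _ x oo =>
  x.mean oo p.Tc (fun w k z => (w.cv k z).junT p.g) ≤ x.nB * p.Tc * (24576 * J)

/-- **row [JUN]** -/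
theorem rowJun : RowJun FJ := by
  intro σ hσ K Cψ cc J M Md hC
  refine ⟨2 * (30720 * J) + 16, fun m hm0 => ⟨0, fun B _ => ⟨2 * J * (B / m + 6) + 1, fun g hg => ⟨2, fun D0 hD => ?_⟩⟩⟩⟩
  intro s L hs hL hBL
  refine ⟨0, fun k1 _ => ⟨1, fun Tc hTc => ⟨0, 0, 0, fun X0 R0 h0 _ _ _ => ?_⟩⟩⟩
  intro Ω _ x oo hFJ μ hμ hmμ j hj1 hj2 o o' hOff
  have hK := hC.hK
  have em : x.c.I.m = m := x.em
  have eJ : x.c.I.J = J := x.eJ
  have hj0 : (0 : ℝ) < 2 ^ j := by positivity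
  have hK280 : (280 : ℝ) ≤ 2 ^ j := by
    refine le_trans ?_ hj1
    have h1 : (280 : ℝ) ≤ 100 * K := by linarith
    have h2 : (100 * K) ≤ (100 * K) ^ 20 := le_self_pow₀ (by linarith) (by norm_num)
    linarith
  have key : ∀ b0 ∈ x.bs, ∀ k < Tc, ∀ z, 0 < x.Q1.pr ((x.win oo b0).Z k) z → Win.good k z →
      (if k1 ≤ k then cJun ((x.win oo b0).R k z) ((x.win oo b0).nm k z) B ((x.win oo b0).F ⟨B, L * s, L * s, D0, g, k1⟩ k z)
        ((x.win oo b0).Vs ⟨B, L * s, L * s, D0, g, k1⟩ k z) ((x.win oo b0).Xs ⟨B, L * s, L * s, D0, g, k1⟩ k z) μ (2 ^ j) o o'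
        else 0) ≤ q2 (μ / 8 + m / 2) / 2 ^ j * (6144 * J + ((x.win oo b0).cv k z).junT g) := by
    intro b0 _ k _ z hz hgd
    have hT := C2.junT_nonneg (c := (x.win oo b0).cv k z) g
    have hq := q2_pos (μ / 8 + m / 2)
    split_ifs
    · have h1 := cJun_win (x.win oo b0) (x.ho oo b0) (q := ⟨B, L * s, L * s, D0, g, k1⟩) hz hgd hD
        (show 16 ≤ x.c.I.m by rw [em]; omega) hμ
        (show 2 * x.c.I.J * (B / x.c.I.m + 6) < g by rw [em, eJ]; omega) hK280 o o'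
      have h2 : q2 (μ / 8 + x.c.I.m / 2) / 2 ^ j * (6144 * x.c.I.J + ((x.win oo b0).cv k z).junT g) =
          q2 (μ / 8 + m / 2) / 2 ^ j * (6144 * J + ((x.win oo b0).cv k z).junT g) := by rw [em, eJ]
      exact h1.trans (le_of_eq h2)
    · positivity
  refine (x.mean_mono' (f := fun w k z => if k1 ≤ k then cJun (w.R k z) (w.nm k z) B
    (w.F ⟨B, L * s, L * s, D0, g, k1⟩ k z) (w.Vs ⟨B, L * s, L * s, D0, g, k1⟩ k z)
    (w.Xs ⟨B, L * s, L * s, D0, g, k1⟩ k z) μ (2 ^ j) o o' else 0)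
    (g := fun w k z => q2 (μ / 8 + m / 2) / 2 ^ j * (6144 * J + (w.cv k z).junT g)) key).trans ?_
  have hJ0 : (0 : ℝ) ≤ J := Nat.cast_nonneg _
  refine (x.mean_lin oo hTc hs Tc (fun w k z => (w.cv k z).junT g) (div_nonneg (q2_pos _).le hj0.le)
    (by positivity)).trans ?_
  have hF : x.mean oo Tc (fun w k z => (w.cv k z).junT g) ≤ x.nB * Tc * (24576 * J) := hFJ
  have hTc0 : (0 : ℝ) ≤ Tc := Nat.cast_nonneg _
  have hnB : (0 : ℝ) ≤ x.nB := Nat.cast_nonneg _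
  have h3 : 6144 * (J : ℝ) * (x.nB * Tc) + x.mean oo Tc (fun w k z => (w.cv k z).junT g) ≤ x.nB * Tc * (30720 * J) := by
    linarith
  have h4 : q2 (m / 2) * (30720 * J) ≤ 1 := by
    have h5 : 30720 * J ≤ m / 2 := by omega
    have h6 : (30720 * J : ℕ) < 2 ^ (m / 2) := lt_of_le_of_lt h5 Nat.lt_two_pow_self
    have h7 : ((30720 * J : ℕ) : ℝ) ≤ 2 ^ (m / 2) := by exact_mod_cast h6.le
    push_cast at h7
    have h8 := q2_mul_pow (m / 2)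
    have := mul_le_mul_of_nonneg_left h7 (q2_pos (m / 2)).le
    linarith
  have hq1 := q2_pos (μ / 8)
  have hq2 := q2_pos (m / 2)
  have hq3 : q2 j * 2 ^ j = 1 := by
    have := q2_mul_pow j
    linarith
  have hqj := q2_pos j
  calc q2 (μ / 8 + m / 2) / 2 ^ j * (6144 * J * (x.nB * Tc) + x.mean oo Tc (fun w k z => (w.cv k z).junT g))
      ≤ q2 (μ / 8 + m / 2) / 2 ^ j * (x.nB * Tc * (30720 * J)) :=
        mul_le_mul_of_nonneg_left h3 (div_nonneg (q2_pos _).le hj0.le)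
    _ = x.nB * Tc * ((q2 (m / 2) * (30720 * J)) * (q2 (μ / 8) * q2 j)) := by
        rw [q2_add, div_mul_eq_mul_div, div_eq_iff hj0.ne']
        linear_combination (-(x.nB * Tc * ((q2 (m / 2) * (30720 * J)) * q2 (μ / 8)))) * hq3
    _ ≤ x.nB * Tc * (1 * (q2 (μ / 16) * q2 (j / 4))) := by
        refine mul_le_mul_of_nonneg_left ?_ (by positivity)
        refine mul_le_mul h4 ?_ (by positivity) (by norm_num)
        exact mul_le_mul (q2_le (by omega)) (q2_le (by omega)) hqj.le (q2_pos _).le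
    _ ≤ x.nB * Tc * tgt B μ j := by
        refine mul_le_mul_of_nonneg_left ?_ (by positivity)
        unfold tgt
        have : (0 : ℝ) ≤ 1 / ((B : ℝ) + 1) ^ 3 := by positivity
        linarith

/-! ### family (B) of `oT_gen` -/

namespace Ctx

variable {σ : S5.Cst} {cc : ℝ} {J M Md : ℕ} {p : Par} {X0 R0 h0 : ℕ} {Ω : Type} [Fintype Ω]
  (x : Ctx σ cc J M Md p X0 R0 h0 Ω)

/-- the places `(b0, k)` -/
noncomputable def jY : Finset (ℕ × ℕ) := x.bs ×ˢ range p.Tc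

/-- the words -/
noncomputable def jX (y : ℕ × ℕ) : Ω → Vl := x.c.zW x.hm cc p.s x.bt x.Q1 y.1 y.2

/-- the data, total, letter offsets `0` -/
noncomputable def jC (o : Fin 7 → ℝ) (y : ℕ × ℕ) (e : Vl) : C2 Ω := (x.win ⟨o, 0, 0, 0⟩ y.1).cv y.2 e

/-- the inputs -/
noncomputable def jD (o : Fin 7 → ℝ) (y : ℕ × ℕ) (e : Vl) : Inp Ω := (x.jC o y e).inp

open Classical in
/-- the far pairs -/
noncomputable def jZ (o : Fin 7 → ℝ) (y : ℕ × ℕ) (e : Vl) : Finset (ℕ × ℕ) :=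
  if Win.good y.2 e then (x.jC o y e).junS p.g else ∅

/-- the weights -/
noncomputable def jW (o : Fin 7 → ℝ) (y : ℕ × ℕ) (e : Vl) (r : ℕ × ℕ) : ℝ := (x.jC o y e).junW p.g r

/-- the radii -/
noncomputable def jR (o : Fin 7 → ℝ) (y : ℕ × ℕ) (e : Vl) (r : ℕ × ℕ) : ℝ := (x.jC o y e).junD p.g r

theorem jW_nonneg (o : Fin 7 → ℝ) (y : ℕ × ℕ) (e : Vl) (r : ℕ × ℕ) : 0 ≤ x.jW o y e r := C2.junW_nonneg _ _

theorem jR_nonneg (o : Fin 7 → ℝ) (y : ℕ × ℕ) (e : Vl) (r : ℕ × ℕ) : 0 ≤ x.jR o y e r := C2.junD_nonneg _ _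

/-- **hypothesis `hB`** -/
theorem jhB (h16 : 16 ≤ p.m) (o : Fin 7 → ℝ) : ∀ y ∈ x.jY, ∀ ω, 0 < x.Q1.w ω →
    ∑ r ∈ x.jZ o y (x.jX y ω), x.jW o y (x.jX y ω) r *
      (2 ^ (x.jD o y (x.jX y ω)).rk r.2 * x.jR o y (x.jX y ω) r) ≤ 1536 * J := by
  intro y _ ω hω
  have hz : 0 < x.Q1.pr (x.jX y) (x.jX y ω) := x.Q1.pr_pos (x.jX y) hω
  unfold jZ
  split_ifs with hb
  · obtain ⟨Ac, rc, H⟩ := (x.ho ⟨o, 0, 0, 0⟩ y.1).hyp y.2 (x.jX y ω) hz hb
    have e := cv_I (x.win ⟨o, 0, 0, 0⟩ y.1) y.2 (x.jX y ω)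
    have em : (x.win ⟨o, 0, 0, 0⟩ y.1).c.I.m = p.m := x.em
    have eJ : (x.win ⟨o, 0, 0, 0⟩ y.1).c.I.J = J := x.eJ
    have h1 := C2.jun_hB H (by rw [e, em]; exact h16) p.g
    rw [e, eJ] at h1
    exact h1
  · rw [Finset.sum_empty]
    positivity

open Classical in
/-- **the conclusion (B) of `oT_gen` gives `FJ`** -/
theorem fJ_of (hT : 1 ≤ p.Tc) (hs : 1 ≤ p.s) {K : ℝ} (o : Fin 7 → ℝ) {oK oG oN : ℝ}
    (h : ∑ y ∈ x.jY, x.Q1.ex (fun ω => ∑ r ∈ x.jZ o y (x.jX y ω), x.jW o y (x.jX y ω) r *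
      (prE (x.Q1.cond (x.jX y) (x.jX y ω)) (fun ω' => Nb ((wo3 (x.jD o y (x.jX y ω)) oK oG oN).rk r.2)
        ((wo3 (x.jD o y (x.jX y ω)) oK oG oN).kR r.2 ω' + (wo3 (x.jD o y (x.jX y ω)) oK oG oN).oK)
          (x.jR o y (x.jX y ω) r)) +
      prE (x.Q1.cond (x.jX y) (x.jX y ω)) (fun ω' => Nb ((wo3 (x.jD o y (x.jX y ω)) oK oG oN).rk r.2)
        ((wo3 (x.jD o y (x.jX y ω)) oK oG oN).gR r.2 ω' + (wo3 (x.jD o y (x.jX y ω)) oK oG oN).oG)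
          (x.jR o y (x.jX y ω) r)))) ≤ 16 * (x.jY.card * (1536 * J))) :
    FJ σ K cc J M Md p X0 R0 h0 Ω x ⟨o, oK, oG, oN⟩ := by
  show x.mean ⟨o, oK, oG, oN⟩ p.Tc (fun w k z => (w.cv k z).junT p.g) ≤ x.nB * p.Tc * (24576 * J)
  have h1 : x.mean ⟨o, oK, oG, oN⟩ p.Tc (fun w k z => (w.cv k z).junT p.g) = ∑ y ∈ x.jY, x.Q1.ex fun ω =>
      if Win.good y.2 (x.jX y ω) then ((x.win ⟨o, oK, oG, oN⟩ y.1).cv y.2 (x.jX y ω)).junT p.g else 0 := by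
    unfold mean jY
    rw [Finset.sum_product]
    rfl
  rw [h1]
  have h2 : ∀ y ∈ x.jY, x.Q1.ex (fun ω =>
      if Win.good y.2 (x.jX y ω) then ((x.win ⟨o, oK, oG, oN⟩ y.1).cv y.2 (x.jX y ω)).junT p.g else 0) ≤
      x.Q1.ex (fun ω => ∑ r ∈ x.jZ o y (x.jX y ω), x.jW o y (x.jX y ω) r *
      (prE (x.Q1.cond (x.jX y) (x.jX y ω)) (fun ω' => Nb ((wo3 (x.jD o y (x.jX y ω)) oK oG oN).rk r.2)
        ((wo3 (x.jD o y (x.jX y ω)) oK oG oN).kR r.2 ω' + (wo3 (x.jD o y (x.jX y ω)) oK oG oN).oK)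
          (x.jR o y (x.jX y ω) r)) +
      prE (x.Q1.cond (x.jX y) (x.jX y ω)) (fun ω' => Nb ((wo3 (x.jD o y (x.jX y ω)) oK oG oN).rk r.2)
        ((wo3 (x.jD o y (x.jX y ω)) oK oG oN).gR r.2 ω' + (wo3 (x.jD o y (x.jX y ω)) oK oG oN).oG)
          (x.jR o y (x.jX y ω) r)))) := by
    intro y _
    refine x.Q1.ex_mono fun ω hω => ?_
    have hz : 0 < x.Q1.pr (x.jX y) (x.jX y ω) := x.Q1.pr_pos (x.jX y) hω
    unfold jZ
    by_cases hb : Win.good y.2 (x.jX y ω)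
    · rw [if_pos hb, if_pos hb]
      have e0 := (x.win ⟨o, 0, 0, 0⟩ y.1).cv_eq (k := y.2) (z := x.jX y ω) hz
      have e1 := (x.win ⟨o, oK, oG, oN⟩ y.1).cv_eq (k := y.2) (z := x.jX y ω) hz
      unfold jW jR jD jC
      rw [e0, e1]
      exact le_rfl
    · rw [if_neg hb, if_neg hb, Finset.sum_empty]
  refine (Finset.sum_le_sum h2).trans (h.trans ?_)
  have h3 : (x.jY.card : ℝ) ≤ x.nB * p.Tc := by
    unfold jY
    rw [Finset.card_product, Finset.card_range]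
    exact_mod_cast Nat.mul_le_mul_right _ (x.bs_le hT hs)
  have hJ0 : (0 : ℝ) ≤ J := Nat.cast_nonneg _
  nlinarith

end Ctx

end Vale.Agent.P106.U.H61.PS
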