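import Vale.Agent.P127.U.JS

/-!
# P106 / U / H127 : the supremum over random labels, abstract form (helper127)

`P` a finite law on `Ω`.  A random label is a random variable `W` with values in `τ` on an extension `(Ω', P', π)` of `P`
with `Ad (π ω) (W ω)` on the support.  Its value is

`gval = H(X | W, Y) + Λ H(sh W | Z) - E g(·, W)`,

`gsup` is the supremum of the values.  Instances: `X(a)`, `X^k(a; e)`, `XX(a)` of 61's TEXT S1.

* `gsup_bdd`, `gval_le_gsup`, `exists_near`, `gsup_ext` ;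
* `cond_sum_le_gsup`, `gsup_le_cond_sum` : the supremum given `(Y, C)`, `(Z, C)` is the average of the suprema of the
  conditioned laws;
* `gsup_mono_cond`, `gsup_le_add` : more side information.
-/

set_option autoImplicit false

namespace Vale.Agent.P106.U.H127

open Finset Vale.Agent.P127 Vale.Agent.P127.Stk Vale.Agent.P127.U.JSB

section defs

variable {Ω : Type} [Fintype Ω] {τ : Type} {σ γ ζ η : Type*}

/-- value of a random label on an extension -/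
noncomputable def gval (Λ : ℝ) (sh : τ → η) (g : Ω → τ → ℝ) (X : Ω → σ) (Y : Ω → γ) (Z : Ω → ζ)
    {Ω' : Type} [Fintype Ω'] (P' : Law Ω') (π : Ω' → Ω) (W : Ω' → τ) : ℝ :=
  Stk.hc P' (fun ω => X (π ω)) (fun ω => (W ω, Y (π ω))) +
    Λ * Stk.hc P' (fun ω => sh (W ω)) (fun ω => Z (π ω)) - P'.ex fun ω => g (π ω) (W ω)

/-- the values of all random labels on all extensions of `P` -/
def gSet (Λ : ℝ) (sh : τ → η) (Ad : Ω → τ → Prop) (g : Ω → τ → ℝ) (P : Law Ω) (X : Ω → σ) (Y : Ω → γ)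
    (Z : Ω → ζ) : Set ℝ :=
  {v | ∃ (Ω' : Type) (_ : Fintype Ω') (P' : Law Ω') (π : Ω' → Ω) (W : Ω' → τ),
    (∀ ω, P'.pr π ω = P.w ω) ∧ (∀ ω, 0 < P'.w ω → Ad (π ω) (W ω)) ∧ v = gval Λ sh g X Y Z P' π W}

/-- the supremum over all random labels -/
noncomputable def gsup (Λ : ℝ) (sh : τ → η) (Ad : Ω → τ → Prop) (g : Ω → τ → ℝ) (P : Law Ω) (X : Ω → σ)
    (Y : Ω → γ) (Z : Ω → ζ) : ℝ :=
  sSup (gSet Λ sh Ad g P X Y Z)

/-- on the support the cost is bounded below and there are finitely many shapes -/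
def GB (sh : τ → η) (Ad : Ω → τ → Prop) (g : Ω → τ → ℝ) (P : Law Ω) : Prop :=
  ∃ (G : ℝ) (S : Finset η), ∀ ω, 0 < P.w ω → ∀ w, Ad ω w → -G ≤ g ω w ∧ sh w ∈ S

/-- there is an admissible label -/
def NE (Ad : Ω → τ → Prop) (P : Law Ω) : Prop := ∀ ω, 0 < P.w ω → ∃ w, Ad ω w

end defs

variable {Ω : Type} [Fintype Ω] {τ : Type} {σ γ ζ η : Type*} {Λ : ℝ} {sh : τ → η} {Ad : Ω → τ → Prop}
  {g : Ω → τ → ℝ} {P : Law Ω} {X : Ω → σ} {Y : Ω → γ} {Z : Ω → ζ}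

theorem supp_ext {Ω' : Type} [Fintype Ω'] {P' : Law Ω'} {π : Ω' → Ω} (h : ∀ ω, P'.pr π ω = P.w ω) {ω : Ω'}
    (hω : 0 < P'.w ω) : 0 < P.w (π ω) := by
  rw [← h]
  exact P'.pr_pos π hω

theorem exists_supp (P : Law Ω) : ∃ ω, 0 < P.w ω := by
  by_contra hcon
  push Not at hcon
  have : ∑ ω, P.w ω ≤ 0 := Finset.sum_nonpos fun ω _ => hcon ω
  rw [P.sum_one] at this
  linarith

/-- entropy of a variable with finitely many values -/
theorem hc_le_card {Ω' : Type} [Fintype Ω'] (P' : Law Ω') {A B : Type*} (U : Ω' → A) (V : Ω' → B)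
    (S : Finset A) (h : ∀ ω, 0 < P'.w ω → U ω ∈ S) : Stk.hc P' U V ≤ Real.log S.card :=
  Stk.hc_le_log P' U V S.card fun _ _ => ⟨S, le_rfl, fun ω' h1 _ => h ω' h1⟩

theorem gval_le_of (hΛ : 0 ≤ Λ) {G : ℝ} {S : Finset η}
    (hB : ∀ ω, 0 < P.w ω → ∀ w, Ad ω w → -G ≤ g ω w ∧ sh w ∈ S) {Ω' : Type} [Fintype Ω'] {P' : Law Ω'}
    {π : Ω' → Ω} {W : Ω' → τ} (h1 : ∀ ω, P'.pr π ω = P.w ω) (h2 : ∀ ω, 0 < P'.w ω → Ad (π ω) (W ω)) :
    gval Λ sh g X Y Z P' π W ≤ P.H X + Λ * Real.log S.card + G := by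
  have a1 : Stk.hc P' (fun ω => X (π ω)) (fun ω => (W ω, Y (π ω))) ≤ P.H X := by
    refine (Stk.hc_le_H P' _ _).trans (le_of_eq ?_)
    exact Stk.H_law_aux P' P π h1 X
  have a2 : Stk.hc P' (fun ω => sh (W ω)) (fun ω => Z (π ω)) ≤ Real.log S.card :=
    hc_le_card P' _ _ S fun ω hω => (hB (π ω) (supp_ext h1 hω) (W ω) (h2 ω hω)).2
  have a3 : -G ≤ P'.ex fun ω => g (π ω) (W ω) := by
    have e := P'.ex_mono (f := fun _ => -G) (g := fun ω => g (π ω) (W ω))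
      (fun ω hω => (hB (π ω) (supp_ext h1 hω) (W ω) (h2 ω hω)).1)
    rwa [P'.ex_const] at e
  have a4 := mul_le_mul_of_nonneg_left a2 hΛ
  unfold gval
  linarith

theorem gSet_bdd (hΛ : 0 ≤ Λ) (hB : GB sh Ad g P) : BddAbove (gSet Λ sh Ad g P X Y Z) := by
  obtain ⟨G, S, hGS⟩ := hB
  refine ⟨P.H X + Λ * Real.log S.card + G, ?_⟩
  rintro v ⟨Ω', _, P', π, W, h1, h2, rfl⟩
  exact gval_le_of hΛ hGS h1 h2

theorem gval_le_gsup (hΛ : 0 ≤ Λ) (hB : GB sh Ad g P) {Ω' : Type} [Fintype Ω'] {P' : Law Ω'} {π : Ω' → Ω}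
    {W : Ω' → τ} (h1 : ∀ ω, P'.pr π ω = P.w ω) (h2 : ∀ ω, 0 < P'.w ω → Ad (π ω) (W ω)) :
    gval Λ sh g X Y Z P' π W ≤ gsup Λ sh Ad g P X Y Z :=
  le_csSup (gSet_bdd hΛ hB) ⟨Ω', inferInstance, P', π, W, h1, h2, rfl⟩

/-- a label on the space itself -/
theorem gval_le_gsup' (hΛ : 0 ≤ Λ) (hB : GB sh Ad g P) {W : Ω → τ} (h2 : ∀ ω, 0 < P.w ω → Ad ω (W ω)) :
    gval Λ sh g X Y Z P id W ≤ gsup Λ sh Ad g P X Y Z :=
  gval_le_gsup hΛ hB (Stk.pr_id P) h2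

theorem exists_label (hN : NE Ad P) : ∃ W : Ω → τ, ∀ ω, 0 < P.w ω → Ad ω (W ω) := by
  classical
  obtain ⟨ω0, h0⟩ := exists_supp P
  obtain ⟨w0, -⟩ := hN ω0 h0
  refine ⟨fun ω => if h : 0 < P.w ω then (hN ω h).choose else w0, fun ω hω => ?_⟩
  simp only [hω, dif_pos]
  exact (hN ω hω).choose_spec

theorem gSet_nonempty (hN : NE Ad P) : (gSet Λ sh Ad g P X Y Z).Nonempty := by
  obtain ⟨W, hW⟩ := exists_label hN
  exact ⟨_, Ω, inferInstance, P, id, W, Stk.pr_id P, hW, rfl⟩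

theorem exists_near (hN : NE Ad P) {ε : ℝ} (hε : 0 < ε) :
    ∃ (Ω' : Type) (_ : Fintype Ω') (P' : Law Ω') (π : Ω' → Ω) (W : Ω' → τ),
      (∀ ω, P'.pr π ω = P.w ω) ∧ (∀ ω, 0 < P'.w ω → Ad (π ω) (W ω)) ∧
      gsup Λ sh Ad g P X Y Z - ε ≤ gval Λ sh g X Y Z P' π W := by
  obtain ⟨v, ⟨Ω', i, P', π, W, h1, h2, rfl⟩, h3⟩ := exists_lt_of_lt_csSup
    (s := gSet Λ sh Ad g P X Y Z) (gSet_nonempty hN)
    (sub_lt_self (sSup (gSet Λ sh Ad g P X Y Z)) hε)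
  exact ⟨Ω', i, P', π, W, h1, h2, h3.le⟩

/-- upper bounds for the supremum -/
theorem gsup_le (hN : NE Ad P) {v : ℝ}
    (h : ∀ (Ω' : Type) [Fintype Ω'] (P' : Law Ω') (π : Ω' → Ω) (W : Ω' → τ),
      (∀ ω, P'.pr π ω = P.w ω) → (∀ ω, 0 < P'.w ω → Ad (π ω) (W ω)) → gval Λ sh g X Y Z P' π W ≤ v) :
    gsup Λ sh Ad g P X Y Z ≤ v := by
  refine csSup_le (gSet_nonempty hN) ?_
  rintro _ ⟨Ω', _, P', π, W, h1, h2, rfl⟩
  exact h Ω' P' π W h1 h2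

/-- admissibility and cost matter on the support only -/
theorem gsup_congr {Ad' : Ω → τ → Prop} {g' : Ω → τ → ℝ}
    (h : ∀ ω, 0 < P.w ω → ∀ w, (Ad ω w ↔ Ad' ω w)) (h' : ∀ ω, 0 < P.w ω → ∀ w, Ad ω w → g ω w = g' ω w) :
    gsup Λ sh Ad g P X Y Z = gsup Λ sh Ad' g' P X Y Z := by
  unfold gsup
  congr 1
  ext v
  constructor
  · rintro ⟨Ω', i, P', π, W, h1, h2, rfl⟩
    refine ⟨Ω', i, P', π, W, h1, fun ω hω => (h _ (supp_ext h1 hω) _).1 (h2 ω hω), ?_⟩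
    unfold gval
    congr 1
    exact P'.ex_congr fun ω hω => h' _ (supp_ext h1 hω) _ (h2 ω hω)
  · rintro ⟨Ω', i, P', π, W, h1, h2, rfl⟩
    refine ⟨Ω', i, P', π, W, h1, fun ω hω => (h _ (supp_ext h1 hω) _).2 (h2 ω hω), ?_⟩
    unfold gval
    congr 1
    exact (P'.ex_congr fun ω hω => h' _ (supp_ext h1 hω) _
      ((h _ (supp_ext h1 hω) _).2 (h2 ω hω))).symm

section more

variable {σ' γ' ζ' : Type*} {X' : Ω → σ'} {Y' : Ω → γ'} {Z' : Ω → ζ'}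

theorem fn_ext {Ω' : Type} [Fintype Ω'] {P' : Law Ω'} {π : Ω' → Ω} (h : ∀ ω, P'.pr π ω = P.w ω) {A B : Type*}
    {U : Ω → A} {V : Ω → B} (hUV : Stk.Fn P U V) : Stk.Fn P' (fun ω => U (π ω)) (fun ω => V (π ω)) :=
  fun ω ω' h1 h2 e => hUV (π ω) (π ω') (supp_ext h h1) (supp_ext h h2) e

/-- a finer conditioning variable and a coarser main variable decrease the supremum -/
theorem gsup_mono (hΛ : 0 ≤ Λ) (hB : GB sh Ad g P) (hN : NE Ad P)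
    (h1 : Stk.Fn P X (fun ω => (X' ω, Y ω))) (h2 : Stk.Fn P Y' Y) (h3 : Stk.Fn P Z' Z) :
    gsup Λ sh Ad g P X Y Z ≤ gsup Λ sh Ad g P X' Y' Z' := by
  refine gsup_le hN fun Ω' _ P' π W e1 e2 => ?_
  refine le_trans ?_ (gval_le_gsup hΛ hB e1 e2)
  have a1 : Stk.hc P' (fun ω => X (π ω)) (fun ω => (W ω, Y (π ω))) ≤
      Stk.hc P' (fun ω => X' (π ω)) (fun ω => (W ω, Y' (π ω))) := by
    refine (Stk.hc_mono_left P' (X' := fun ω => X' (π ω)) ?_).trans (Stk.hc_mono_right P' _ ?_)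
    · intro ω ω' p p' e
      simp only [Prod.mk.injEq] at e
      exact h1 (π ω) (π ω') (supp_ext e1 p) (supp_ext e1 p') (Prod.ext e.1 e.2.2)
    · intro ω ω' p p' e
      simp only [Prod.mk.injEq] at e ⊢
      exact ⟨e.1, h2 (π ω) (π ω') (supp_ext e1 p) (supp_ext e1 p') e.2⟩
  have a2 : Stk.hc P' (fun ω => sh (W ω)) (fun ω => Z (π ω)) ≤
      Stk.hc P' (fun ω => sh (W ω)) (fun ω => Z' (π ω)) :=
    Stk.hc_mono_right P' _ (fn_ext e1 h3)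
  have a3 := mul_le_mul_of_nonneg_left a2 hΛ
  unfold gval
  linarith

/-- equivalent variables -/
theorem gsup_congr_var (hΛ : 0 ≤ Λ) (hB : GB sh Ad g P) (hN : NE Ad P)
    (h1 : Stk.Fn P X (fun ω => (X' ω, Y ω))) (h1' : Stk.Fn P X' (fun ω => (X ω, Y' ω)))
    (h2 : Stk.Fn P Y' Y) (h2' : Stk.Fn P Y Y') (h3 : Stk.Fn P Z' Z) (h3' : Stk.Fn P Z Z') :
    gsup Λ sh Ad g P X Y Z = gsup Λ sh Ad g P X' Y' Z' :=
  le_antisymm (gsup_mono hΛ hB hN h1 h2 h3) (gsup_mono hΛ hB hN h1' h2' h3')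

end more

/-- more side information decreases the supremum -/
theorem gsup_mono_cond {V : Type*} (C : Ω → V) (hΛ : 0 ≤ Λ) (hB : GB sh Ad g P) (hN : NE Ad P) :
    gsup Λ sh Ad g P X (fun ω => (Y ω, C ω)) (fun ω => (Z ω, C ω)) ≤ gsup Λ sh Ad g P X Y Z :=
  gsup_mono hΛ hB hN (fun _ _ _ _ e => congrArg Prod.fst e) (fun _ _ _ _ e => congrArg Prod.fst e)
    (fun _ _ _ _ e => congrArg Prod.fst e)

/-- the supremum decreases at most by the entropy of the side information -/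
theorem gsup_le_add {V : Type} (C : Ω → V) (hΛ : 0 ≤ Λ) (hB : GB sh Ad g P) (hN : NE Ad P) :
    gsup Λ sh Ad g P X Y Z ≤ gsup Λ sh Ad g P X (fun ω => (Y ω, C ω)) (fun ω => (Z ω, C ω)) +
      Stk.hc P C Y + Λ * Stk.hc P C Z := by
  refine gsup_le hN fun Ω' _ P' π W e1 e2 => ?_
  have h0 := gval_le_gsup (X := X) (Y := fun ω => (Y ω, C ω)) (Z := fun ω => (Z ω, C ω)) hΛ hB e1 e2
  have a1 : Stk.hc P' (fun ω => X (π ω)) (fun ω => (W ω, Y (π ω))) ≤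
      Stk.hc P' (fun ω => X (π ω)) (fun ω => (W ω, (Y (π ω), C (π ω)))) + Stk.hc P C Y := by
    have b1 := Stk.hc_le_add' P' (fun ω => X (π ω)) (fun ω => C (π ω)) (fun ω => (W ω, Y (π ω)))
    have b2 : Stk.hc P' (fun ω => X (π ω)) (fun ω => (C (π ω), (W ω, Y (π ω)))) ≤
        Stk.hc P' (fun ω => X (π ω)) (fun ω => (W ω, (Y (π ω), C (π ω)))) := by
      refine Stk.hc_mono_right P' _ fun ω ω' _ _ e => ?_
      simp only [Prod.mk.injEq] at e ⊢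
      exact ⟨e.2.1, e.2.2, e.1⟩
    have b3 : Stk.hc P' (fun ω => C (π ω)) (fun ω => (W ω, Y (π ω))) ≤
        Stk.hc P' (fun ω => C (π ω)) (fun ω => Y (π ω)) :=
      Stk.hc_mono_right P' _ fun _ _ _ _ e => congrArg Prod.snd e
    have b4 := Stk.hc_of_law P' P π e1 C Y
    have b5 : Stk.hc P' (fun ω => C (π ω)) (fun ω => Y (π ω)) = Stk.hc P C Y := b4
    linarith
  have a2 : Stk.hc P' (fun ω => sh (W ω)) (fun ω => Z (π ω)) ≤
      Stk.hc P' (fun ω => sh (W ω)) (fun ω => (Z (π ω), C (π ω))) + Stk.hc P C Z := by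
    have b1 := Stk.hc_le_add' P' (fun ω => sh (W ω)) (fun ω => C (π ω)) (fun ω => Z (π ω))
    have b2 : Stk.hc P' (fun ω => sh (W ω)) (fun ω => (C (π ω), Z (π ω))) ≤
        Stk.hc P' (fun ω => sh (W ω)) (fun ω => (Z (π ω), C (π ω))) := by
      refine Stk.hc_mono_right P' _ fun ω ω' _ _ e => ?_
      simp only [Prod.mk.injEq] at e ⊢
      exact ⟨e.2, e.1⟩
    have b5 : Stk.hc P' (fun ω => C (π ω)) (fun ω => Z (π ω)) = Stk.hc P C Z :=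
      Stk.hc_of_law P' P π e1 C Z
    linarith
  have a3 := mul_le_mul_of_nonneg_left a2 hΛ
  unfold gval at h0 ⊢
  nlinarith

/-- the supremum of an extension -/
theorem gsup_ext {Ω' : Type} [Fintype Ω'] {P' : Law Ω'} {π : Ω' → Ω} (h : ∀ ω, P'.pr π ω = P.w ω) :
    gsup Λ sh (fun ω w => Ad (π ω) w) (fun ω w => g (π ω) w) P' (fun ω => X (π ω)) (fun ω => Y (π ω))
      (fun ω => Z (π ω)) = gsup Λ sh Ad g P X Y Z := by
  unfold gsup
  congr 1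
  ext v
  constructor
  · rintro ⟨Ω'', _, P'', π', W, h1, h2, rfl⟩
    refine ⟨Ω'', inferInstance, P'', fun ω => π (π' ω), W, ?_, h2, rfl⟩
    intro ω
    have := Stk.pr_law_aux P'' P' π' h1 π ω
    rw [← h ω, ← this]
    rfl
  · rintro ⟨Ω'', _, P'', π', W, h1, h2, rfl⟩
    obtain ⟨Ω₃, _, Q, π₁, π₂, g1, g2, g3, -⟩ := Stk.glue_exists P'' P' π' π
      (fun s => (h1 s).trans (h s).symm)
    refine ⟨Ω₃, inferInstance, Q, π₂, fun ω => W (π₁ ω), g3, ?_, ?_⟩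
    · intro ω hω
      have hpos : 0 < P''.w (π₁ ω) := by
        rw [← g2]
        exact Q.pr_pos π₁ hω
      rw [← g1]
      exact h2 (π₁ ω) hpos
    · have e0 : ∀ ω, π (π₂ ω) = π' (π₁ ω) := fun ω => (g1 ω).symm
      unfold gval
      simp only [e0]
      have e1 := Stk.hc_of_law Q P'' π₁ g2 (fun ω => X (π' ω)) (fun ω => (W ω, Y (π' ω)))
      have e2 := Stk.hc_of_law Q P'' π₁ g2 (fun ω => sh (W ω)) (fun ω => Z (π' ω))
      have e3 := Stk.ex_law_aux Q P'' π₁ g2 (fun ω => g (π' ω) (W ω))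
      rw [← e1, ← e2, ← e3]
      rfl

end Vale.Agent.P106.U.H127
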