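import Vale.Agent.P106.U.H127.MtrTJ
import Vale.Agent.P106.U.H465.PfD
import Vale.Agent.P106.U.H61.Ext2

/-!
# P106 / U / H127 : row [JUN] of the producer of `S3.F2` (helper127)

Over helper565's `C2`, helper465's `pfd`.  `c.lB i` = level of the line in blocks.

* `C2.lev127`, `C2.th` : the hypotheses of [MTR-T], constant `8`, level `A'`.
* `C2.dg127` : the path is diagonal in the zone `g` before an a-step of a level `v` with `RC (a' + 1) = RC a' + 1` for `a' ∈ [v - g, v)`.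
* `C2.junS`, `junW`, `junD` : far pairs `(k, j)`, weights, radii;  **`C2.jun_hB`** : `∑ junW * (2 ^ rk j * junD) ≤ 1536 J`
  = hypothesis `hB` of helper101's `oT_two` (`jb r = r.2`);  `C2.junT` : left side of its conclusion at one place.
* **`C2.cJun_le`** : `cJun ≤ q2 (μ / 8 + m / 2) / (K'' (m + μ + 1)) * (6144 J + junT)`, for ALL `m ≤ μ ≤ B`, `280 ≤ K''`, all offsets
  `o`, `o'`, if `16 ≤ m`, `2 J (B / m + 6) < g` and the zone is diagonal at the levels of `Vs`.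
-/

set_option autoImplicit false

namespace Vale.Agent.P106.U.H565

open Finset Vale.Agent.P127 Vale.Agent.P127.Stk Vale.Agent.P127.U Vale.Agent.P106.W
open Vale.Agent.P106.K (Ry RyOk bl Bin)
open Vale.Agent.P127.U.CellD (q2 rd Nb q2_pos q2_le q2_add q2_mul_pow)
open Vale.Agent.P106.U Vale.Agent.P106.U.H449 Vale.Agent.P106.U.StripL Vale.Agent.P106.U.StripE
open Vale.Agent.P106.U.LinkR Vale.Agent.P106.U.InsL Vale.Agent.P106.U.InpC Vale.Agent.P106.U.LSide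
open Vale.Agent.P106.U.LinkW2
open Vale.Agent.P106.U.H428.Cls (Dt)
open Vale.Agent.P106.U.H127.MtrT

variable {Ω : Type} [Fintype Ω]

namespace C2

/-- level of the line, in blocks -/
noncomputable def lB (c : C2 Ω) (i : ℕ) : ℕ := c.D.L.k (c.D.ix i)

variable {c : C2 Ω} {hm : 3 ≤ c.I.m} {Rm : ℕ} {cc : ℝ} {Ac rc : ℕ}

theorem lB_rk (H : c.Hyp Rm cc Ac rc) (i : ℕ) : c.run.C.rk i = c.I.m * (c.I.kb - 2) + c.I.m * c.lB i := by
  rw [rk_eq H i, Nat.mul_add]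
  rfl

/-- **the path in blocks** -/
theorem lev127 (H : c.Hyp Rm cc Ac rc) : Lev c.D.li c.lB c.I.J c.D.n where
  J1 := (path H).J1
  mA := c.D.li_mono
  mB := c.D.L.k_mono.comp c.D.ix_mono
  stp := fun j hj => by
    have hm1 : 1 ≤ c.I.m := (path H).m1
    have hN : j < c.run.n + c.num.J := Nat.lt_of_lt_of_le hj (Nat.le_add_right _ _)
    have key : c.run.C.a (j + 1) + c.run.C.rk (j + 1) ≤ c.run.C.a j + c.run.C.rk j + c.I.m := by
      have e : c.run.m = c.I.m := rfl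
      rcases (path H).stp j hN with ⟨h1, -, h3⟩ | ⟨h1, -, h3⟩ | ⟨h1, -, h3⟩ <;> rw [h1, h3] <;> omega
    rw [ra_eq H, ra_eq H, lB_rk H, lB_rk H] at key
    have h2 : c.I.m * (c.D.li (j + 1) + c.lB (j + 1)) ≤ c.I.m * (c.D.li j + c.lB j + 1) := by
      rw [Nat.mul_add, Nat.mul_add, Nat.mul_add, Nat.mul_one]
      omega
    exact Nat.le_of_mul_le_mul_left h2 hm1
  adv := fun i j hij hj ha => by
    have hm1 : 1 ≤ c.I.m := (path H).m1
    have h1 := (path H).advK i j hij hj (by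
      rw [ra_eq H, ra_eq H]
      show c.I.m * c.D.li i + c.I.J * c.I.m ≤ c.I.m * c.D.li j
      have := Nat.mul_le_mul_left c.I.m ha
      rw [Nat.mul_add, Nat.mul_comm c.I.m c.I.J] at this
      exact this)
    rw [lB_rk H, lB_rk H] at h1
    have h2 : c.I.m * c.lB i < c.I.m * c.lB j := by omega
    exact Nat.lt_of_mul_lt_mul_left h2

variable {k0 : ℕ → ℕ} {hk : Monotone k0} {hl : ∀ i, k0 i ≤ c.D.L.k (c.D.ix i)} {Bb : ℕ}

/-- the slope of the letter against the slope of the ray side -/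
theorem ga127 (H : c.Hyp Rm cc Ac rc) (j : ℕ) {ω : Ω} (hω : 0 < c.Q.w ω) :
    |c.inp.gA j ω - c.run.al j ω| * q2 (c.inp.a j) ≤ 2 * q2 (c.inp.rk j) := by
  have h3 := near_q2 c.cn2 H.gc (kb2 H) H.st.k0 H.st.a0 (li_ha H j) (kk_le H j) hω
  have e2 : c.run.al j ω = - aI c.I.m c.d0 (c.rule.T c.P (ia c.I.pm.n c.E1 (c.D.li j)) ω) := rfl
  have e3 : c.inp.gA j ω = - gAc c.I.m c.d0 c.g (c.D.li j) ω := rfl
  have e8 : c.inp.a j = c.run.C.a j := rfl
  have e9 : c.inp.rk j = c.run.C.rk j := rfl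
  rw [← ra_eq H, ← rk_eq H] at h3
  rw [e2, e3, e8, e9]
  have e1 : - gAc c.I.m c.d0 c.g (c.D.li j) ω - - aI c.I.m c.d0 (c.rule.T c.P (ia c.I.pm.n c.E1 (c.D.li j)) ω) =
      aI c.I.m c.d0 (c.rule.T c.P (ia c.I.pm.n c.E1 (c.D.li j)) ω) - gAc c.I.m c.d0 c.g (c.D.li j) ω := by ring
  rw [e1]
  exact h3

/-- **the hypotheses of [MTR-T]** -/
theorem th (H : c.Hyp Rm cc Ac rc) (HX : c.HX hm) (μ : ℕ) (o : Fin 7 → ℝ) (o' : ℕ → ℝ) :
    TH c.inp (S3.mt (c.erun hm) (c.pfd hm k0 hk hl Bb) μ o o') c.Q c.D.li c.lB 8 c.I.m (c.I.m * (c.I.kb - 2)) c.I.J c.D.n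
      c.I.num.A' where
  same := ⟨rfl, rfl, rfl, rfl, fun _ _ => rfl, fun _ => rfl⟩
  lev := lev127 H
  K1 := by norm_num
  a := fun j _ => ra_eq H j
  rk := fun j _ => lB_rk H j
  ah := fun i _ => (hw H).la_le i
  bd := fun i _ ω hω => by
    have hy := (hw H).hy (o := c.o) (oK := c.oK) (oG := c.oG) (oN := c.oN) hω
    have h1 := q2_pos (c.inp.a i)
    have h2 := q2_pos c.I.num.A'
    refine ⟨hy.w1, ?_, ?_, ?_⟩
    · refine (hy.tm i).trans ?_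
      exact mul_le_mul_of_nonneg_right (by norm_num) h1.le
    · refine hy.Nc.trans ?_
      exact mul_le_mul_of_nonneg_right (by norm_num) h2.le
    · have h3 := hy.gW i
      have h4 := ga127 H i hω
      have h5 : q2 c.I.num.A' ≤ q2 (c.inp.a i) := q2_le ((hw H).la_le i)
      have h6 : |c.inp.gA i ω - c.run.al i ω| * q2 c.I.num.A' ≤ 2 * q2 (c.inp.rk i) :=
        (mul_le_mul_of_nonneg_left h5 (abs_nonneg _)).trans h4
      have h3' : |c.inp.gA i ω - (c.inp.FW ω).al| * q2 c.I.num.A' ≤ 6 * q2 (c.inp.rk i) := h3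
      have h7 : |c.run.al i ω - (c.inp.FW ω).al| ≤ |c.inp.gA i ω - c.run.al i ω| + |c.inp.gA i ω - (c.inp.FW ω).al| := by
        have := abs_sub (c.inp.gA i ω - (c.inp.FW ω).al) (c.inp.gA i ω - c.run.al i ω)
        have e1 : c.inp.gA i ω - (c.inp.FW ω).al - (c.inp.gA i ω - c.run.al i ω) = c.run.al i ω - (c.inp.FW ω).al := by ring
        rw [e1] at this
        linarith
      have h8 := mul_le_mul_of_nonneg_right h7 h2.le
      show |c.run.al i ω - (c.inp.FW ω).al| * q2 c.I.num.A' ≤ 8 * q2 (c.inp.rk i)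
      rw [add_mul] at h8
      linarith
  ga := fun j _ ω hω => by
    have h1 := ga127 H j hω
    have h2 := q2_pos (c.inp.rk j)
    show |c.inp.gA j ω - c.run.al j ω| * q2 (c.inp.a j) ≤ 8 * q2 (c.inp.rk j)
    linarith
  gl := fun j _ j' _ e ω _ => by
    show - gAc c.I.m c.d0 c.g (c.D.li j) ω = - gAc c.I.m c.d0 c.g (c.D.li j') ω
    rw [e]
  hal := fun l j hlj hj hA ω hω => by
    have h1 : |c.run.al j ω - c.run.al l ω| * q2 (c.run.C.a j + c.run.m) ≤ 8 * q2 (c.run.rI l) :=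
      (hasU H).alD (by norm_num) l j hlj.le ω hω
    have hN : l < c.run.n + c.num.J := Nat.lt_of_lt_of_le (Nat.lt_of_lt_of_le hlj hj) (Nat.le_add_right _ _)
    have hI : c.run.IsA l := by
      have hm1 : 1 ≤ c.I.m := (path H).m1
      have hs := (lev127 H).stp l (Nat.lt_of_lt_of_le hlj hj)
      have hb := (lev127 H).mB (Nat.le_succ l)
      simp only [Nat.succ_eq_add_one] at hb
      show c.run.C.a (l + 1) = c.run.C.a l + c.I.m
      rw [ra_eq H, ra_eq H, show c.D.li (l + 1) = c.D.li l + 1 by omega, Nat.mul_add, Nat.mul_one]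
    have h2 := ((path H).leI l hN hI).1
    have h3 : q2 (c.run.rI l) ≤ q2 (c.run.C.rk l) := q2_le h2
    show |c.run.al j ω - c.run.al l ω| * q2 (c.run.C.a j + c.I.m) ≤ 8 * q2 (c.run.C.rk l)
    have h4 : |c.run.al j ω - c.run.al l ω| * q2 (c.run.C.a j + c.I.m) ≤ 8 * q2 (c.run.rI l) := h1
    linarith
  gf := fun i _ j hj ω ω' hω hω' e => by
    have e' : c.X hm i ω = c.X hm i ω' := e
    have e2 : c.X hm j ω = c.X hm j ω' := c.X_anti hm hj e'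
    have h1 : c.g (c.D.li j) ω = c.g (c.D.li j) ω' := by
      rw [HX.gx _ (li_ha H j) ω hω, HX.gx _ (li_ha H j) ω' hω']
      have h2 : (c.dt hm).pfR c.RC (c.D.li j) ω = (c.dt hm).pfR c.RC (c.D.li j) ω' := Dt.pfA_R le_rfl e2
      rw [h2]
    show - gAc c.I.m c.d0 c.g (c.D.li j) ω = - gAc c.I.m c.d0 c.g (c.D.li j) ω'
    unfold gAc
    rw [h1]

/-- **the zone** -/
theorem dg127 (H : c.Hyp Rm cc Ac rc) {k g : ℕ} (hk : k ≤ c.D.n) (hA : c.run.IsA k)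
    (hz : ∀ a, a < c.D.li k → c.D.li k ≤ a + g → c.RC (a + 1) = c.RC a + 1) : Dg c.D.li c.lB g k := by
  intro l hl h1 h2
  have hm1 : 1 ≤ c.I.m := (path H).m1
  have hn : c.D.n < c.D.N := by
    have h3 : c.D.N = c.D.n + c.I.J := rfl
    have h4 : 1 ≤ c.I.J := (path H).J1
    omega
  have hlN : l < c.D.N := by omega
  have hkN : k < c.D.N := by omega
  have hI : c.run.IsA l := by
    have hs := (lev127 H).stp l (by omega)
    have hb := (lev127 H).mB (Nat.le_succ l)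
    simp only [Nat.succ_eq_add_one] at hb
    show c.run.C.a (l + 1) = c.run.C.a l + c.I.m
    rw [ra_eq H, ra_eq H, show c.D.li (l + 1) = c.D.li l + 1 by omega, Nat.mul_add, Nat.mul_one]
  have hU := hasU H
  obtain ⟨-, h5⟩ := hU.has.lev_of_isA hlN hI
  obtain ⟨-, h6⟩ := hU.has.lev_of_isA hkN hA
  have h7 : c.lB l = c.RC (c.D.li l) := by
    show c.D.L.k (c.D.ix l) = _
    rw [c.D.li_eq hlN.le, c.D.ix_eq hlN.le]
    exact h5
  have h8 : c.lB k = c.RC (c.D.li k) := by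
    show c.D.L.k (c.D.ix k) = _
    rw [c.D.li_eq hkN.le, c.D.ix_eq hkN.le]
    exact h6
  rw [h7, h8]
  have h9 : ∀ d, c.D.li l + d ≤ c.D.li k → c.RC (c.D.li l + d) = c.RC (c.D.li l) + d := by
    intro d
    induction d with
    | zero => intro _; rfl
    | succ d ih =>
      intro hd
      rw [← Nat.add_assoc, hz (c.D.li l + d) (by omega) (by omega), ih (by omega)]
      ring
  have h10 := (lev127 H).mA hl.le
  have h11 := h9 (c.D.li k - c.D.li l) (by omega)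
  rw [show c.D.li l + (c.D.li k - c.D.li l) = c.D.li k by omega] at h11
  omega

/-- **one index** -/
theorem jun_T (H : c.Hyp Rm cc Ac rc) (HX : c.HX hm) (h16 : 16 ≤ c.I.m) (μ : ℕ) (o : Fin 7 → ℝ) (o' : ℕ → ℝ) {k g s0 : ℕ}
    (hkn : k ≤ c.D.n) (hA : c.run.IsA k)
    (hz : ∀ a, a < c.D.li k → c.D.li k ≤ a + g → c.RC (a + 1) = c.RC a + 1) (hs : 2 ≤ s0)
    (hg : 2 * c.I.J * (s0 + 1) < g) :
    Stk.hc (c.erun hm).Q ((c.erun hm).C.T k) ((S3.mt (c.erun hm) (c.pfd hm k0 hk hl Bb) μ o o').lt k) ≤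
      μ + 10 * (s0 + 2) * (c.I.m + 16) +
      ∑ j ∈ far c.D.li c.lB c.I.J g s0 k, (4 * Real.sqrt (pK c.Q c.inp j (rj c.inp c.D.li c.lB c.I.J g (c.I.m + 14) c.I.m k j)) +
        4 * Real.sqrt (pG c.Q c.inp j (rj c.inp c.D.li c.lB c.I.J g (c.I.m + 14) c.I.m k j))) := by
  have T := th (k0 := k0) (hk := hk) (hl := hl) (Bb := Bb) H HX μ o o'
  have h1 := hc_T_N T hkn (dg127 H hkn hA hz) (κ0 := 14) (s0 := s0) (by norm_num) (by nlinarith) hg
  have h2 : Stk.hc c.Q (fun ω => (c.inp.T k ω, c.X hm k ω)) ((S3.mt (c.erun hm) (c.pfd hm k0 hk hl Bb) μ o o').lt k) ≤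
      Stk.hc c.Q (c.inp.T k) ((S3.mt (c.erun hm) (c.pfd hm k0 hk hl Bb) μ o o').lt k) :=
    hc_ext (D := S3.mt (c.erun hm) (c.pfd hm k0 hk hl Bb) μ o o') (c.X hm k) (fun _ _ _ _ h => h)
  have h3 : (2 : ℝ) * ((S3.mt (c.erun hm) (c.pfd hm k0 hk hl Bb) μ o o').ν : ℕ) ≤ μ := by
    have e1 : (S3.mt (c.erun hm) (c.pfd hm k0 hk hl Bb) μ o o').ν = μ / 2 := rfl
    rw [e1]
    exact_mod_cast Nat.mul_div_le μ 2
  have h4 : Stk.hc (c.erun hm).Q ((c.erun hm).C.T k) ((S3.mt (c.erun hm) (c.pfd hm k0 hk hl Bb) μ o o').lt k) ≤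
      Stk.hc c.Q (c.inp.T k) ((S3.mt (c.erun hm) (c.pfd hm k0 hk hl Bb) μ o o').lt k) := h2
  push_cast at h1
  have h5 : (10 : ℝ) * (s0 + 2) * (c.I.m + 14 + 2) = 10 * (s0 + 2) * (c.I.m + 16) := by ring
  rw [h5] at h1
  linarith

/-! ### one place -/

variable (c)

/-- the far pairs `(k, j)` -/
noncomputable def junS (g : ℕ) : Finset (ℕ × ℕ) := JS c.D.li c.lB c.I.J g c.D.n

/-- weights -/
noncomputable def junW (g : ℕ) (r : ℕ × ℕ) : ℝ := jw c.D.li c.lB c.I.J g c.I.m c.D.n r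

/-- radii -/
noncomputable def junD (g : ℕ) (r : ℕ × ℕ) : ℝ := jd c.D.li c.lB c.I.J g c.I.m 14 c.inp.rk r

/-- **the weighted sum of the events of one place** (literally helper101's (B), `jb r = r.2`) -/
noncomputable def junT (g : ℕ) : ℝ :=
  ∑ r ∈ c.junS g, c.junW g r * (prE c.Q (fun ω => Nb (c.inp.rk r.2) (c.inp.kR r.2 ω + c.inp.oK) (c.junD g r)) +
    prE c.Q (fun ω => Nb (c.inp.rk r.2) (c.inp.gR r.2 ω + c.inp.oG) (c.junD g r)))

variable {c}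

theorem junW_nonneg (g : ℕ) (r : ℕ × ℕ) : 0 ≤ c.junW g r := jw_nonneg r

theorem junD_nonneg (g : ℕ) (r : ℕ × ℕ) : 0 ≤ c.junD g r := jd_nonneg r

theorem junT_nonneg (g : ℕ) : 0 ≤ c.junT g := JT_nonneg (junW_nonneg g)

/-- **hypothesis `hB` of helper101's `oT_two`** -/
theorem jun_hB (H : c.Hyp Rm cc Ac rc) (h16 : 16 ≤ c.I.m) (g : ℕ) :
    ∑ r ∈ c.junS g, c.junW g r * (2 ^ c.inp.rk r.2 * c.junD g r) ≤ 1536 * c.I.J :=
  jB (lev127 H) (by omega) (κ0 := 14) (by omega) c.inp.rk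

/-- **the junctions of one place**, any margin, any constant, any offsets -/
theorem sJ_le (H : c.Hyp Rm cc Ac rc) (HX : c.HX hm) (h16 : 16 ≤ c.I.m) {B g μ : ℕ} (hμ : μ ≤ B)
    (hg : 2 * c.I.J * (B / c.I.m + 6) < g) {Vs Xs : Finset ℕ}
    (hz : ∀ v ∈ Vs, ∀ a, a < v → v ≤ a + g → c.RC (a + 1) = c.RC a + 1) {K'' : ℝ} (hK : 280 ≤ K'') (o : Fin 7 → ℝ)
    (o' : ℕ → ℝ) :
    H61.Ext2.sJ (c.erun hm) (c.pfd hm k0 hk hl Bb) Vs Xs μ K'' o o' ≤
      q2 (μ / 4 + c.I.m / 2) * ((c.D.n + c.I.J + 1) * (6144 * c.I.J + c.junT g)) := by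
  classical
  have hm1 : 1 ≤ c.I.m := (path H).m1
  obtain ⟨q, hqd⟩ : ∃ q, μ / c.I.m = q := ⟨_, rfl⟩
  obtain ⟨s0, hs0⟩ : ∃ s0, s0 = q + 5 := ⟨_, rfl⟩
  have hq : q ≤ B / c.I.m := hqd ▸ Nat.div_le_div_right hμ
  have hg' : 2 * c.I.J * (s0 + 1) < g := by
    have : 2 * c.I.J * (s0 + 1) ≤ 2 * c.I.J * (B / c.I.m + 6) := Nat.mul_le_mul_left _ (by omega)
    omega
  have hmul : c.I.m * q ≤ μ := hqd ▸ Nat.mul_div_le _ _
  have hmul' : μ < c.I.m * q + c.I.m := by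
    have := Nat.lt_mul_div_succ μ (show 0 < c.I.m by omega)
    rwa [Nat.mul_add, Nat.mul_one, hqd] at this
  have near : ∀ k ∈ (Icc 1 (c.erun hm).n).filter (fun k => S3.lv (c.erun hm) k ∈ Vs ∧ S3.lv (c.erun hm) k ∉ Xs ∧
      (c.erun hm).IsA k),
      max 0 (Stk.hc (c.erun hm).Q ((c.erun hm).C.T k) ((S3.mt (c.erun hm) (c.pfd hm k0 hk hl Bb) μ o o').lt k) -
        K'' / 2 * ((μ : ℝ) + (c.erun hm).m)) ≤
      ∑ j ∈ far c.D.li c.lB c.I.J g s0 k, (4 * Real.sqrt (pK c.Q c.inp j (rj c.inp c.D.li c.lB c.I.J g (c.I.m + 14) c.I.m k j)) +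
        4 * Real.sqrt (pG c.Q c.inp j (rj c.inp c.D.li c.lB c.I.J g (c.I.m + 14) c.I.m k j))) := by
    intro k hk'
    obtain ⟨h1, h2, -, h3⟩ := Finset.mem_filter.1 hk'
    refine max_le (Finset.sum_nonneg fun j _ => by positivity) ?_
    rw [lv_eq H] at h2
    have h4 := jun_T (k0 := k0) (hk := hk) (hl := hl) (Bb := Bb) H HX h16 μ o o' (k := k) (g := g) (s0 := s0)
      (Finset.mem_Icc.1 h1).2 h3 (fun a ha ha' => hz _ h2 a ha ha') (by omega) hg'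
    have h5 : (10 : ℝ) * (s0 + 2) * (c.I.m + 16) ≤ 20 * μ + 140 * c.I.m := by
      have e1 : 10 * (s0 + 2) * (c.I.m + 16) ≤ 20 * μ + 140 * c.I.m := by
        have e2 : 10 * (s0 + 2) * (c.I.m + 16) ≤ 10 * (s0 + 2) * (2 * c.I.m) := Nat.mul_le_mul_left _ (by omega)
        have e3 : 10 * (s0 + 2) * (2 * c.I.m) = 20 * (c.I.m * q) + 140 * c.I.m := by
          rw [hs0]
          ring
        omega
      exact_mod_cast e1
    have e3 : ((c.erun hm).m : ℝ) = c.I.m := rfl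
    rw [e3]
    have hm0 : (0 : ℝ) ≤ c.I.m := Nat.cast_nonneg _
    have hμ0 : (0 : ℝ) ≤ μ := Nat.cast_nonneg _
    have h6 : 140 * ((μ : ℝ) + c.I.m) ≤ K'' / 2 * ((μ : ℝ) + c.I.m) :=
      mul_le_mul_of_nonneg_right (by linarith) (by positivity)
    linarith
  unfold H61.Ext2.sJ
  refine (Finset.sum_le_sum near).trans ?_
  refine (sum_far_w (m := c.I.m) (κ0 := 14) (Q := c.Q) (D0 := c.inp) (g := g) (lev127 H) hm1 (s0 := s0) (by omega) _
    (Finset.filter_subset _ _)).trans ?_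
  have e1 : q2 (c.I.m * (s0 - 1) / 4) ≤ q2 (μ / 4 + c.I.m / 2) := by
    refine q2_le ?_
    have e2 : c.I.m * (s0 - 1) = c.I.m * q + 4 * c.I.m := by
      rw [hs0, show q + 5 - 1 = q + 4 by omega]
      ring
    rw [e2]
    omega
  have e4 : JT c.Q c.inp (JS c.D.li c.lB c.I.J g c.D.n) (jw c.D.li c.lB c.I.J g c.I.m c.D.n)
      (jd c.D.li c.lB c.I.J g c.I.m 14 c.inp.rk) = c.junT g := rfl
  rw [e4]
  refine mul_le_mul_of_nonneg_right e1 ?_
  have := junT_nonneg (c := c) g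
  positivity

/-- **the cost `cJun` of one place** -/
theorem cJun_le (H : c.Hyp Rm cc Ac rc) (HX : c.HX hm) (h16 : 16 ≤ c.I.m) {B g μ : ℕ} (hμ : μ ≤ B)
    (hg : 2 * c.I.J * (B / c.I.m + 6) < g) {Vs Xs : Finset ℕ}
    (hz : ∀ v ∈ Vs, ∀ a, a < v → v ≤ a + g → c.RC (a + 1) = c.RC a + 1) {K'' : ℝ} (hK : 280 ≤ K'') (o : Fin 7 → ℝ)
    (o' : ℕ → ℝ) :
    H61.Ext2.cJun (c.erun hm) c.num B (c.pfd hm k0 hk hl Bb) Vs Xs μ K'' o o' ≤
      q2 (μ / 8 + c.I.m / 2) / K'' * (6144 * c.I.J + c.junT g) := by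
  have h1 := sJ_le (k0 := k0) (hk := hk) (hl := hl) (Bb := Bb) (Xs := Xs) H HX h16 hμ hg hz hK o o'
  have hT := junT_nonneg (c := c) g
  have hK0 : 0 < K'' := by linarith
  unfold H61.Ext2.cJun
  rw [div_le_iff₀ (H61.Ext2.F2b_pos hK0)]
  refine h1.trans ?_
  have h2 : K'' * (c.I.m + μ + 1) * q2 (μ / 8) * (c.D.n + c.I.J + 1) ≤ S3.F2b (c.erun hm) c.num B μ K'' 0 := by
    unfold S3.F2b
    have e1 : (0 : ℝ) ≤ (c.erun hm).h / B := by positivity
    have e2 : K'' * (((0 : ℕ) : ℝ) + 1) ^ 2 * ((c.erun hm).m + μ + 1) * q2 (μ / 8) * ((c.erun hm).n + c.num.J + 1) =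
        K'' * (c.I.m + μ + 1) * q2 (μ / 8) * (c.D.n + c.I.J + 1) := by
      show K'' * (((0 : ℕ) : ℝ) + 1) ^ 2 * ((c.I.m : ℝ) + μ + 1) * q2 (μ / 8) * ((c.D.n : ℝ) + c.I.J + 1) = _
      push_cast
      ring
    rw [e2]
    linarith
  have h3 : q2 (μ / 4 + c.I.m / 2) ≤ q2 (μ / 8 + c.I.m / 2) * q2 (μ / 8) := by
    rw [← q2_add]
    exact q2_le (by omega)
  have hq1 := q2_pos (μ / 8 + c.I.m / 2)
  have hq2 := q2_pos (μ / 8)
  set X : ℝ := 6144 * c.I.J + c.junT g with hX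
  have hX0 : 0 ≤ X := by
    rw [hX]
    positivity
  have hN : (0 : ℝ) < c.D.n + c.I.J + 1 := by positivity
  have hmμ : (1 : ℝ) ≤ c.I.m + μ + 1 := by
    have e1 : (0 : ℝ) ≤ c.I.m := Nat.cast_nonneg _
    have e2 : (0 : ℝ) ≤ μ := Nat.cast_nonneg _
    linarith
  calc q2 (μ / 4 + c.I.m / 2) * ((c.D.n + c.I.J + 1) * X)
      ≤ (q2 (μ / 8 + c.I.m / 2) * q2 (μ / 8)) * ((c.D.n + c.I.J + 1) * X) :=
        mul_le_mul_of_nonneg_right h3 (by positivity)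
    _ ≤ (q2 (μ / 8 + c.I.m / 2) * q2 (μ / 8)) * ((c.D.n + c.I.J + 1) * X) * (c.I.m + μ + 1) :=
        le_mul_of_one_le_right (by positivity) hmμ
    _ = q2 (μ / 8 + c.I.m / 2) / K'' * X * (K'' * (c.I.m + μ + 1) * q2 (μ / 8) * (c.D.n + c.I.J + 1)) := by
        field_simp
    _ ≤ _ := mul_le_mul_of_nonneg_left h2 (by positivity)

end C2

end Vale.Agent.P106.U.H565
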