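import Vale.Agent.P106.U.H785.MtrOk
import Vale.Agent.P106.U.S3.PthW
import Vale.Agent.P106.U.H118.RiseC

/-!
# P106 / U / H127 : [MTR-T], the letter of the path given the letter without history (helper127)

`T i` = history of the records of `S3.PthW` (`j ≤ i`), `lt i` = 785's letter (prefix letter `pf i` of ALL levels `≤ a i`).
* `kR_eq`, `gR_eq` : the two numbers of the record `j` from the numbers of `lt i`.
* `dif` : given the letter and `Yx` they are known to `dl = 8 K² (2^-rk i + X i j)`, `|gA j - al i| 2^-a i ≤ X i j`.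
* `hc_T` : `hc (T i) (lt i) ≤ log (9 4^ν (2 M + 1)) + ∑ j ∈ S, (hc (kN j) Yf + hc (gN j) Yf)`, `S` = distinct pairs `(a, rk)`.
* `dig_near`, `dig_far` : one number.
-/

set_option autoImplicit false

namespace Vale.Agent.P106.U.H127.MtrT

open Finset Vale.Agent.P127 Vale.Agent.P127.Stk
open Vale.Agent.P127.U.CellD (q2 rd Nb q2_pos q2_le rd_err fl1_fl1 q2_mul_pow)
open Vale.Agent.P106.U.Cell
open Vale.Agent.P106.U.S3.PthW (Inp)
open Vale.Agent.P106.U.H785.Mtr (Mtd)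
open Vale.Agent.P106.U.H118 (fl1_close fl1_bd)

section ent

variable {Ω : Type} [Fintype Ω] (P : Law Ω) {S T : Type*}

theorem hc_pair_le {U : Type*} (X : Ω → S) (Y : Ω → T) (C : Ω → U) :
    hc P (fun ω => (X ω, Y ω)) C ≤ hc P X C + hc P Y C := by
  rw [hc_pair P X Y C]
  have := hc_mono_right P Y (Y := C) (Y' := fun ω => (X ω, C ω)) fun ω ω' _ _ e => congrArg Prod.snd e
  linarith

open Classical in
/-- entropy of a finite family -/
theorem hc_fin (X : ℕ → Ω → S) (Y : Ω → T) (F : Finset ℕ) :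
    hc P (fun ω j => if j ∈ F then some (X j ω) else none) Y ≤ ∑ j ∈ F, hc P (X j) Y := by
  induction F using Finset.induction_on with
  | empty =>
    rw [Finset.sum_empty]
    refine (hc_zero P fun ω ω' _ _ _ => ?_).le
    funext j
    simp
  | insert a F ha ih =>
    rw [Finset.sum_insert ha]
    have h1 : hc P (fun ω j => if j ∈ insert a F then some (X j ω) else none) Y ≤
        hc P (fun ω => (X a ω, fun j => if j ∈ F then some (X j ω) else none)) Y := by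
      refine hc_mono_left P fun ω ω' _ _ e => ?_
      simp only [Prod.mk.injEq] at e
      funext j
      by_cases hj : j = a
      · subst hj
        simp only [Finset.mem_insert_self, if_true]
        rw [e.1.1]
      · have e2 := congrFun e.1.2 j
        simp only [Finset.mem_insert, hj, false_or]
        exact e2
    have h2 := hc_pair_le P (X a) (fun ω j => if j ∈ F then some (X j ω) else none) Y
    linarith

/-- one number, near : few values -/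
theorem dig_near (Z : Ω → ℝ) (Y : Ω → T) (n L : ℕ) (o : ℝ)
    (h : ∀ ω ω', 0 < P.w ω → 0 < P.w ω' → Y ω = Y ω' → |Z ω - Z ω'| ≤ L * q2 n) :
    hc P (fun ω => fl1 n (Z ω + o)) Y ≤ Real.log (2 * L + 1) := by
  have := hc_le_log P (fun ω => fl1 n (Z ω + o)) Y (2 * L + 1) (fun ω hω =>
    ⟨Icc (fl1 n (Z ω + o) - L) (fl1 n (Z ω + o) + L), by rw [Int.card_Icc]; omega, fun ω' hω' e => by
      have h1 := h ω' ω hω' hω e
      have h2 : |fl1 n (Z ω' + o) - fl1 n (Z ω + o)| ≤ (L : ℤ) :=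
        fl1_bd (by rw [show Z ω' + o - (Z ω + o) = Z ω' - Z ω by ring]; exact h1)
      rw [abs_le] at h2
      rw [Finset.mem_Icc]
      constructor <;> linarith [h2.1, h2.2]⟩)
  push_cast at this
  exact this

/-- one number, far : determined outside the event -/
theorem dig_far (Z : Ω → ℝ) (Y : Ω → T) (n L : ℕ) (o δ : ℝ) (hL : δ ≤ L * q2 n)
    (h : ∀ ω ω', 0 < P.w ω → 0 < P.w ω' → Y ω = Y ω' → |Z ω - Z ω'| ≤ δ) :
    hc P (fun ω => fl1 n (Z ω + o)) Y ≤ 2 * Real.sqrt (prE P fun ω => Nb n (Z ω + o) δ) +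
      prE P (fun ω => Nb n (Z ω + o) δ) * Real.log (2 * L + 1) := by
  have := Vale.Agent.P127.U.CellE.hc_bad P (fun ω => fl1 n (Z ω + o)) Y (fun ω => Nb n (Z ω + o) δ)
    (2 * L + 1) (by omega) (fun ω ω' hω hω' hb _ e => by
      have h1 := h ω ω' hω hω' e
      have h0 : 0 ≤ δ := (abs_nonneg _).trans h1
      exact Nb.eq hb (by simpa using h0)
        (by rw [show Z ω' + o - (Z ω + o) = -(Z ω - Z ω') by ring, abs_neg]; exact h1))
    (fun ω hω => ⟨Icc (fl1 n (Z ω + o) - L) (fl1 n (Z ω + o) + L), by rw [Int.card_Icc]; omega,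
      fun ω' hω' e => by
        have h1 := (h ω' ω hω' hω e).trans hL
        have h2 : |fl1 n (Z ω' + o) - fl1 n (Z ω + o)| ≤ (L : ℤ) :=
          fl1_bd (by rw [show Z ω' + o - (Z ω + o) = Z ω' - Z ω by ring]; exact h1)
        rw [abs_le] at h2
        rw [Finset.mem_Icc]
        constructor <;> linarith [h2.1, h2.2]⟩)
  push_cast at this
  exact this

/-- the square root by a weight -/
theorem sqrt_le_w {p c : ℝ} (hp : 0 ≤ p) (hc : 0 < c) : 2 * Real.sqrt p ≤ p / c + c := by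
  have h1 := Real.sq_sqrt hp
  have h2 := sq_nonneg (Real.sqrt p - c)
  rw [div_add' _ _ _ hc.ne', le_div_iff₀ hc]
  nlinarith

end ent

variable {Ω π : Type}

/-- the data of the letter of the path and 785's data -/
structure Same (D0 : Inp Ω) (D : Mtd Ω π) : Prop where
  a : D.a = D0.a
  rk : D.rk = D0.rk
  l : D.l = D0.l
  t : D.t = D0.t
  κ : ∀ i ω, D.κ i ω = (D0.FW ω).ka + D.al i ω * (D0.tW ω - D0.s i ω)
  un : ∀ ω, D.un ω = (D0.FW ω).cN (D0.l ω) (D0.tW ω)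

/-- bounds at the step `i` -/
structure Bd (D0 : Inp Ω) (D : Mtd Ω π) (K : ℝ) (h i : ℕ) (ω : Ω) : Prop where
  w1 : |(D0.l ω).w| ≤ 2
  tm : |D0.tW ω - D0.s i ω| ≤ K * q2 (D0.a i)
  Nc : |(D0.l ω).N (D0.tW ω) - D0.Nc ω| ≤ K * q2 h
  cW : |D.al i ω - (D0.FW ω).al| * q2 h ≤ K * q2 (D0.rk i)

variable {D0 : Inp Ω} {D : Mtd Ω π}

theorem Same.s (H : Same D0 D) (i : ℕ) (ω : Ω) : D.s i ω = D0.s i ω := by
  unfold Mtd.s Inp.s
  rw [H.a, H.t]

/-- kappa of the record `j` from the numbers of the step `i` -/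
theorem kR_eq (H : Same D0 D) (i j : ℕ) (ω : Ω) : D0.kR j ω = D.κ i ω + (D0.s i ω - D0.s j ω) * D0.gA j ω +
    (D0.tW ω - D0.s i ω) * (D0.gA j ω - D.al i ω) := by
  rw [H.κ]
  unfold Inp.kR
  ring

/-- gamma of the record `j` from the numbers of the step `i` -/
theorem gR_eq (H : Same D0 D) (i j : ℕ) (ω : Ω) : D0.gR j ω = D.u i ω +
    (D0.gA j ω * D.Nr i ω + (D0.al' j ω - D0.gA j ω) * D0.Nr' j ω) +
    ((D0.gA j ω - (D0.FW ω).al) * (D0.Nc ω - (D0.l ω).N (D0.tW ω)) +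
      (D0.gA j ω - D.al i ω) * ((D0.l ω).N (D0.tW ω) - D.Nr i ω)) := by
  unfold Mtd.u
  rw [H.κ, H.un, H.l, H.s]
  unfold Inp.gR Inp.de Fu.cN Ray.N
  ring

/-- what is added to the letter -/
noncomputable def Yx (D0 : Inp Ω) (D : Mtd Ω π) (i : ℕ) (ω : Ω) : ℤ × ℤ × ℤ :=
  (fl1 (D0.rk i) (D.κ i ω + D.oκ), fl1 (D0.rk i) (D.u i ω + D.oγ), fl1 (D0.a i) (D0.Nc ω + D0.oN))

/-- the letter and `Yx` -/
noncomputable def Yf (D0 : Inp Ω) (D : Mtd Ω π) (i : ℕ) (ω : Ω) : (ℤ × ℤ × ℤ) × Vale.Agent.P106.U.H785.Mtr.Lt π :=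
  (Yx D0 D i ω, D.lt i ω)

variable {K : ℝ} {h i j : ℕ}

/-- position of the label against the rounded position of the letter -/
theorem Nr_tW (H : Same D0 D) {ω : Ω} (hK : 1 ≤ K) (B : Bd D0 D K h i ω) :
    |(D0.l ω).N (D0.tW ω) - D.Nr i ω| ≤ 3 * K * q2 (D0.a i) := by
  have h1 := D.Nr_near i ω
  rw [H.l, H.s, H.a] at h1
  have h2 : (D0.l ω).N (D0.tW ω) - D.Nr i ω = (D0.tW ω - D0.s i ω) * (D0.l ω).w +
      ((D0.l ω).N (D0.s i ω) - D.Nr i ω) := by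
    unfold Ray.N; ring
  rw [h2]
  refine (abs_add_le _ _).trans ?_
  have h3 : |(D0.tW ω - D0.s i ω) * (D0.l ω).w| ≤ K * q2 (D0.a i) * 2 := by
    rw [abs_mul]
    exact mul_le_mul B.tm B.w1 (abs_nonneg _) (mul_nonneg (by linarith) (q2_pos _).le)
  have h4 := q2_pos (D0.a i)
  nlinarith

/-- the errors -/
theorem err_k {ω : Ω} {X : ℝ} (hK : 1 ≤ K) (B : Bd D0 D K h i ω)
    (hX : |D0.gA j ω - D.al i ω| * q2 (D0.a i) ≤ X) :
    |(D0.tW ω - D0.s i ω) * (D0.gA j ω - D.al i ω)| ≤ K * X := by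
  rw [abs_mul]
  have h1 := mul_le_mul_of_nonneg_right B.tm (abs_nonneg (D0.gA j ω - D.al i ω))
  have h2 : K * (|D0.gA j ω - D.al i ω| * q2 (D0.a i)) ≤ K * X :=
    mul_le_mul_of_nonneg_left hX (by linarith)
  nlinarith

theorem err_g (H : Same D0 D) {ω : Ω} {X : ℝ} (hK : 1 ≤ K) (ha : D0.a i ≤ h) (B : Bd D0 D K h i ω)
    (hX : |D0.gA j ω - D.al i ω| * q2 (D0.a i) ≤ X) :
    |(D0.gA j ω - (D0.FW ω).al) * (D0.Nc ω - (D0.l ω).N (D0.tW ω)) +
      (D0.gA j ω - D.al i ω) * ((D0.l ω).N (D0.tW ω) - D.Nr i ω)| ≤ 4 * K * X + K ^ 2 * q2 (D0.rk i) := by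
  have hX0 : 0 ≤ X := (mul_nonneg (abs_nonneg _) (q2_pos _).le).trans hX
  have hh : q2 h ≤ q2 (D0.a i) := q2_le ha
  have hh0 := q2_pos h
  refine (abs_add_le _ _).trans ?_
  have h1 : |(D0.gA j ω - D.al i ω) * ((D0.l ω).N (D0.tW ω) - D.Nr i ω)| ≤ 3 * K * X := by
    rw [abs_mul]
    have := mul_le_mul_of_nonneg_left (Nr_tW H hK B) (abs_nonneg (D0.gA j ω - D.al i ω))
    have h2 : 3 * K * (|D0.gA j ω - D.al i ω| * q2 (D0.a i)) ≤ 3 * K * X :=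
      mul_le_mul_of_nonneg_left hX (by linarith)
    nlinarith
  have h2 : |(D0.gA j ω - (D0.FW ω).al) * (D0.Nc ω - (D0.l ω).N (D0.tW ω))| ≤
      K * (X + K * q2 (D0.rk i)) := by
    rw [abs_mul, abs_sub_comm (D0.Nc ω)]
    have h3 := mul_le_mul_of_nonneg_left B.Nc (abs_nonneg (D0.gA j ω - (D0.FW ω).al))
    have h4 : |D0.gA j ω - (D0.FW ω).al| * q2 h ≤ X + K * q2 (D0.rk i) := by
      have h5 : |D0.gA j ω - (D0.FW ω).al| ≤ |D0.gA j ω - D.al i ω| + |D.al i ω - (D0.FW ω).al| := by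
        have := abs_add_le (D0.gA j ω - D.al i ω) (D.al i ω - (D0.FW ω).al)
        rwa [sub_add_sub_cancel] at this
      have h6 := mul_le_mul_of_nonneg_right h5 hh0.le
      have h7 : |D0.gA j ω - D.al i ω| * q2 h ≤ X :=
        (mul_le_mul_of_nonneg_left hh (abs_nonneg _)).trans hX
      have h8 := B.cW
      rw [add_mul] at h6
      linarith
    have h5 : K * (|D0.gA j ω - (D0.FW ω).al| * q2 h) ≤ K * (X + K * q2 (D0.rk i)) :=
      mul_le_mul_of_nonneg_left h4 (by linarith)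
    nlinarith
  nlinarith

/-- radius of the events -/
noncomputable def dl (K : ℝ) (r : ℕ) (X : ℝ) : ℝ := 8 * K ^ 2 * (q2 r + X)

section sm

variable {ω ω' : Ω} {X : ℝ}

theorem s_eq (H : Same D0 D) (hji : j ≤ i) (e : D.lt i ω = D.lt i ω') : D0.s j ω = D0.s j ω' := by
  have h1 : fl1 (D.a i) (D.t ω) = fl1 (D.a i) (D.t ω') := congrArg Prod.fst e
  rw [H.a, H.t] at h1
  have h2 := fl1_fl1 (D0.ha hji) h1
  unfold Inp.s rd
  rw [h2]

theorem Nr_eq (e : D.lt i ω = D.lt i ω') : D.Nr i ω = D.Nr i ω' := by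
  have h1 : D.nN i ω = D.nN i ω' := congrArg (fun θ => θ.2.2.2.2) e
  unfold Mtd.Nr
  rw [h1]

theorem dif_k (H : Same D0 D) (hK : 1 ≤ K) (hji : j ≤ i) (B : Bd D0 D K h i ω) (B' : Bd D0 D K h i ω')
    (hX : |D0.gA j ω - D.al i ω| * q2 (D0.a i) ≤ X) (hX' : |D0.gA j ω' - D.al i ω'| * q2 (D0.a i) ≤ X)
    (hg : D0.gA j ω = D0.gA j ω') (e : Yf D0 D i ω = Yf D0 D i ω') :
    |D0.kR j ω - D0.kR j ω'| ≤ dl K (D0.rk i) X := by
  have hX0 : 0 ≤ X := (mul_nonneg (abs_nonneg _) (q2_pos _).le).trans hX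
  have el : D.lt i ω = D.lt i ω' := congrArg Prod.snd e
  have ek : fl1 (D0.rk i) (D.κ i ω + D.oκ) = fl1 (D0.rk i) (D.κ i ω' + D.oκ) :=
    congrArg (fun y => y.1.1) e
  have h1 := fl1_close ek
  have h2 := s_eq H le_rfl el
  have h3 := s_eq H hji el
  have h4 := err_k hK B hX
  have h5 := err_k hK B' hX'
  rw [kR_eq H i j ω, kR_eq H i j ω', h2, h3, hg]
  rw [h2, hg] at h4
  have e1 : D.κ i ω + (D0.s i ω' - D0.s j ω') * D0.gA j ω' + (D0.tW ω - D0.s i ω') * (D0.gA j ω' - D.al i ω) -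
      (D.κ i ω' + (D0.s i ω' - D0.s j ω') * D0.gA j ω' + (D0.tW ω' - D0.s i ω') * (D0.gA j ω' - D.al i ω')) =
      ((D.κ i ω + D.oκ) - (D.κ i ω' + D.oκ)) + ((D0.tW ω - D0.s i ω') * (D0.gA j ω' - D.al i ω) -
        (D0.tW ω' - D0.s i ω') * (D0.gA j ω' - D.al i ω')) := by ring
  rw [e1]
  refine (abs_add_le _ _).trans ?_
  have h6 := abs_sub ((D0.tW ω - D0.s i ω') * (D0.gA j ω' - D.al i ω))
    ((D0.tW ω' - D0.s i ω') * (D0.gA j ω' - D.al i ω'))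
  have h7 := q2_pos (D0.rk i)
  unfold dl
  have h8 : K * X ≤ K ^ 2 * X := mul_le_mul_of_nonneg_right (by nlinarith) hX0
  have h9 : q2 (D0.rk i) ≤ K ^ 2 * q2 (D0.rk i) := le_mul_of_one_le_left h7.le (by nlinarith)
  nlinarith

theorem dif_g (H : Same D0 D) (hK : 1 ≤ K) (hji : j ≤ i) (ha : D0.a i ≤ h) (B : Bd D0 D K h i ω)
    (B' : Bd D0 D K h i ω') (hX : |D0.gA j ω - D.al i ω| * q2 (D0.a i) ≤ X)
    (hX' : |D0.gA j ω' - D.al i ω'| * q2 (D0.a i) ≤ X)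
    (hg : D0.gA j ω = D0.gA j ω') (e : Yf D0 D i ω = Yf D0 D i ω') :
    |D0.gR j ω - D0.gR j ω'| ≤ dl K (D0.rk i) X := by
  have hX0 : 0 ≤ X := (mul_nonneg (abs_nonneg _) (q2_pos _).le).trans hX
  have el : D.lt i ω = D.lt i ω' := congrArg Prod.snd e
  have ek : fl1 (D0.rk i) (D.u i ω + D.oγ) = fl1 (D0.rk i) (D.u i ω' + D.oγ) :=
    congrArg (fun y => y.1.2.1) e
  have eN : fl1 (D0.a i) (D0.Nc ω + D0.oN) = fl1 (D0.a i) (D0.Nc ω' + D0.oN) :=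
    congrArg (fun y => y.1.2.2) e
  have h1 := fl1_close ek
  have h2 := Nr_eq (D := D) el
  have h3 : D0.al' j ω = D0.al' j ω' := by
    unfold Inp.al' Inp.aN
    rw [hg]
  have h3' : D0.Nr' j ω = D0.Nr' j ω' := by
    unfold Inp.Nr' rd
    rw [fl1_fl1 (D0.ha hji) eN]
  have h4 := err_g H hK ha B hX
  have h5 := err_g H hK ha B' hX'
  set E := (D0.gA j ω - (D0.FW ω).al) * (D0.Nc ω - (D0.l ω).N (D0.tW ω)) +
      (D0.gA j ω - D.al i ω) * ((D0.l ω).N (D0.tW ω) - D.Nr i ω) with hE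
  set E' := (D0.gA j ω' - (D0.FW ω').al) * (D0.Nc ω' - (D0.l ω').N (D0.tW ω')) +
      (D0.gA j ω' - D.al i ω') * ((D0.l ω').N (D0.tW ω') - D.Nr i ω') with hE'
  have e1 : D0.gR j ω - D0.gR j ω' = ((D.u i ω + D.oγ) - (D.u i ω' + D.oγ)) + (E - E') := by
    rw [gR_eq H i j ω, gR_eq H i j ω', ← hE, ← hE', h3, h3', hg, h2]
    ring
  rw [e1]
  refine (abs_add_le _ _).trans ?_
  have h6 := abs_sub E E'
  have h7 := q2_pos (D0.rk i)
  unfold dl
  have h8 : K * X ≤ K ^ 2 * X := mul_le_mul_of_nonneg_right (by nlinarith) hX0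
  have h9 : q2 (D0.rk i) ≤ K ^ 2 * q2 (D0.rk i) := le_mul_of_one_le_left h7.le (by nlinarith)
  nlinarith

end sm

section

variable [Fintype Ω] (Q : Law Ω)

/-- few values of `Yx` given the letter -/
theorem hc_Yx (H : Same D0 D) (hK : 1 ≤ K) (ha : D0.a i ≤ h) (B : ∀ ω, 0 < Q.w ω → Bd D0 D K h i ω) (M : ℕ)
    (hM : 8 * K ≤ M) : hc Q (Yx D0 D i) (D.lt i) ≤ 2 * Real.log (2 * 2 ^ D.ν + 1) + Real.log (2 * M + 1) := by
  have hq : q2 (D.rr i) ≤ (2 ^ D.ν : ℕ) * q2 (D0.rk i) := by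
    have h1 : D0.rk i ≤ D.rr i + D.ν := by
      unfold Mtd.rr
      rw [H.rk]
      omega
    have h2 := q2_mul_pow D.ν
    have h3 : q2 (D.rr i + D.ν) ≤ q2 (D0.rk i) := q2_le h1
    rw [Vale.Agent.P127.U.CellD.q2_add] at h3
    have h4 : (0 : ℝ) < 2 ^ D.ν := by positivity
    push_cast
    calc q2 (D.rr i) = 2 ^ D.ν * (q2 (D.rr i) * q2 D.ν) := by
          linear_combination (-q2 (D.rr i)) * h2
      _ ≤ 2 ^ D.ν * q2 (D0.rk i) := mul_le_mul_of_nonneg_left h3 h4.le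
  have hk : hc Q (fun ω => fl1 (D0.rk i) (D.κ i ω + D.oκ)) (D.lt i) ≤ Real.log (2 * (2 ^ D.ν : ℕ) + 1) := by
    refine dig_near Q (D.κ i) (D.lt i) (D0.rk i) (2 ^ D.ν) D.oκ fun ω ω' _ _ e => ?_
    have e1 : D.kN i ω = D.kN i ω' := congrArg (fun θ => θ.2.2.1) e
    have := fl1_close e1
    rw [show D.κ i ω + D.oκ - (D.κ i ω' + D.oκ) = D.κ i ω - D.κ i ω' by ring] at this
    exact this.trans hq
  have hu : hc Q (fun ω => fl1 (D0.rk i) (D.u i ω + D.oγ)) (D.lt i) ≤ Real.log (2 * (2 ^ D.ν : ℕ) + 1) := by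
    refine dig_near Q (D.u i) (D.lt i) (D0.rk i) (2 ^ D.ν) D.oγ fun ω ω' _ _ e => ?_
    have e1 : D.uN i ω = D.uN i ω' := congrArg (fun θ => θ.2.2.2.1) e
    have := fl1_close e1
    rw [show D.u i ω + D.oγ - (D.u i ω' + D.oγ) = D.u i ω - D.u i ω' by ring] at this
    exact this.trans hq
  have hN : hc Q (fun ω => fl1 (D0.a i) (D0.Nc ω + D0.oN)) (D.lt i) ≤ Real.log (2 * M + 1) := by
    refine dig_near Q D0.Nc (D.lt i) (D0.a i) M D0.oN fun ω ω' hω hω' e => ?_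
    have e1 := Nr_eq (D := D) e
    have h1 := Nr_tW H hK (B ω hω)
    have h2 := Nr_tW H hK (B ω' hω')
    have h3 := (B ω hω).Nc
    have h4 := (B ω' hω').Nc
    have h5 : q2 h ≤ q2 (D0.a i) := q2_le ha
    have h6 : D0.Nc ω - D0.Nc ω' = -((D0.l ω).N (D0.tW ω) - D0.Nc ω) + ((D0.l ω').N (D0.tW ω') - D0.Nc ω') +
        (((D0.l ω).N (D0.tW ω) - D.Nr i ω) - ((D0.l ω').N (D0.tW ω') - D.Nr i ω')) := by
      rw [e1]; ring
    rw [h6]
    have t1 := abs_add_le (-((D0.l ω).N (D0.tW ω) - D0.Nc ω) + ((D0.l ω').N (D0.tW ω') - D0.Nc ω'))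
        (((D0.l ω).N (D0.tW ω) - D.Nr i ω) - ((D0.l ω').N (D0.tW ω') - D.Nr i ω'))
    have t2 := abs_add_le (-((D0.l ω).N (D0.tW ω) - D0.Nc ω)) ((D0.l ω').N (D0.tW ω') - D0.Nc ω')
    have t3 := abs_sub ((D0.l ω).N (D0.tW ω) - D.Nr i ω) ((D0.l ω').N (D0.tW ω') - D.Nr i ω')
    rw [abs_neg] at t2
    have t4 := q2_pos (D0.a i)
    have t5 : K * q2 h ≤ K * q2 (D0.a i) := mul_le_mul_of_nonneg_left h5 (by linarith)
    have t6 : 8 * K * q2 (D0.a i) ≤ M * q2 (D0.a i) := mul_le_mul_of_nonneg_right hM t4.le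
    linarith
  have h1 : hc Q (Yx D0 D i) (D.lt i) ≤ hc Q (fun ω => fl1 (D0.rk i) (D.κ i ω + D.oκ)) (D.lt i) +
      hc Q (fun ω => (fl1 (D0.rk i) (D.u i ω + D.oγ), fl1 (D0.a i) (D0.Nc ω + D0.oN))) (D.lt i) :=
    hc_pair_le Q _ _ _
  have h2 : hc Q (fun ω => (fl1 (D0.rk i) (D.u i ω + D.oγ), fl1 (D0.a i) (D0.Nc ω + D0.oN))) (D.lt i) ≤
      hc Q (fun ω => fl1 (D0.rk i) (D.u i ω + D.oγ)) (D.lt i) +
      hc Q (fun ω => fl1 (D0.a i) (D0.Nc ω + D0.oN)) (D.lt i) := hc_pair_le Q _ _ _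
  push_cast at hk hu
  linarith

/-- `S` represents the pairs `(a, rk)` of the history of `i` -/
structure Rep (D0 : Inp Ω) (Q : Law Ω) (i : ℕ) (S : Finset ℕ) : Prop where
  le : ∀ j ∈ S, j ≤ i
  rep : ∀ j ≤ i, ∃ j' ∈ S, D0.a j = D0.a j' ∧ D0.rk j = D0.rk j' ∧ ∀ ω, 0 < Q.w ω → D0.gA j ω = D0.gA j' ω

/-- **[MTR-T], abstract form** -/
theorem hc_T (H : Same D0 D) (hK : 1 ≤ K) (ha : D0.a i ≤ h) (B : ∀ ω, 0 < Q.w ω → Bd D0 D K h i ω) (M : ℕ)
    (hM : 8 * K ≤ M) {S : Finset ℕ} (R : Rep D0 Q i S) (hg : ∀ j ∈ S, Fn Q (D0.gA j) (D.pf i)) :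
    hc Q (D0.T i) (D.lt i) ≤ 2 * Real.log (2 * 2 ^ D.ν + 1) + Real.log (2 * M + 1) +
      ∑ j ∈ S, (hc Q (D0.kN j) (Yf D0 D i) + hc Q (D0.gN j) (Yf D0 D i)) := by
  classical
  have h1 := hc_le_add' Q (D0.T i) (Yx D0 D i) (D.lt i)
  have h2 := hc_Yx Q H hK ha B M hM
  have h3 : hc Q (D0.T i) (fun ω => (Yx D0 D i ω, D.lt i ω)) ≤
      hc Q (fun ω j => if j ∈ S then some (D0.kN j ω, D0.gN j ω) else none) (Yf D0 D i) := by
    refine hc_mono_left Q fun ω ω' hω hω' e => ?_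
    simp only [Prod.mk.injEq] at e
    obtain ⟨e1, e2⟩ := e
    have e3 : D.lt i ω = D.lt i ω' := e2.2
    have e4 : D.pf i ω = D.pf i ω' := congrArg (fun θ => θ.2.1) e3
    rw [D0.T_eq_iff]
    intro j hj
    obtain ⟨j', hj', a1, a2, a3⟩ := R.rep j hj
    have g1 := hg j' hj' ω ω' hω hω' e4
    have g2 : D0.gA j ω = D0.gA j ω' := by rw [a3 ω hω, a3 ω' hω', g1]
    have t1 : fl1 (D0.a j) (D0.t ω) = fl1 (D0.a j) (D0.t ω') := by
      have : fl1 (D.a i) (D.t ω) = fl1 (D.a i) (D.t ω') := congrArg Prod.fst e3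
      rw [H.a, H.t] at this
      exact fl1_fl1 (D0.ha hj) this
    have t2 : D0.aN j ω = D0.aN j ω' := by
      unfold Inp.aN
      rw [g2]
    have t3 := congrFun e1 j'
    simp only [hj', if_true, Option.some.injEq, Prod.mk.injEq] at t3
    have k1 : ∀ ω, 0 < Q.w ω → D0.kN j ω = D0.kN j' ω := fun ω hω => by
      have hs : D0.s j ω = D0.s j' ω := by unfold Inp.s; rw [a1]
      unfold Inp.kN Inp.kR
      rw [a2, a3 ω hω, hs]
    have k2 : ∀ ω, 0 < Q.w ω → D0.gN j ω = D0.gN j' ω := fun ω hω => by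
      have hs : D0.Nr' j ω = D0.Nr' j' ω := by unfold Inp.Nr'; rw [a1]
      have hal : D0.al' j ω = D0.al' j' ω := by unfold Inp.al' Inp.aN; rw [a1, a2, a3 ω hω]
      unfold Inp.gN Inp.gR Inp.de
      rw [a2, a3 ω hω, hs, hal]
    unfold Inp.rc
    rw [t1, t2, k1 ω hω, k1 ω' hω', k2 ω hω, k2 ω' hω', t3.1, t3.2]
  have h4 := hc_fin Q (fun j ω => (D0.kN j ω, D0.gN j ω)) (Yf D0 D i) S
  have h5 : ∑ j ∈ S, hc Q (fun ω => (D0.kN j ω, D0.gN j ω)) (Yf D0 D i) ≤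
      ∑ j ∈ S, (hc Q (D0.kN j) (Yf D0 D i) + hc Q (D0.gN j) (Yf D0 D i)) :=
    Finset.sum_le_sum fun j _ => hc_pair_le Q _ _ _
  linarith

end

end Vale.Agent.P106.U.H127.MtrT
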