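import Vale.Agent.P106.U.H127.MtrT

/-!
# P106 / U / H127 : [MTR-T], the distances in the history (helper127)

`A`, `B` = level of the time, of the line, in blocks.  `Lx i j` = last index `≤ i` with the level of `j`; `g` = size of the zone in
which the path is diagonal (`Dg`; `g = 0` : no condition); `gz J g D = ⌊D / 2⌋` in the zone, `⌊D / 2J⌋` outside;
`sx i j = (B (Lx i j) - B j) + gz (A i - A j)` : distance of the record `j` from `i`; `Sx i` = one index for every pair
`(A, B)` of the history of `i`.
* `card_Sx` : at most `4 J (t + 1)` records at the distance `t`; `sum_Sx`; `card_near` : at most `5 (s0 + 1)` records at the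
  distance `≤ s0` (`2 J (s0 + 1) < g`).
* `X_bd` : `|gA j - al i| 2^-a i ≤ 3 K 2^m 2^-(r0 + m (B (Lx i j) + gz (A i - A j)))`.
-/

set_option autoImplicit false

namespace Vale.Agent.P106.U.H127.MtrT

open Finset Vale.Agent.P127 Vale.Agent.P127.Stk
open Vale.Agent.P127.U.CellD (q2 q2_pos q2_le q2_add q2_mul_pow)

/-- the path in blocks -/
structure Lev (A B : ℕ → ℕ) (J n : ℕ) : Prop where
  J1 : 1 ≤ J
  mA : Monotone A
  mB : Monotone B
  stp : ∀ j < n, A (j + 1) + B (j + 1) ≤ A j + B j + 1
  adv : ∀ i j, i ≤ j → j ≤ n → A i + J ≤ A j → B i < B j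

/-- last index `≤ i` with the level of `j` -/
def Lx (A : ℕ → ℕ) (i j : ℕ) : ℕ := Nat.findGreatest (fun l => A l = A j) i

/-- number of steps of the line over a level distance `D` -/
def gz (J g D : ℕ) : ℕ := if D < g then D / 2 else D / (2 * J)

/-- distance of the record `j` from `i` -/
def sx (A B : ℕ → ℕ) (J g i j : ℕ) : ℕ := (B (Lx A i j) - B j) + gz J g (A i - A j)

/-- the path is diagonal in the zone of `g` levels before `i` -/
def Dg (A B : ℕ → ℕ) (g i : ℕ) : Prop := ∀ l < i, A l < A (l + 1) → A i < A l + g → B l + (A i - A l) = B i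

/-- one index for every pair -/
def Sx (A B : ℕ → ℕ) (i : ℕ) : Finset ℕ := (range (i + 1)).filter fun j => j = i ∨ A j ≠ A (j + 1) ∨ B j ≠ B (j + 1)

variable {A B : ℕ → ℕ} {J n i j : ℕ}

theorem Lx_le (A : ℕ → ℕ) (i j : ℕ) : Lx A i j ≤ i := Nat.findGreatest_le _

theorem Lx_ge (h : j ≤ i) : j ≤ Lx A i j := Nat.le_findGreatest h rfl

theorem Lx_A (h : j ≤ i) : A (Lx A i j) = A j := Nat.findGreatest_spec (P := fun l => A l = A j) h rfl

theorem Lx_lt (h : Lx A i j < i) : A (Lx A i j + 1) ≠ A j :=
  Nat.findGreatest_is_greatest (P := fun l => A l = A j) (n := i) (k := Lx A i j + 1) (Nat.lt_succ_self _) h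

theorem Lx_congr {j' : ℕ} (h : A j = A j') : Lx A i j = Lx A i j' := by
  unfold Lx
  rw [h]

theorem Lx_self (i : ℕ) : Lx A i i = i := le_antisymm (Lx_le A i i) (Lx_ge le_rfl)

theorem Lx_isA (H : Lev A B J n) (hi : i ≤ n) (hj : j ≤ i) (h : A j < A i) :
    Lx A i j < i ∧ A (Lx A i j + 1) = A j + 1 := by
  have h1 : Lx A i j < i := lt_of_le_of_ne (Lx_le A i j) fun e => by
    have := Lx_A (A := A) hj
    rw [e] at this
    omega
  have h2 := Lx_lt h1
  have h3 := H.stp (Lx A i j) (by omega)
  have h4 := H.mA (Nat.le_succ (Lx A i j))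
  have h5 := H.mB (Nat.le_succ (Lx A i j))
  have h6 := Lx_A (A := A) hj
  simp only [Nat.succ_eq_add_one] at h4 h5
  exact ⟨h1, by omega⟩

/-- the line advances -/
theorem adv_mul (H : Lev A B J n) {i j : ℕ} (hij : i ≤ j) (hj : j ≤ n) : B i + (A j - A i) / J ≤ B j := by
  have key : ∀ g, ∀ i ≤ j, A i + g * J ≤ A j → B i + g ≤ B j := by
    intro g
    induction g with
    | zero => intro i hi _; exact H.mB hi
    | succ g ih =>
      intro i hi h
      have h0 : A i + J ≤ A j := by nlinarith
      -- the first index with level `A i + J`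
      have hex : ∃ l, A i + J ≤ A l := ⟨j, h0⟩
      set l := Nat.find hex with hl
      have l1 : A i + J ≤ A l := Nat.find_spec hex
      have l2 : l ≤ j := Nat.find_min' hex h0
      have J1 := H.J1
      have l3 : i < l := by
        by_contra hc
        have := H.mA (not_lt.1 hc)
        omega
      have l4 : A l = A i + J := by
        have h5 : ¬ A i + J ≤ A (l - 1) := Nat.find_min hex (by omega)
        have h6 := H.stp (l - 1) (by omega)
        have h7 := H.mB (show l - 1 ≤ l - 1 + 1 by omega)
        rw [show l - 1 + 1 = l by omega] at h6 h7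
        omega
      have h8 := H.adv i l l3.le (l2.trans hj) l1
      have h9 := ih l l2 (by rw [l4]; nlinarith)
      omega
  refine key _ i hij ?_
  have h1 := H.mA hij
  have h2 := Nat.div_mul_le_self (A j - A i) J
  omega

theorem Sx_le' (hj : j ∈ Sx A B i) : j ≤ i := by
  unfold Sx at hj
  rw [Finset.mem_filter, Finset.mem_range] at hj
  omega

theorem gz_le (J g D : ℕ) : gz J g D ≤ D / 2 := by
  unfold gz
  split_ifs
  · exact le_rfl
  · rw [← Nat.div_div_eq_div_mul]
    rcases Nat.eq_zero_or_pos J with h | h
    · subst h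
      simp
    · exact Nat.div_le_self _ _

/-- two indices of `Sx` with the same pair -/
theorem Sx_inj (H : Lev A B J n) {j j' : ℕ} (hj : j ∈ Sx A B i) (hj' : j' ∈ Sx A B i) (eA : A i - A j = A i - A j')
    (e : B (Lx A i j) - B j = B (Lx A i j') - B j') : j = j' := by
  unfold Sx at hj hj'
  rw [Finset.mem_filter, Finset.mem_range] at hj hj'
  have a1 := H.mA (show j ≤ i by omega)
  have a2 := H.mA (show j' ≤ i by omega)
  have eA : A j = A j' := by omega
  have eL : Lx A i j = Lx A i j' := Lx_congr eA
  have b1 := H.mB (Lx_ge (A := A) (show j ≤ i by omega))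
  have b2 := H.mB (Lx_ge (A := A) (show j' ≤ i by omega))
  have eB : B j = B j' := by
    rw [eL] at e b1
    omega
  rcases lt_trichotomy j j' with hlt | he | hlt
  · exfalso
    have c1 := H.mA (show j + 1 ≤ j' by omega)
    have c2 := H.mB (show j + 1 ≤ j' by omega)
    have c3 := H.mA (Nat.le_succ j)
    have c4 := H.mB (Nat.le_succ j)
    simp only [Nat.succ_eq_add_one] at c3 c4
    rcases hj.2 with h | h | h
    · omega
    · omega
    · omega
  · exact he
  · exfalso
    have c1 := H.mA (show j' + 1 ≤ j by omega)
    have c2 := H.mB (show j' + 1 ≤ j by omega)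
    have c3 := H.mA (Nat.le_succ j')
    have c4 := H.mB (Nat.le_succ j')
    simp only [Nat.succ_eq_add_one] at c3 c4
    rcases hj'.2 with h | h | h
    · omega
    · omega
    · omega

/-- **few records at each distance** -/
theorem card_Sx (H : Lev A B J n) (g t : ℕ) :
    ((Sx A B i).filter fun j => sx A B J g i j = t).card ≤ 4 * J * (t + 1) := by
  classical
  have hJ := H.J1
  set F : ℕ → ℕ × ℕ := fun j => (A i - A j, B (Lx A i j) - B j) with hF
  set G : ℕ × ℕ → ℕ × ℕ := fun x => (2 * J * x.1 + x.2, t - x.1) with hG
  set G' : ℕ × ℕ → ℕ × ℕ := fun x => (2 * x.1 + x.2, t - x.1) with hG'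
  have h1 : ((Sx A B i).filter fun j => sx A B J g i j = t).card ≤
      (((range (t + 1) ×ˢ range (2 * J)).image G) ∪ ((range (t + 1) ×ˢ range 2).image G')).card := by
    refine Finset.card_le_card_of_injOn F ?_ ?_
    · intro j hj
      rw [Finset.coe_filter] at hj
      obtain ⟨_, hs⟩ := hj
      unfold sx gz at hs
      rw [Finset.mem_coe, Finset.mem_union]
      by_cases hg : A i - A j < g
      · right
        rw [if_pos hg] at hs
        rw [Finset.mem_image]
        refine ⟨((A i - A j) / 2, (A i - A j) % 2), ?_, ?_⟩
        · rw [Finset.mem_product, Finset.mem_range, Finset.mem_range]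
          dsimp only
          omega
        · rw [hG', hF]
          dsimp only
          refine Prod.ext ?_ ?_
          · exact Nat.div_add_mod _ _
          · dsimp only
            omega
      · left
        rw [if_neg hg] at hs
        rw [Finset.mem_image]
        refine ⟨((A i - A j) / (2 * J), (A i - A j) % (2 * J)), ?_, ?_⟩
        · rw [Finset.mem_product, Finset.mem_range, Finset.mem_range]
          exact ⟨by dsimp only; omega, Nat.mod_lt _ (by omega)⟩
        · rw [hG, hF]
          dsimp only
          refine Prod.ext ?_ ?_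
          · exact Nat.div_add_mod _ _
          · dsimp only
            omega
    · intro j hj j' hj' e
      rw [Finset.coe_filter] at hj hj'
      rw [hF] at e
      simp only [Prod.mk.injEq] at e
      exact Sx_inj H hj.1 hj'.1 e.1 e.2
  refine h1.trans ((Finset.card_union_le _ _).trans ?_)
  have h2 := Finset.card_image_le (s := range (t + 1) ×ˢ range (2 * J)) (f := G)
  have h3 := Finset.card_image_le (s := range (t + 1) ×ˢ range 2) (f := G')
  rw [Finset.card_product, Finset.card_range, Finset.card_range] at h2 h3
  have h4 : (t + 1) * 2 ≤ 2 * J * (t + 1) := by nlinarith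
  nlinarith

/-- **few near records** -/
theorem card_near (H : Lev A B J n) (hi : i ≤ n) {g s0 : ℕ} (hd : Dg A B g i) (hg : 2 * J * (s0 + 1) < g) :
    ((Sx A B i).filter fun j => ¬ s0 < sx A B J g i j).card ≤ 5 * (s0 + 1) := by
  classical
  have hJ := H.J1
  set F : ℕ → ℕ × ℕ := fun j => (A i - A j, B (Lx A i j) - B j) with hF
  have h1 : ((Sx A B i).filter fun j => ¬ s0 < sx A B J g i j).card ≤
      ((range (2 * s0 + 2) ×ˢ range 2) ∪ ({A i - A 0} ×ˢ range (s0 + 1))).card := by
    refine Finset.card_le_card_of_injOn F ?_ ?_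
    · intro j hj
      rw [Finset.coe_filter] at hj
      obtain ⟨hj, hs⟩ := hj
      have hji := Sx_le' hj
      unfold sx gz at hs
      rw [Finset.mem_coe, Finset.mem_union, hF]
      have hmono := H.mA hji
      have h0 := H.mA (Nat.zero_le j)
      have hz : A i - A j < g := by
        by_contra hc
        rw [if_neg hc] at hs
        have h2 : (2 * J * (s0 + 1)) / (2 * J) ≤ (A i - A j) / (2 * J) := Nat.div_le_div_right (by omega)
        rw [Nat.mul_div_cancel_left _ (by omega)] at h2
        omega
      rw [if_pos hz] at hs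
      have h5 : 2 * (s0 + 1) ≤ 2 * J * (s0 + 1) := by nlinarith
      by_cases hA0 : A j = A 0
      · right
        rw [Finset.mem_product, Finset.mem_singleton, Finset.mem_range]
        dsimp only
        refine ⟨by rw [hA0], ?_⟩
        omega
      · left
        rw [Finset.mem_product, Finset.mem_range, Finset.mem_range]
        dsimp only
        refine ⟨by omega, ?_⟩
        -- the a-step before the level of `j`
        have hex : ∃ f, A j ≤ A f := ⟨j, le_rfl⟩
        set f := Nat.find hex with hf
        have f1 : A j ≤ A f := Nat.find_spec hex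
        have f2 : f ≤ j := Nat.find_min' hex le_rfl
        have f0 : 0 < f := by
          by_contra hc
          have : f = 0 := by omega
          rw [this] at f1
          omega
        have f3 : ¬ A j ≤ A (f - 1) := Nat.find_min hex (by omega)
        have f4 := H.stp (f - 1) (by omega)
        have f5 := H.mB (show f - 1 ≤ f - 1 + 1 by omega)
        rw [show f - 1 + 1 = f by omega] at f4 f5
        have f6 := H.mA f2
        have d1 := hd (f - 1) (by omega) (by rw [show f - 1 + 1 = f by omega]; omega) (by omega)
        have f7 := H.mB f2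
        -- the top of the level of `j`
        have L1 : Lx A i j ≤ i := Lx_le A i j
        have L2 : A (Lx A i j) = A j := Lx_A hji
        rcases lt_or_eq_of_le hmono with hlt | heq
        · obtain ⟨LI, LA⟩ := Lx_isA H hi hji hlt
          have d2 := hd (Lx A i j) LI (by omega) (by omega)
          omega
        · have : Lx A i j = i := by rw [Lx_congr (A := A) heq, Lx_self]
          rw [this]
          omega
    · intro j hj j' hj' e
      rw [Finset.coe_filter] at hj hj'
      rw [hF] at e
      simp only [Prod.mk.injEq] at e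
      exact Sx_inj H hj.1 hj'.1 e.1 e.2
  refine h1.trans ((Finset.card_union_le _ _).trans ?_)
  rw [Finset.card_product, Finset.card_product, Finset.card_range, Finset.card_range, Finset.card_range,
    Finset.card_singleton]
  omega

/-- sum over the history -/
theorem sum_Sx (H : Lev A B J n) (g : ℕ) (F : ℕ → ℝ) (hF : ∀ t, 0 ≤ F t) :
    ∑ j ∈ Sx A B i, F (sx A B J g i j) ≤ ∑ t ∈ range (A i + B i + 1), 4 * J * ((t : ℝ) + 1) * F t := by
  classical
  have hmap : ∀ j ∈ Sx A B i, sx A B J g i j ∈ range (A i + B i + 1) := by
    intro j hj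
    unfold Sx at hj
    rw [Finset.mem_filter, Finset.mem_range] at hj
    rw [Finset.mem_range]
    unfold sx
    have h1 := H.mB (Lx_le A i j)
    have h2 := gz_le J g (A i - A j)
    omega
  rw [← Finset.sum_fiberwise_of_maps_to hmap]
  refine Finset.sum_le_sum fun t _ => ?_
  have h1 : ∑ j ∈ (Sx A B i).filter (fun j => sx A B J g i j = t), F (sx A B J g i j) =
      (((Sx A B i).filter fun j => sx A B J g i j = t).card : ℝ) * F t := by
    rw [← nsmul_eq_mul, ← Finset.sum_const]
    refine Finset.sum_congr rfl fun j hj => ?_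
    rw [(Finset.mem_filter.1 hj).2]
  rw [h1]
  refine mul_le_mul_of_nonneg_right ?_ (hF t)
  have := card_Sx (i := i) H g t
  exact_mod_cast this

/-- `Sx` contains every pair of the history -/
theorem Sx_rep (hj : j ≤ i) : ∃ j' ∈ Sx A B i, A j = A j' ∧ B j = B j' := by
  set l := Nat.findGreatest (fun l => A l = A j ∧ B l = B j) i with hl
  have h1 : A l = A j ∧ B l = B j := Nat.findGreatest_spec (P := fun l => A l = A j ∧ B l = B j) hj ⟨rfl, rfl⟩
  have h2 : l ≤ i := Nat.findGreatest_le _
  refine ⟨l, ?_, h1.1.symm, h1.2.symm⟩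
  unfold Sx
  rw [Finset.mem_filter, Finset.mem_range]
  refine ⟨by omega, ?_⟩
  by_cases he : l = i
  · exact Or.inl he
  · right
    by_contra hc
    push Not at hc
    have h3 : ¬ (A (l + 1) = A j ∧ B (l + 1) = B j) :=
      Nat.findGreatest_is_greatest (P := fun l => A l = A j ∧ B l = B j) (Nat.lt_succ_self _) (by omega)
    exact h3 ⟨by omega, by omega⟩

theorem Sx_le (hj : j ∈ Sx A B i) : j ≤ i := Sx_le' hj

/-- **the slope of the record `j` and the slope at `i`** -/
theorem X_bd (H : Lev A B J n) {m r0 z : ℕ} {K : ℝ} (hK : 1 ≤ K) {gA al : ℕ → ℝ} (hd : Dg A B z i)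
    (ga : ∀ j ≤ n, |gA j - al j| * q2 (m * A j) ≤ K * q2 (r0 + m * B j))
    (gl : ∀ j ≤ n, ∀ j' ≤ n, A j = A j' → gA j = gA j')
    (hal : ∀ l j, l < j → j ≤ n → A l < A (l + 1) → |al j - al l| * q2 (m * A j + m) ≤ K * q2 (r0 + m * B l))
    (hi : i ≤ n) (hj : j ≤ i) :
    |gA j - al i| * q2 (m * A i) ≤ 3 * K * 2 ^ m * q2 (r0 + m * (B (Lx A i j) + gz J z (A i - A j))) := by
  have hJ := H.J1
  set L := Lx A i j with hL
  have L1 : L ≤ i := Lx_le A i j
  have L2 : A L = A j := Lx_A hj
  have L3 : j ≤ L := Lx_ge hj
  have g1 : gA j = gA L := gl j (by omega) L (by omega) L2.symm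
  have p2 : (1 : ℝ) ≤ 2 ^ m := one_le_pow₀ (by norm_num)
  set g := gz J z (A i - A j) with hg
  have hg2 : g ≤ (A i - A j) / 2 := gz_le _ _ _
  -- the first term
  have hmono := H.mA hj
  have t1 : |gA L - al L| * q2 (m * A i) ≤ K * 2 ^ m * q2 (r0 + m * (B L + g)) := by
    have h1 := ga L (by omega)
    have h2 : q2 (m * A i) = q2 (m * A L) * q2 (m * (A i - A L)) := by
      rw [← q2_add]
      congr 1
      rw [← Nat.mul_add]
      congr 1
      omega
    rw [h2, ← mul_assoc]
    have h3 := mul_le_mul_of_nonneg_right h1 (q2_pos (m * (A i - A L))).le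
    refine h3.trans ?_
    rw [mul_assoc, ← q2_add]
    have h4 : q2 (r0 + m * B L + m * (A i - A L)) ≤ q2 (r0 + m * (B L + g)) := by
      refine q2_le ?_
      have : g ≤ A i - A L := by rw [L2]; omega
      have h5 : m * g ≤ m * (A i - A L) := Nat.mul_le_mul_left _ this
      rw [Nat.mul_add]
      omega
    have h5 := q2_pos (r0 + m * (B L + g))
    have h6 : K * q2 (r0 + m * B L + m * (A i - A L)) ≤ K * q2 (r0 + m * (B L + g)) :=
      mul_le_mul_of_nonneg_left h4 (by linarith)
    have h7 : K * q2 (r0 + m * (B L + g)) ≤ K * 2 ^ m * q2 (r0 + m * (B L + g)) := by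
      refine mul_le_mul_of_nonneg_right ?_ h5.le
      nlinarith
    linarith
  have q2m : ∀ x, q2 x = 2 ^ m * q2 (x + m) := fun x => Vale.Agent.P106.U.H118.q2_split x m
  by_cases hA : A j = A i
  · -- the same level
    have e1 : gA j = gA i := gl j (by omega) i hi hA
    have e2 : L = i := by
      rw [hL, Lx_congr (A := A) hA, Lx_self]
    have h1 := ga i hi
    have g0 : g = 0 := by omega
    rw [e1, e2, g0, add_zero]
    refine h1.trans ?_
    have h5 := q2_pos (r0 + m * B i)
    refine mul_le_mul_of_nonneg_right ?_ h5.le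
    nlinarith
  · have hlt : A j < A i := lt_of_le_of_ne hmono hA
    obtain ⟨LI, LA⟩ := Lx_isA H hi hj hlt
    rw [← hL] at LI LA
    -- the middle level
    set D := A i - A j with hD
    by_cases hD1 : D ≤ 1
    · -- neighbours
      have g0 : g = 0 := by omega
      have h1 := hal L i LI hi (by omega)
      have h2 : |al i - al L| * q2 (m * A i) ≤ K * 2 ^ m * q2 (r0 + m * (B L + g)) := by
        rw [q2m (m * A i), g0, add_zero]
        calc |al i - al L| * (2 ^ m * q2 (m * A i + m)) = 2 ^ m * (|al i - al L| * q2 (m * A i + m)) := by ring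
          _ ≤ 2 ^ m * (K * q2 (r0 + m * B L)) := mul_le_mul_of_nonneg_left h1 (by linarith)
          _ = _ := by ring
      have h3 : |gA j - al i| ≤ |gA L - al L| + |al i - al L| := by
        rw [g1]
        have := abs_sub (gA L - al L) (al i - al L)
        rwa [show gA L - al L - (al i - al L) = gA L - al i by ring] at this
      have h4 := mul_le_mul_of_nonneg_right h3 (q2_pos (m * A i)).le
      have h5 : 0 ≤ K * 2 ^ m * q2 (r0 + m * (B L + g)) :=
        mul_nonneg (mul_nonneg (by linarith) (by linarith)) (q2_pos _).le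
      rw [add_mul] at h4
      linarith
    · -- the first index of the level `A j + (D + 1) / 2`
      have hex : ∃ l, A j + (D + 1) / 2 ≤ A l := ⟨i, by omega⟩
      set f := Nat.find hex with hf
      have f1 : A j + (D + 1) / 2 ≤ A f := Nat.find_spec hex
      have f2 : f ≤ i := Nat.find_min' hex (by omega)
      have f3 : j < f := by
        by_contra hc
        have := H.mA (not_lt.1 hc)
        omega
      have f4 : A f = A j + (D + 1) / 2 := by
        have h5 : ¬ A j + (D + 1) / 2 ≤ A (f - 1) := Nat.find_min hex (by omega)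
        have h6 := H.stp (f - 1) (by omega)
        have h7 := H.mB (show f - 1 ≤ f - 1 + 1 by omega)
        rw [show f - 1 + 1 = f by omega] at h6 h7
        omega
      -- the a-step of this level
      set l := Lx A i f with hl
      have l1 : A l = A f := Lx_A f2
      obtain ⟨lI, lA⟩ := Lx_isA H hi f2 (show A f < A i by omega)
      rw [← hl] at lI lA
      have l2 : L ≤ l := by
        by_contra hc
        have := H.mA (not_le.1 hc).le
        omega
      have b1 : |al l - al L| * q2 (m * A i) ≤ K * 2 ^ m * q2 (r0 + m * (B L + g)) := by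
        have h1 := hal L l (lt_of_le_of_ne l2 fun e => by rw [← e] at l1; omega) (by omega) (by omega)
        have e : q2 (m * A i) = 2 ^ m * (q2 (m * A l + m) * q2 (m * (A i - A l))) := by
          rw [← q2_add, q2m (m * A i)]
          congr 2
          have : m * A i = m * A l + m * (A i - A l) := by
            rw [← Nat.mul_add]
            congr 1
            omega
          omega
        have h3 := mul_le_mul_of_nonneg_right h1 (q2_pos (m * (A i - A l))).le
        have h4 : q2 (r0 + m * B L) * q2 (m * (A i - A l)) ≤ q2 (r0 + m * (B L + g)) := by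
          rw [← q2_add]
          refine q2_le ?_
          have h5 : g ≤ A i - A l := by omega
          have h6 : m * g ≤ m * (A i - A l) := Nat.mul_le_mul_left _ h5
          rw [Nat.mul_add]
          omega
        have h7 : K * (q2 (r0 + m * B L) * q2 (m * (A i - A l))) ≤ K * q2 (r0 + m * (B L + g)) :=
          mul_le_mul_of_nonneg_left h4 (by linarith)
        rw [e]
        calc |al l - al L| * (2 ^ m * (q2 (m * A l + m) * q2 (m * (A i - A l)))) =
            2 ^ m * (|al l - al L| * q2 (m * A l + m) * q2 (m * (A i - A l))) := by ring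
          _ ≤ 2 ^ m * (K * q2 (r0 + m * B L) * q2 (m * (A i - A l))) :=
            mul_le_mul_of_nonneg_left h3 (by linarith)
          _ ≤ 2 ^ m * (K * q2 (r0 + m * (B L + g))) := by
            refine mul_le_mul_of_nonneg_left ?_ (by linarith)
            rw [mul_assoc]
            exact h7
          _ = _ := by ring
      have b2 : |al i - al l| * q2 (m * A i) ≤ K * 2 ^ m * q2 (r0 + m * (B L + g)) := by
        have h1 := hal l i lI hi (by omega)
        rw [q2m (m * A i)]
        have h3 : B L + g ≤ B l := by
          by_cases hz : D < z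
          · have d1 := hd L LI (by omega) (by omega)
            have d2 := hd l lI (by omega) (by omega)
            omega
          · have h2 := adv_mul H l2 (show l ≤ n by omega)
            have h3 : g ≤ (A l - A L) / J := by
              rw [hg]
              unfold gz
              rw [if_neg hz, ← Nat.div_div_eq_div_mul]
              exact Nat.div_le_div_right (by omega)
            omega
        have h4 : q2 (r0 + m * B l) ≤ q2 (r0 + m * (B L + g)) := by
          refine q2_le ?_
          have h5 : m * (B L + g) ≤ m * B l := Nat.mul_le_mul_left _ (by omega)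
          omega
        calc |al i - al l| * (2 ^ m * q2 (m * A i + m)) = 2 ^ m * (|al i - al l| * q2 (m * A i + m)) := by ring
          _ ≤ 2 ^ m * (K * q2 (r0 + m * B l)) := mul_le_mul_of_nonneg_left h1 (by linarith)
          _ ≤ 2 ^ m * (K * q2 (r0 + m * (B L + g))) := by
            refine mul_le_mul_of_nonneg_left ?_ (by linarith)
            exact mul_le_mul_of_nonneg_left h4 (by linarith)
          _ = _ := by ring
      have h3 : |gA j - al i| ≤ |gA L - al L| + (|al l - al L| + |al i - al l|) := by
        rw [g1]
        have h5 := abs_sub (gA L - al L) ((al l - al L) + (al i - al l))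
        have h6 := abs_add_le (al l - al L) (al i - al l)
        rw [show gA L - al L - ((al l - al L) + (al i - al l)) = gA L - al i by ring] at h5
        linarith
      have h4 := mul_le_mul_of_nonneg_right h3 (q2_pos (m * A i)).le
      rw [add_mul, add_mul] at h4
      linarith

end Vale.Agent.P106.U.H127.MtrT
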