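import Vale.Agent.P106.U.H127.MtrTS

/-!
# P106 / U / H127 : [MTR-T], weights (helper127)

Events of one number only (kappa, gamma), linear in their probabilities:
* `rj` : radius of the record `j` seen from `i`; `pK`, `pG` : probabilities; `tj = m (sx - s1)`.
* `hc_T_N` : `hc_T_lt'` with `∑ j ∈ far s0, (4 √pK + 4 √pG)`.
* `far_w` : this sum is `≤ q2 w0 (∑ j ∈ far s1, 2^(t/4 + t/2 + 1) (pK + pG) + 4 ∑ j ∈ far s1, q2 (t / 4))`, `w0 = m (s0 + 1 - s1) / 4`.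
* `w_rad` : weight times relative radius `≤ q2 (t / 4)` (`m + κ0 + 2 ≤ m s1`).
-/

set_option autoImplicit false

namespace Vale.Agent.P106.U.H127.MtrT

open Finset Vale.Agent.P127 Vale.Agent.P127.Stk
open Vale.Agent.P127.U.CellD (q2 rd Nb q2_pos q2_le q2_add q2_mul_pow)
open Vale.Agent.P106.U.Cell
open Vale.Agent.P106.U.S3.PthW (Inp)
open Vale.Agent.P106.U.H785.Mtr (Mtd)

variable {Ω π : Type} [Fintype Ω]

/-- radius of the record `j` seen from `i` -/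
noncomputable def rj (D0 : Inp Ω) (A B : ℕ → ℕ) (J g c m i j : ℕ) : ℝ :=
  ra c (m * sx A B J g i j / 2) * q2 (D0.rk j)

/-- probability of the event of kappa -/
noncomputable def pK (Q : Law Ω) (D0 : Inp Ω) (j : ℕ) (r : ℝ) : ℝ :=
  prE Q fun ω => Nb (D0.rk j) (D0.kR j ω + D0.oK) r

/-- probability of the event of gamma -/
noncomputable def pG (Q : Law Ω) (D0 : Inp Ω) (j : ℕ) (r : ℝ) : ℝ :=
  prE Q fun ω => Nb (D0.rk j) (D0.gR j ω + D0.oG) r

variable {D0 : Inp Ω} {D : Mtd Ω π} {Q : Law Ω} {A B : ℕ → ℕ} {K : ℝ} {m r0 J n h i j g : ℕ}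

/-- **[MTR-T], one index, events of one number** -/
theorem hc_T_N (H : TH D0 D Q A B K m r0 J n h) (hi : i ≤ n) (hd : Dg A B g i) {κ0 s0 : ℕ}
    (hκ : 32 * K ^ 3 ≤ 2 ^ κ0) (hs : m + κ0 ≤ m * s0) (hg : 2 * J * (s0 + 1) < g) :
    hc Q (D0.T i) (D.lt i) ≤ 2 * D.ν + 10 * (s0 + 2) * (m + κ0 + 2) +
      ∑ j ∈ far A B J g s0 i, (4 * Real.sqrt (pK Q D0 j (rj D0 A B J g (m + κ0) m i j)) +
        4 * Real.sqrt (pG Q D0 j (rj D0 A B J g (m + κ0) m i j))) := by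
  classical
  have hK := H.K1
  have hM : 8 * K ≤ (2 ^ κ0 : ℕ) := by
    push_cast
    have : 8 * K ≤ 32 * K ^ 3 := by nlinarith [mul_nonneg (sub_nonneg.2 hK) (sub_nonneg.2 hK)]
    linarith
  have hrep : Rep D0 Q i (Sx A B i) := by
    refine ⟨fun j hj => Sx_le hj, fun j hj => ?_⟩
    obtain ⟨j', h1, h2, h3⟩ := Sx_rep (A := A) (B := B) hj
    have h4 := Sx_le h1
    refine ⟨j', h1, ?_, ?_, fun ω hω => H.gl j (by omega) j' (by omega) h2 ω hω⟩
    · rw [H.a j (by omega), H.a j' (by omega), h2]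
    · rw [H.rk j (by omega), H.rk j' (by omega), h3]
  have h1 := hc_T Q H.same H.K1 (H.ah i hi) (fun ω hω => H.bd i hi ω hω) (2 ^ κ0) hM hrep
    (fun j hj => H.gf i hi j (Sx_le hj))
  have dk : ∀ j ∈ Sx A B i, ∀ ω ω', 0 < Q.w ω → 0 < Q.w ω' → Yf D0 D i ω = Yf D0 D i ω' →
      |D0.kR j ω - D0.kR j ω'| ≤ dl K (D0.rk i) (Xb A B K m r0 J g i j) := fun j hj ω ω' hω hω' e =>
    dif_k H.same H.K1 (Sx_le hj) (H.bd i hi ω hω) (H.bd i hi ω' hω') (H.X hi hd (Sx_le hj) hω) (H.X hi hd (Sx_le hj) hω')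
      (H.gf i hi j (Sx_le hj) ω ω' hω hω' (congrArg (fun y => y.2.2.1) e)) e
  have dg : ∀ j ∈ Sx A B i, ∀ ω ω', 0 < Q.w ω → 0 < Q.w ω' → Yf D0 D i ω = Yf D0 D i ω' →
      |D0.gR j ω - D0.gR j ω'| ≤ dl K (D0.rk i) (Xb A B K m r0 J g i j) := fun j hj ω ω' hω hω' e =>
    dif_g H.same H.K1 (Sx_le hj) (H.ah i hi) (H.bd i hi ω hω) (H.bd i hi ω' hω') (H.X hi hd (Sx_le hj) hω)
      (H.X hi hd (Sx_le hj) hω') (H.gf i hi j (Sx_le hj) ω ω' hω hω' (congrArg (fun y => y.2.2.1) e)) e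
  have hsplit := Finset.sum_filter_add_sum_filter_not (Sx A B i) (fun j => s0 < sx A B J g i j)
    (fun j => hc Q (D0.kN j) (Yf D0 D i) + hc Q (D0.gN j) (Yf D0 D i))
  have hnear : ∑ j ∈ (Sx A B i).filter (fun j => ¬ s0 < sx A B J g i j),
      (hc Q (D0.kN j) (Yf D0 D i) + hc Q (D0.gN j) (Yf D0 D i)) ≤
      ((Sx A B i).filter fun j => ¬ s0 < sx A B J g i j).card * (2 * Real.log (2 * 2 ^ (m + κ0) + 1)) := by
    rw [← nsmul_eq_mul, ← Finset.sum_const]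
    refine Finset.sum_le_sum fun j hj => ?_
    have hj' := (Finset.mem_filter.1 hj).1
    have hdd := H.dl_le hi hd (Sx_le hj') hκ
    have hq : q2 (m * sx A B J g i j) ≤ 1 := S3.PthW.Inp.q2_one
    have hL : dl K (D0.rk i) (Xb A B K m r0 J g i j) ≤ (2 ^ (m + κ0) : ℕ) * q2 (D0.rk j) := by
      refine hdd.trans ?_
      push_cast
      refine mul_le_mul_of_nonneg_right ?_ (q2_pos _).le
      have : (0 : ℝ) < 2 ^ (m + κ0) := by positivity
      nlinarith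
    have c1 := dig_near Q (D0.kR j) (Yf D0 D i) (D0.rk j) (2 ^ (m + κ0)) D0.oK
      fun ω ω' hω hω' e => (dk j hj' ω ω' hω hω' e).trans hL
    have c2 := dig_near Q (D0.gR j) (Yf D0 D i) (D0.rk j) (2 ^ (m + κ0)) D0.oG
      fun ω ω' hω hω' e => (dg j hj' ω ω' hω hω' e).trans hL
    push_cast at c1 c2
    have e1 : hc Q (D0.kN j) (Yf D0 D i) ≤ Real.log (2 * 2 ^ (m + κ0) + 1) := c1
    have e2 : hc Q (D0.gN j) (Yf D0 D i) ≤ Real.log (2 * 2 ^ (m + κ0) + 1) := c2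
    linarith
  have hfar : ∑ j ∈ (Sx A B i).filter (fun j => s0 < sx A B J g i j),
      (hc Q (D0.kN j) (Yf D0 D i) + hc Q (D0.gN j) (Yf D0 D i)) ≤
      ∑ j ∈ far A B J g s0 i, (4 * Real.sqrt (pK Q D0 j (rj D0 A B J g (m + κ0) m i j)) +
        4 * Real.sqrt (pG Q D0 j (rj D0 A B J g (m + κ0) m i j))) := by
    unfold far
    refine Finset.sum_le_sum fun j hj => ?_
    obtain ⟨hj', hsj⟩ := Finset.mem_filter.1 hj
    have hdd := H.dl_le hi hd (Sx_le hj') hκ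
    have hr : 2 ^ (m + κ0) * q2 (m * sx A B J g i j) ≤ ra (m + κ0) (m * sx A B J g i j / 2) := by
      unfold ra
      exact mul_le_mul_of_nonneg_left (q2_le (by omega)) (by positivity)
    have hδ : dl K (D0.rk i) (Xb A B K m r0 J g i j) ≤ rj D0 A B J g (m + κ0) m i j :=
      hdd.trans (mul_le_mul_of_nonneg_right hr (q2_pos _).le)
    have h1' : rj D0 A B J g (m + κ0) m i j ≤ q2 (D0.rk j) := by
      have e1 : m + κ0 ≤ 2 * (m * sx A B J g i j / 2) := by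
        rcases Nat.eq_zero_or_pos m with h0 | h0
        · subst h0
          omega
        · have : m * (s0 + 1) ≤ m * sx A B J g i j := Nat.mul_le_mul_left _ hsj
          rw [Nat.mul_add] at this
          omega
      have e2 : ra (m + κ0) (m * sx A B J g i j / 2) ≤ 1 := by
        unfold ra
        have e3 := q2_le e1
        have e4 := q2_mul_pow (m + κ0)
        have e5 : (0 : ℝ) < 2 ^ (m + κ0) := by positivity
        nlinarith
      have h0 := q2_pos (D0.rk j)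
      unfold rj
      nlinarith
    have c1 := far_one Q (D0.kR j) (Yf D0 D i) (D0.rk j) D0.oK (rj D0 A B J g (m + κ0) m i j)
      (fun ω => Nb (D0.rk j) (D0.kR j ω + D0.oK) (rj D0 A B J g (m + κ0) m i j)) h1'
      (fun ω ω' hω hω' e => (dk j hj' ω ω' hω hω' e).trans hδ) (fun ω hω => hω)
    have c2 := far_one Q (D0.gR j) (Yf D0 D i) (D0.rk j) D0.oG (rj D0 A B J g (m + κ0) m i j)
      (fun ω => Nb (D0.rk j) (D0.gR j ω + D0.oG) (rj D0 A B J g (m + κ0) m i j)) h1'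
      (fun ω ω' hω hω' e => (dg j hj' ω ω' hω hω' e).trans hδ) (fun ω hω => hω)
    exact add_le_add c1 c2
  have h2 := card_near H.lev hi hd hg
  have h3 := log_two D.ν
  have h4 := log_two κ0
  have h5 := log_two (m + κ0)
  have h6 : (0 : ℝ) ≤ Real.log (2 * 2 ^ (m + κ0) + 1) := Real.log_nonneg (by
    have : (0 : ℝ) < 2 ^ (m + κ0) := by positivity
    linarith)
  have h7 : (((Sx A B i).filter fun j => ¬ s0 < sx A B J g i j).card : ℝ) ≤ 5 * (s0 + 1) := by exact_mod_cast h2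
  have h8 : (((Sx A B i).filter fun j => ¬ s0 < sx A B J g i j).card : ℝ) * (2 * Real.log (2 * 2 ^ (m + κ0) + 1)) ≤
      5 * (s0 + 1) * (2 * ((m + κ0 : ℕ) + 2)) := by
    refine mul_le_mul h7 (by linarith) (by linarith) (by positivity)
  push_cast at h1 h8
  have h9 : (0 : ℝ) ≤ m := Nat.cast_nonneg _
  have h10 : (0 : ℝ) ≤ κ0 := Nat.cast_nonneg _
  nlinarith

/-- square root against a weight, in powers of two -/
theorem sqrt_w {p : ℝ} (hp : 0 ≤ p) (e : ℕ) : 4 * Real.sqrt p ≤ 2 ^ (e + 1) * p + 2 * q2 e := by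
  have h1 := sqrt_le_w hp (q2_pos e)
  have h2 := q2_mul_pow e
  have h3 : p / q2 e = 2 ^ e * p := by
    rw [div_eq_iff (q2_pos e).ne']
    linear_combination (-p) * h2
  rw [h3] at h1
  rw [pow_succ]
  linarith

/-- **the sum over the far records, linear in the probabilities** -/
theorem far_w {s0 s1 : ℕ} (hs : s1 ≤ s0) {p p' : ℕ → ℝ} (hp : ∀ j, 0 ≤ p j) (hp' : ∀ j, 0 ≤ p' j) :
    ∑ j ∈ far A B J g s0 i, (4 * Real.sqrt (p j) + 4 * Real.sqrt (p' j)) ≤ q2 (m * (s0 + 1 - s1) / 4) *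
      (∑ j ∈ far A B J g s1 i, 2 ^ (m * (sx A B J g i j - s1) / 4 + m * (sx A B J g i j - s1) / 2 + 1) * (p j + p' j) +
        4 * ∑ j ∈ far A B J g s1 i, q2 (m * (sx A B J g i j - s1) / 4)) := by
  set w0 := m * (s0 + 1 - s1) / 4 with hw
  have hsub : far A B J g s0 i ⊆ far A B J g s1 i := fun j hj => by
    unfold far at hj ⊢
    rw [Finset.mem_filter] at hj ⊢
    exact ⟨hj.1, by omega⟩
  rw [mul_add, Finset.mul_sum, ← mul_assoc, Finset.mul_sum, ← Finset.sum_add_distrib]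
  refine le_trans (Finset.sum_le_sum fun j hj => ?_)
    (Finset.sum_le_sum_of_subset_of_nonneg hsub fun j _ _ => ?_)
  · have hj2 : s0 < sx A B J g i j := (Finset.mem_filter.1 hj).2
    set t := m * (sx A B J g i j - s1) with ht
    have ht0 : w0 ≤ t / 4 := by
      rw [hw, ht]
      exact Nat.div_le_div_right (Nat.mul_le_mul_left _ (by omega))
    have h1 := sqrt_w (hp j) (t / 2)
    have h2 := sqrt_w (hp' j) (t / 2)
    have h3 : q2 (t / 2) ≤ q2 w0 * q2 (t / 4) := by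
      rw [← q2_add]
      exact q2_le (by omega)
    have h4 : (2 : ℝ) ^ (t / 2 + 1) ≤ q2 w0 * 2 ^ (t / 4 + t / 2 + 1) := by
      have e1 := q2_mul_pow w0
      have e2 : (2 : ℝ) ^ w0 ≤ 2 ^ (t / 4) := pow_le_pow_right₀ (by norm_num) ht0
      have e3 : (1 : ℝ) ≤ q2 w0 * 2 ^ (t / 4) := by
        have := mul_le_mul_of_nonneg_left e2 (q2_pos w0).le
        linarith
      have e4 : (2 : ℝ) ^ (t / 4 + t / 2 + 1) = 2 ^ (t / 4) * 2 ^ (t / 2 + 1) := by
        rw [← pow_add, ← Nat.add_assoc]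
      rw [e4, ← mul_assoc]
      exact le_mul_of_one_le_left (by positivity) e3
    have h5 := mul_le_mul_of_nonneg_right h4 (add_nonneg (hp j) (hp' j))
    nlinarith
  · have := q2_pos w0
    have := q2_pos (m * (sx A B J g i j - s1) / 4)
    have := hp j
    have := hp' j
    positivity

/-- **weight times radius** -/
theorem w_rad {κ0 s1 s : ℕ} (h1 : m + κ0 + 2 ≤ m * s1) (hs : s1 ≤ s) :
    (2 : ℝ) ^ (m * (s - s1) / 4 + m * (s - s1) / 2 + 1) * ra (m + κ0) (m * s / 2) ≤ q2 (m * (s - s1) / 4) := by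
  set t := m * (s - s1) with ht
  have h2 : m * s = t + m * s1 := by
    rw [ht, ← Nat.mul_add]
    congr 1
    omega
  set c := t / 4 + t / 2 + 1 + (m + κ0) with hc
  have h3 : c + t / 4 ≤ 2 * (m * s / 2) := by omega
  have h4 : (2 : ℝ) ^ (t / 4 + t / 2 + 1) * ra (m + κ0) (m * s / 2) = 2 ^ c * q2 (2 * (m * s / 2)) := by
    unfold ra
    rw [← mul_assoc, ← pow_add]
  rw [h4]
  have h5 := q2_le h3
  rw [q2_add] at h5
  have h6 := q2_mul_pow c
  have h7 : (0 : ℝ) < 2 ^ c := by positivity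
  calc (2 : ℝ) ^ c * q2 (2 * (m * s / 2)) ≤ 2 ^ c * (q2 c * q2 (t / 4)) := mul_le_mul_of_nonneg_left h5 h7.le
    _ = q2 (t / 4) := by linear_combination (q2 (t / 4)) * h6

/-! ### all indices -/

/-- the far pairs `(k, j)` -/
def JS (A B : ℕ → ℕ) (J g n : ℕ) : Finset (ℕ × ℕ) :=
  ((Icc 1 n) ×ˢ range (n + 1)).filter fun r => r.2 ∈ far A B J g 2 r.1

/-- weight -/
noncomputable def jw (A B : ℕ → ℕ) (J g m n : ℕ) (r : ℕ × ℕ) : ℝ :=
  2 ^ (m * (sx A B J g r.1 r.2 - 2) / 4 + m * (sx A B J g r.1 r.2 - 2) / 2 + 1) / (n + J + 1)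

/-- radius -/
noncomputable def jd (A B : ℕ → ℕ) (J g m κ0 : ℕ) (rk : ℕ → ℕ) (r : ℕ × ℕ) : ℝ :=
  ra (m + κ0) (m * sx A B J g r.1 r.2 / 2) * q2 (rk r.2)

/-- **the weighted sum of the events** -/
noncomputable def JT (Q : Law Ω) (D0 : Inp Ω) (S : Finset (ℕ × ℕ)) (w d : ℕ × ℕ → ℝ) : ℝ :=
  ∑ r ∈ S, w r * (prE Q (fun ω => Nb (D0.rk r.2) (D0.kR r.2 ω + D0.oK) (d r)) +
    prE Q (fun ω => Nb (D0.rk r.2) (D0.gR r.2 ω + D0.oG) (d r)))

theorem jw_nonneg (r : ℕ × ℕ) : 0 ≤ jw A B J g m n r := by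
  unfold jw
  positivity

theorem jd_nonneg {κ0 : ℕ} {rk : ℕ → ℕ} (r : ℕ × ℕ) : 0 ≤ jd A B J g m κ0 rk r :=
  mul_nonneg (ra_pos _ _).le (q2_pos _).le

theorem JT_nonneg {S : Finset (ℕ × ℕ)} {w d : ℕ × ℕ → ℝ} (hw : ∀ r, 0 ≤ w r) : 0 ≤ JT Q D0 S w d :=
  Finset.sum_nonneg fun r _ => mul_nonneg (hw r) (add_nonneg (prE_nonneg _ _) (prE_nonneg _ _))

theorem sum_JS (F : ℕ → ℕ → ℝ) : ∑ r ∈ JS A B J g n, F r.1 r.2 = ∑ k ∈ Icc 1 n, ∑ j ∈ far A B J g 2 k, F k j := by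
  classical
  unfold JS
  rw [Finset.sum_filter, Finset.sum_product]
  refine Finset.sum_congr rfl fun k hk => ?_
  rw [← Finset.sum_filter]
  refine Finset.sum_congr ?_ fun _ _ => rfl
  ext j
  rw [Finset.mem_filter, Finset.mem_range]
  constructor
  · exact fun h => h.2
  · intro h
    have h1 := Sx_le (Finset.mem_filter.1 h).1
    have h2 := (Finset.mem_Icc.1 hk).2
    exact ⟨by omega, h⟩

/-- **hypothesis `hB` of helper101's `oT_two`** : `MB = 1536 J` -/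
theorem jB (H : Lev A B J n) (hm : 1 ≤ m) {κ0 : ℕ} (hκ : κ0 + 2 ≤ m) (rk : ℕ → ℕ) :
    ∑ r ∈ JS A B J g n, jw A B J g m n r * (2 ^ rk r.2 * jd A B J g m κ0 rk r) ≤ 1536 * J := by
  have h1 : ∀ r ∈ JS A B J g n, jw A B J g m n r * (2 ^ rk r.2 * jd A B J g m κ0 rk r) ≤
      1 / (n + J + 1) * q2 (m * (sx A B J g r.1 r.2 - 2) / 4) := by
    intro r hr
    unfold JS at hr
    have hs := (Finset.mem_filter.1 (Finset.mem_filter.1 hr).2).2
    have e1 := w_rad (m := m) (κ0 := κ0) (s1 := 2) (s := sx A B J g r.1 r.2) (by omega) (by omega)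
    have e2 := q2_mul_pow (rk r.2)
    have e0 : (0 : ℝ) < n + J + 1 := by positivity
    unfold jw jd
    have e3 : ∀ W N p R q : ℝ, p * q = 1 → W / N * (p * (R * q)) = 1 / N * (W * R) := fun W N p R q h => by
      rw [show W / N * (p * (R * q)) = (p * q) * (1 / N * (W * R)) by ring, h, one_mul]
    rw [e3 _ _ _ _ _ e2]
    exact mul_le_mul_of_nonneg_left e1 (by positivity)
  refine (Finset.sum_le_sum h1).trans ?_
  rw [← Finset.mul_sum, sum_JS (fun k j => q2 (m * (sx A B J g k j - 2) / 4))]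
  have h2 : ∑ k ∈ Icc 1 n, ∑ j ∈ far A B J g 2 k, q2 (m * (sx A B J g k j - 2) / 4) ≤ n * (1536 * J) := by
    have e1 : ∀ k ∈ Icc 1 n, ∑ j ∈ far A B J g 2 k, q2 (m * (sx A B J g k j - 2) / 4) ≤ 1536 * J := fun k _ => by
      have := sum_far (i := k) H hm g 2
      push_cast at this
      linarith
    refine (Finset.sum_le_sum e1).trans (le_of_eq ?_)
    rw [Finset.sum_const, Nat.card_Icc, nsmul_eq_mul]
    push_cast
    ring
  have e0 : (0 : ℝ) < n + J + 1 := by positivity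
  rw [one_div, inv_mul_le_iff₀ e0]
  refine h2.trans ?_
  have : (0 : ℝ) ≤ 1536 * J * (J + 1) := by positivity
  nlinarith

/-- **all indices** : the far parts -/
theorem sum_far_w (H : Lev A B J n) (hm : 1 ≤ m) {κ0 s0 : ℕ} (hs : 2 ≤ s0) (S : Finset ℕ) (hS : S ⊆ Icc 1 n) :
    ∑ k ∈ S, ∑ j ∈ far A B J g s0 k, (4 * Real.sqrt (pK Q D0 j (rj D0 A B J g (m + κ0) m k j)) +
      4 * Real.sqrt (pG Q D0 j (rj D0 A B J g (m + κ0) m k j))) ≤
    q2 (m * (s0 - 1) / 4) * ((n + J + 1) *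
      (6144 * J + JT Q D0 (JS A B J g n) (jw A B J g m n) (jd A B J g m κ0 D0.rk))) := by
  have e0 : (0 : ℝ) < n + J + 1 := by positivity
  have hp1 : ∀ k j, 0 ≤ pK Q D0 j (rj D0 A B J g (m + κ0) m k j) := fun _ _ => prE_nonneg _ _
  have hp2 : ∀ k j, 0 ≤ pG Q D0 j (rj D0 A B J g (m + κ0) m k j) := fun _ _ => prE_nonneg _ _
  have h1 : ∑ k ∈ S, ∑ j ∈ far A B J g s0 k, (4 * Real.sqrt (pK Q D0 j (rj D0 A B J g (m + κ0) m k j)) +
      4 * Real.sqrt (pG Q D0 j (rj D0 A B J g (m + κ0) m k j))) ≤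
      ∑ k ∈ Icc 1 n, ∑ j ∈ far A B J g s0 k, (4 * Real.sqrt (pK Q D0 j (rj D0 A B J g (m + κ0) m k j)) +
      4 * Real.sqrt (pG Q D0 j (rj D0 A B J g (m + κ0) m k j))) :=
    Finset.sum_le_sum_of_subset_of_nonneg hS fun k _ _ => Finset.sum_nonneg fun j _ => by positivity
  refine h1.trans ((Finset.sum_le_sum fun k _ => far_w (m := m) hs (hp1 k) (hp2 k)).trans ?_)
  rw [← Finset.mul_sum]
  have e1 : s0 + 1 - 2 = s0 - 1 := by omega
  rw [e1]
  refine mul_le_mul_of_nonneg_left ?_ (q2_pos _).le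
  rw [Finset.sum_add_distrib, ← Finset.mul_sum]
  have h2 : ∑ k ∈ Icc 1 n, ∑ j ∈ far A B J g 2 k, q2 (m * (sx A B J g k j - 2) / 4) ≤ n * (1536 * J) := by
    have e1 : ∀ k ∈ Icc 1 n, ∑ j ∈ far A B J g 2 k, q2 (m * (sx A B J g k j - 2) / 4) ≤ 1536 * J := fun k _ => by
      have := sum_far (i := k) H hm g 2
      push_cast at this
      linarith
    refine (Finset.sum_le_sum e1).trans (le_of_eq ?_)
    rw [Finset.sum_const, Nat.card_Icc, nsmul_eq_mul]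
    push_cast
    ring
  have h3 : ∑ k ∈ Icc 1 n, ∑ j ∈ far A B J g 2 k, 2 ^ (m * (sx A B J g k j - 2) / 4 + m * (sx A B J g k j - 2) / 2 + 1) *
      (pK Q D0 j (rj D0 A B J g (m + κ0) m k j) + pG Q D0 j (rj D0 A B J g (m + κ0) m k j)) =
      (n + J + 1) * JT Q D0 (JS A B J g n) (jw A B J g m n) (jd A B J g m κ0 D0.rk) := by
    rw [← sum_JS (fun k j => 2 ^ (m * (sx A B J g k j - 2) / 4 + m * (sx A B J g k j - 2) / 2 + 1) *
      (pK Q D0 j (rj D0 A B J g (m + κ0) m k j) + pG Q D0 j (rj D0 A B J g (m + κ0) m k j)))]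
    unfold JT
    rw [Finset.mul_sum]
    refine Finset.sum_congr rfl fun r _ => ?_
    unfold jw jd pK pG rj
    field_simp
  rw [h3]
  have : (0 : ℝ) ≤ J * (J + 1) := by positivity
  nlinarith

end Vale.Agent.P106.U.H127.MtrT
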