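import Vale.Agent.P106.U.H127.MtrTC
import Vale.Agent.P106.U.H101.TNest

/-!
# P106 / U / H127 : [MTR-T] for one index (helper127)

* `TH` : the hypotheses, for indices `≤ n`.
* `far` : records at distance `> s0`; `ra c q` = relative radius `2^c 2^-2q` (form of `H711.exists_far`), `q = ⌊m s / 2⌋`.
* **`hc_T_lt`** : for EVERY `i ≤ n` with `Dg A B g i` (path diagonal in the zone of `g` levels before `i`; `g = 0` allowed):
  `hc (T i) (lt i) ≤ 2 log (2 2^ν + 1) + log (2 M' + 1) + #near · 2 log (2 2^(m+κ0) + 1) + ∑ j ∈ far i, 8 √(prE (BadT j ..))`;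
  the events do not depend on `ν`, `s0`.
* `hc_T_lt'` : `≤ C (κ0) (m + ν + ..) + ..` if `2 J (s0 + 1) < g`.
* `hc_ext` : a letter `(T i, X i)`, `X i` a function of the prefix letter.
* `sum_far` : `∑ j ∈ Sx i, F (sx ..)` for `F = 2^(w - q)`.
-/

set_option autoImplicit false

namespace Vale.Agent.P106.U.H127.MtrT

open Finset Vale.Agent.P127 Vale.Agent.P127.Stk
open Vale.Agent.P127.U.CellD (q2 rd Nb q2_pos q2_le q2_add q2_mul_pow)
open Vale.Agent.P106.U.Cell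
open Vale.Agent.P106.U.S3.PthW (Inp)
open Vale.Agent.P106.U.H785.Mtr (Mtd)
open Vale.Agent.P106.U.H101.TN (BadT wo3)

variable {Ω π : Type} [Fintype Ω]

/-- **hypotheses of [MTR-T]** -/
structure TH (D0 : Inp Ω) (D : Mtd Ω π) (Q : Law Ω) (A B : ℕ → ℕ) (K : ℝ) (m r0 J n h : ℕ) : Prop where
  same : Same D0 D
  lev : Lev A B J n
  K1 : 1 ≤ K
  a : ∀ j ≤ n, D0.a j = m * A j
  rk : ∀ j ≤ n, D0.rk j = r0 + m * B j
  ah : ∀ i ≤ n, D0.a i ≤ h
  bd : ∀ i ≤ n, ∀ ω, 0 < Q.w ω → Bd D0 D K h i ω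
  /-- the slope of the level is known to the precision of every step of the level .. -/
  ga : ∀ j ≤ n, ∀ ω, 0 < Q.w ω → |D0.gA j ω - D.al j ω| * q2 (D0.a j) ≤ K * q2 (D0.rk j)
  /-- .. and depends on the level only -/
  gl : ∀ j ≤ n, ∀ j' ≤ n, A j = A j' → ∀ ω, 0 < Q.w ω → D0.gA j ω = D0.gA j' ω
  /-- drift of the true slope -/
  hal : ∀ l j, l < j → j ≤ n → A l < A (l + 1) → ∀ ω, 0 < Q.w ω →
    |D.al j ω - D.al l ω| * q2 (D0.a j + m) ≤ K * q2 (D0.rk l)
  /-- the slopes of the history are functions of the prefix letter -/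
  gf : ∀ i ≤ n, ∀ j ≤ i, Fn Q (D0.gA j) (D.pf i)

/-- relative radius -/
noncomputable def ra (c q : ℕ) : ℝ := 2 ^ c * q2 (2 * q)

/-- the far records -/
def far (A B : ℕ → ℕ) (J g s0 i : ℕ) : Finset ℕ := (Sx A B i).filter fun j => s0 < sx A B J g i j

theorem ra_pos (c q : ℕ) : 0 < ra c q := mul_pos (by positivity) (q2_pos _)

open Classical in
theorem prE_mono0 (Q : Law Ω) {E F : Ω → Prop} (h : ∀ ω, E ω → F ω) : prE Q E ≤ prE Q F := by
  unfold prE
  refine Finset.sum_le_sum_of_subset_of_nonneg (fun ω hω => ?_) fun ω _ _ => Q.nn ω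
  rw [Finset.mem_filter] at hω ⊢
  exact ⟨hω.1, h ω hω.2⟩

/-- one number of a far record -/
theorem far_one (Q : Law Ω) {T : Type*} (Z : Ω → ℝ) (Y : Ω → T) (n : ℕ) (o δ : ℝ) (E : Ω → Prop) (hL : δ ≤ q2 n)
    (h : ∀ ω ω', 0 < Q.w ω → 0 < Q.w ω' → Y ω = Y ω' → |Z ω - Z ω'| ≤ δ)
    (hE : ∀ ω, Nb n (Z ω + o) δ → E ω) :
    hc Q (fun ω => fl1 n (Z ω + o)) Y ≤ 4 * Real.sqrt (prE Q E) := by
  have h1 := dig_far Q Z Y n 1 o δ (by simpa using hL) h
  set p := prE Q fun ω => Nb n (Z ω + o) δ with hp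
  have hp0 : 0 ≤ p := prE_nonneg _ _
  have hp1 : p ≤ 1 := prE_le_one _ _
  have h4 : Real.log (2 * (1 : ℕ) + 1) ≤ 2 := by
    have := Real.log_le_sub_one_of_pos (show (0 : ℝ) < 2 * (1 : ℕ) + 1 by norm_num)
    push_cast at this ⊢
    linarith
  have h5 : p ≤ prE Q E := prE_mono0 Q fun ω hω => hE ω hω
  have h6 : p * Real.log (2 * (1 : ℕ) + 1) ≤ 2 * p := by nlinarith
  have h7 : p ≤ Real.sqrt p := by
    have := Real.sqrt_le_sqrt (show p ^ 2 ≤ p by nlinarith)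
    rwa [Real.sqrt_sq hp0] at this
  have h8 := Real.sqrt_le_sqrt h5
  linarith

variable {D0 : Inp Ω} {D : Mtd Ω π} {Q : Law Ω} {A B : ℕ → ℕ} {K : ℝ} {m r0 J n h i j g : ℕ}

/-- the bound of the slopes -/
noncomputable def Xb (A B : ℕ → ℕ) (K : ℝ) (m r0 J g i j : ℕ) : ℝ :=
  3 * K * 2 ^ m * q2 (r0 + m * (B (Lx A i j) + gz J g (A i - A j)))

theorem TH.X (H : TH D0 D Q A B K m r0 J n h) (hi : i ≤ n) (hd : Dg A B g i) (hj : j ≤ i) {ω : Ω} (hω : 0 < Q.w ω) :
    |D0.gA j ω - D.al i ω| * q2 (D0.a i) ≤ Xb A B K m r0 J g i j := by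
  rw [H.a i hi]
  exact X_bd H.lev H.K1 (gA := fun j => D0.gA j ω) (al := fun j => D.al j ω) hd
    (fun j hj => by rw [← H.a j hj, ← H.rk j hj]; exact H.ga j hj ω hω)
    (fun j hj j' hj' e => H.gl j hj j' hj' e ω hω)
    (fun l j hl hj hA => by rw [← H.a j hj, ← H.rk l (by omega)]; exact H.hal l j hl hj hA ω hω) hi hj

/-- the radius, relative to the digits of the record -/
theorem TH.dl_le (H : TH D0 D Q A B K m r0 J n h) (hi : i ≤ n) (hd : Dg A B g i) (hj : j ≤ i) {κ0 : ℕ}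
    (hκ : 32 * K ^ 3 ≤ 2 ^ κ0) :
    dl K (D0.rk i) (Xb A B K m r0 J g i j) ≤ 2 ^ (m + κ0) * q2 (m * sx A B J g i j) * q2 (D0.rk j) := by
  have hK := H.K1
  set L := Lx A i j with hL
  have L1 : L ≤ i := Lx_le A i j
  have L2 : A L = A j := Lx_A hj
  have L3 : j ≤ L := Lx_ge hj
  set z := gz J g (A i - A j) with hg
  have hJ := H.lev.J1
  have b2 := H.lev.mB L3
  have hmono := H.lev.mA hj
  have b1 : B L + z ≤ B i := by
    by_cases hz : A i - A j < g
    · rcases lt_or_eq_of_le hmono with hlt | heq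
      · obtain ⟨LI, LA⟩ := Lx_isA H.lev hi hj hlt
        rw [← hL] at LI LA
        have d1 := hd L LI (by omega) (by omega)
        have := gz_le J g (A i - A j)
        omega
      · have e : L = i := by rw [hL, Lx_congr (A := A) heq, Lx_self]
        have := gz_le J g (A i - A j)
        rw [e]
        omega
    · have h1 := adv_mul H.lev L1 hi
      have g1 : z ≤ (A i - A L) / J := by
        rw [hg, L2]
        unfold gz
        rw [if_neg hz]
        exact Nat.div_le_div_left (by omega) (by omega)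
      omega
  have e1 : q2 (m * sx A B J g i j) * q2 (D0.rk j) = q2 (r0 + m * (B L + z)) := by
    rw [H.rk j (by omega), ← q2_add]
    congr 1
    unfold sx
    rw [← hL, ← hg]
    have : m * (B L + z) = m * (B L - B j + z) + m * B j := by
      rw [← Nat.mul_add]
      congr 1
      omega
    omega
  have e2 : q2 (D0.rk i) ≤ q2 (r0 + m * (B L + z)) := by
    rw [H.rk i hi]
    refine q2_le ?_
    have : m * (B L + z) ≤ m * B i := Nat.mul_le_mul_left _ (by omega)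
    omega
  unfold dl Xb
  rw [← hL, ← hg, mul_assoc (2 ^ (m + κ0) : ℝ), e1]
  set y := q2 (r0 + m * (B L + z)) with hy
  have hz0 : 0 < y := q2_pos _
  have p2 : (1 : ℝ) ≤ 2 ^ m := one_le_pow₀ (by norm_num)
  have h1 : q2 (D0.rk i) + 3 * K * 2 ^ m * y ≤ 4 * K * 2 ^ m * y := by
    have : 1 * y ≤ K * 2 ^ m * y := mul_le_mul_of_nonneg_right (by nlinarith) hz0.le
    linarith
  have h2 : 8 * K ^ 2 * (q2 (D0.rk i) + 3 * K * 2 ^ m * y) ≤ 8 * K ^ 2 * (4 * K * 2 ^ m * y) :=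
    mul_le_mul_of_nonneg_left h1 (by positivity)
  have h3 : 32 * K ^ 3 * (2 ^ m * y) ≤ 2 ^ κ0 * (2 ^ m * y) := mul_le_mul_of_nonneg_right hκ (by positivity)
  rw [pow_add]
  nlinarith

/-- the event of the record `j` seen from `i` -/
def Ev (D0 : Inp Ω) (A B : ℕ → ℕ) (J g c m i j : ℕ) : Ω → Prop :=
  BadT D0 j (ra c (m * sx A B J g i j / 2) * q2 (D0.rk j)) (ra c (m * sx A B J g i j / 2) * q2 (D0.a j))

/-- **[MTR-T], one index** -/
theorem hc_T_lt (H : TH D0 D Q A B K m r0 J n h) (hi : i ≤ n) (hd : Dg A B g i) {κ0 s0 M' : ℕ}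
    (hκ : 32 * K ^ 3 ≤ 2 ^ κ0) (hs : m + κ0 ≤ m * s0) (hM : 8 * K ≤ M') :
    hc Q (D0.T i) (D.lt i) ≤ 2 * Real.log (2 * 2 ^ D.ν + 1) + Real.log (2 * M' + 1) +
      ((Sx A B i).filter fun j => ¬ s0 < sx A B J g i j).card * (2 * Real.log (2 * 2 ^ (m + κ0) + 1)) +
      ∑ j ∈ far A B J g s0 i, 8 * Real.sqrt (prE Q (Ev D0 A B J g (m + κ0) m i j)) := by
  classical
  have hrep : Rep D0 Q i (Sx A B i) := by
    refine ⟨fun j hj => Sx_le hj, fun j hj => ?_⟩
    obtain ⟨j', h1, h2, h3⟩ := Sx_rep (A := A) (B := B) hj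
    have h4 := Sx_le h1
    refine ⟨j', h1, ?_, ?_, fun ω hω => H.gl j (by omega) j' (by omega) h2 ω hω⟩
    · rw [H.a j (by omega), H.a j' (by omega), h2]
    · rw [H.rk j (by omega), H.rk j' (by omega), h3]
  have h1 := hc_T Q H.same H.K1 (H.ah i hi) (fun ω hω => H.bd i hi ω hω) M' hM hrep
    (fun j hj => H.gf i hi j (Sx_le hj))
  -- distances
  have dk : ∀ j ∈ Sx A B i, ∀ ω ω', 0 < Q.w ω → 0 < Q.w ω' → Yf D0 D i ω = Yf D0 D i ω' →
      |D0.kR j ω - D0.kR j ω'| ≤ dl K (D0.rk i) (Xb A B K m r0 J g i j) := fun j hj ω ω' hω hω' e =>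
    dif_k H.same H.K1 (Sx_le hj) (H.bd i hi ω hω) (H.bd i hi ω' hω') (H.X hi hd (Sx_le hj) hω) (H.X hi hd (Sx_le hj) hω')
      (H.gf i hi j (Sx_le hj) ω ω' hω hω' (congrArg (fun y => y.2.2.1) e)) e
  have dg : ∀ j ∈ Sx A B i, ∀ ω ω', 0 < Q.w ω → 0 < Q.w ω' → Yf D0 D i ω = Yf D0 D i ω' →
      |D0.gR j ω - D0.gR j ω'| ≤ dl K (D0.rk i) (Xb A B K m r0 J g i j) := fun j hj ω ω' hω hω' e =>
    dif_g H.same H.K1 (Sx_le hj) (H.ah i hi) (H.bd i hi ω hω) (H.bd i hi ω' hω') (H.X hi hd (Sx_le hj) hω)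
      (H.X hi hd (Sx_le hj) hω') (H.gf i hi j (Sx_le hj) ω ω' hω hω' (congrArg (fun y => y.2.2.1) e)) e
  have hsplit := Finset.sum_filter_add_sum_filter_not (Sx A B i) (fun j => s0 < sx A B J g i j)
    (fun j => hc Q (D0.kN j) (Yf D0 D i) + hc Q (D0.gN j) (Yf D0 D i))
  -- near
  have hnear : ∑ j ∈ (Sx A B i).filter (fun j => ¬ s0 < sx A B J g i j),
      (hc Q (D0.kN j) (Yf D0 D i) + hc Q (D0.gN j) (Yf D0 D i)) ≤
      ((Sx A B i).filter fun j => ¬ s0 < sx A B J g i j).card * (2 * Real.log (2 * 2 ^ (m + κ0) + 1)) := by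
    rw [← nsmul_eq_mul, ← Finset.sum_const]
    refine Finset.sum_le_sum fun j hj => ?_
    have hj' := (Finset.mem_filter.1 hj).1
    have hdd := H.dl_le hi hd (Sx_le hj') hκ
    have hq : q2 (m * sx A B J g i j) ≤ 1 := S3.PthW.Inp.q2_one
    have hL : dl K (D0.rk i) (Xb A B K m r0 J g i j) ≤ (2 ^ (m + κ0) : ℕ) * q2 (D0.rk j) := by
      refine hdd.trans ?_
      push_cast
      refine mul_le_mul_of_nonneg_right ?_ (q2_pos _).le
      have : (0 : ℝ) < 2 ^ (m + κ0) := by positivity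
      nlinarith
    have c1 := dig_near Q (D0.kR j) (Yf D0 D i) (D0.rk j) (2 ^ (m + κ0)) D0.oK
      fun ω ω' hω hω' e => (dk j hj' ω ω' hω hω' e).trans hL
    have c2 := dig_near Q (D0.gR j) (Yf D0 D i) (D0.rk j) (2 ^ (m + κ0)) D0.oG
      fun ω ω' hω hω' e => (dg j hj' ω ω' hω hω' e).trans hL
    push_cast at c1 c2
    have e1 : hc Q (D0.kN j) (Yf D0 D i) ≤ Real.log (2 * 2 ^ (m + κ0) + 1) := c1
    have e2 : hc Q (D0.gN j) (Yf D0 D i) ≤ Real.log (2 * 2 ^ (m + κ0) + 1) := c2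
    linarith
  -- far
  have hfar : ∑ j ∈ (Sx A B i).filter (fun j => s0 < sx A B J g i j),
      (hc Q (D0.kN j) (Yf D0 D i) + hc Q (D0.gN j) (Yf D0 D i)) ≤
      ∑ j ∈ far A B J g s0 i, 8 * Real.sqrt (prE Q (Ev D0 A B J g (m + κ0) m i j)) := by
    unfold far
    refine Finset.sum_le_sum fun j hj => ?_
    obtain ⟨hj', hsj⟩ := Finset.mem_filter.1 hj
    set s := sx A B J g i j with hsdef
    have hdd := H.dl_le hi hd (Sx_le hj') hκ
    rw [← hsdef] at hdd
    have hr : 2 ^ (m + κ0) * q2 (m * s) ≤ ra (m + κ0) (m * s / 2) := by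
      unfold ra
      exact mul_le_mul_of_nonneg_left (q2_le (by omega)) (by positivity)
    have hδ : dl K (D0.rk i) (Xb A B K m r0 J g i j) ≤ ra (m + κ0) (m * s / 2) * q2 (D0.rk j) :=
      hdd.trans (mul_le_mul_of_nonneg_right hr (q2_pos _).le)
    have h1' : ra (m + κ0) (m * s / 2) * q2 (D0.rk j) ≤ q2 (D0.rk j) := by
      have e1 : m + κ0 ≤ 2 * (m * s / 2) := by
        rcases Nat.eq_zero_or_pos m with h0 | h0
        · subst h0
          omega
        · have : m * (s0 + 1) ≤ m * s := Nat.mul_le_mul_left _ hsj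
          rw [Nat.mul_add] at this
          omega
      have e2 : ra (m + κ0) (m * s / 2) ≤ 1 := by
        unfold ra
        have e3 := q2_le e1
        have e4 := q2_mul_pow (m + κ0)
        have e5 : (0 : ℝ) < 2 ^ (m + κ0) := by positivity
        nlinarith
      have h0 := q2_pos (D0.rk j)
      nlinarith
    have c1 := far_one Q (D0.kR j) (Yf D0 D i) (D0.rk j) D0.oK (ra (m + κ0) (m * s / 2) * q2 (D0.rk j))
      (Ev D0 A B J g (m + κ0) m i j) h1'
      (fun ω ω' hω hω' e => (dk j hj' ω ω' hω hω' e).trans hδ) (fun ω hω => Or.inl hω)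
    have c2 := far_one Q (D0.gR j) (Yf D0 D i) (D0.rk j) D0.oG (ra (m + κ0) (m * s / 2) * q2 (D0.rk j))
      (Ev D0 A B J g (m + κ0) m i j) h1'
      (fun ω ω' hω hω' e => (dg j hj' ω ω' hω hω' e).trans hδ) (fun ω hω => Or.inr (Or.inl hω))
    have e1 : hc Q (D0.kN j) (Yf D0 D i) ≤ 4 * Real.sqrt (prE Q (Ev D0 A B J g (m + κ0) m i j)) := c1
    have e2 : hc Q (D0.gN j) (Yf D0 D i) ≤ 4 * Real.sqrt (prE Q (Ev D0 A B J g (m + κ0) m i j)) := c2
    linarith
  linarith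

/-- a letter with more components, functions of the prefix letter -/
theorem hc_ext {ξ : Type*} (X : Ω → ξ) (hX : Fn Q X (D.pf i)) :
    hc Q (fun ω => (D0.T i ω, X ω)) (D.lt i) ≤ hc Q (D0.T i) (D.lt i) := by
  refine hc_mono_left Q fun ω ω' hω hω' e => ?_
  simp only [Prod.mk.injEq] at e ⊢
  have e4 : D.pf i ω = D.pf i ω' := congrArg (fun θ => θ.2.1) e.2
  exact ⟨e.1, hX ω ω' hω hω' e4⟩

/-- logarithm of the number of values -/
theorem log_two (c : ℕ) : Real.log (2 * 2 ^ c + 1) ≤ (c + 2 : ℝ) := by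
  have h1 : (2 * 2 ^ c + 1 : ℝ) ≤ 2 ^ (c + 2) := by
    have : (1 : ℝ) ≤ 2 ^ c := one_le_pow₀ (by norm_num)
    rw [pow_add]
    linarith
  have h2 := Real.log_le_log (by positivity) h1
  rw [Real.log_pow] at h2
  have h3 : Real.log 2 ≤ 1 := by
    have := Real.log_le_sub_one_of_pos (show (0 : ℝ) < 2 by norm_num)
    linarith
  push_cast at h2
  have h4 : (0 : ℝ) ≤ c + 2 := by positivity
  nlinarith

/-- **[MTR-T] at a young step** : `2 J (s0 + 1) < g` -/
theorem hc_T_lt' (H : TH D0 D Q A B K m r0 J n h) (hi : i ≤ n) (hd : Dg A B g i) {κ0 s0 : ℕ}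
    (hκ : 32 * K ^ 3 ≤ 2 ^ κ0) (hs : m + κ0 ≤ m * s0) (hg : 2 * J * (s0 + 1) < g) :
    hc Q (D0.T i) (D.lt i) ≤ 2 * D.ν + 10 * (s0 + 2) * (m + κ0 + 2) +
      ∑ j ∈ far A B J g s0 i, 8 * Real.sqrt (prE Q (Ev D0 A B J g (m + κ0) m i j)) := by
  have hK := H.K1
  have h1 := hc_T_lt H hi hd hκ hs (M' := 2 ^ κ0) (by
    push_cast
    have : 8 * K ≤ 32 * K ^ 3 := by nlinarith [mul_nonneg (sub_nonneg.2 hK) (sub_nonneg.2 hK)]
    linarith)
  have h2 := card_near H.lev hi hd hg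
  have h3 := log_two D.ν
  have h4 := log_two κ0
  have h5 := log_two (m + κ0)
  have h6 : (0 : ℝ) ≤ Real.log (2 * 2 ^ (m + κ0) + 1) := Real.log_nonneg (by
    have : (0 : ℝ) < 2 ^ (m + κ0) := by positivity
    linarith)
  have h7 : (((Sx A B i).filter fun j => ¬ s0 < sx A B J g i j).card : ℝ) ≤ 5 * (s0 + 1) := by exact_mod_cast h2
  have h8 : (((Sx A B i).filter fun j => ¬ s0 < sx A B J g i j).card : ℝ) * (2 * Real.log (2 * 2 ^ (m + κ0) + 1)) ≤
      5 * (s0 + 1) * (2 * ((m + κ0 : ℕ) + 2)) := by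
    refine mul_le_mul h7 (by linarith) (by linarith) (by positivity)
  push_cast at h1 h8
  have h9 : (0 : ℝ) ≤ m := Nat.cast_nonneg _
  have h10 : (0 : ℝ) ≤ κ0 := Nat.cast_nonneg _
  nlinarith

/-! ### the sums -/

/-- the half powers -/
theorem q2_half (u : ℕ) : q2 (u / 2) ≤ 2 * (3 / 4 : ℝ) ^ u := by
  induction u using Nat.strong_induction_on with
  | _ u ih =>
    rcases u with _ | _ | u
    · have : q2 (0 / 2) ≤ 1 := S3.PthW.Inp.q2_one
      norm_num at this ⊢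
      linarith
    · have : q2 (1 / 2) ≤ 1 := S3.PthW.Inp.q2_one
      norm_num at this ⊢
      linarith
    · have h1 := ih u (by omega)
      have h2 : (u + 1 + 1) / 2 = u / 2 + 1 := by omega
      rw [h2, q2_add]
      have h3 : q2 1 = 1 / 2 := by unfold q2; norm_num
      rw [h3, pow_succ, pow_succ]
      have h4 : (0 : ℝ) < (3 / 4) ^ u := by positivity
      nlinarith

/-- the fourth parts -/
theorem q2_quart (u : ℕ) : q2 (u / 4) ≤ 2 * (7 / 8 : ℝ) ^ u := by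
  induction u using Nat.strong_induction_on with
  | _ u ih =>
    rcases u with _ | _ | _ | _ | u
    · have : q2 (0 / 4) ≤ 1 := S3.PthW.Inp.q2_one
      norm_num at this ⊢
      linarith
    · have : q2 (1 / 4) ≤ 1 := S3.PthW.Inp.q2_one
      norm_num at this ⊢
      linarith
    · have : q2 (2 / 4) ≤ 1 := S3.PthW.Inp.q2_one
      norm_num at this ⊢
      linarith
    · have : q2 (3 / 4) ≤ 1 := S3.PthW.Inp.q2_one
      norm_num at this ⊢
      linarith
    · have h1 := ih u (by omega)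
      have h2 : (u + 1 + 1 + 1 + 1) / 4 = u / 4 + 1 := by omega
      rw [h2, q2_add]
      have h3 : q2 1 = 1 / 2 := by unfold q2; norm_num
      rw [h3, pow_succ, pow_succ, pow_succ, pow_succ]
      have h4 : (0 : ℝ) < (7 / 8) ^ u := by positivity
      nlinarith

/-- geometric sum -/
theorem geo (c : ℝ) (hc : 0 ≤ c) (N : ℕ) : ∑ u ∈ range N, (c + u) * (7 / 8 : ℝ) ^ u ≤ 8 * c + 56 := by
  have key : ∑ u ∈ range N, (c + u) * (7 / 8 : ℝ) ^ u = (8 * c + 56) - (8 * (c + N) + 56) * (7 / 8) ^ N := by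
    induction N with
    | zero => simp
    | succ N ih =>
      rw [Finset.sum_range_succ, ih, pow_succ]
      push_cast
      ring
  rw [key]
  have : (0 : ℝ) ≤ (8 * (c + N) + 56) * (7 / 8) ^ N := by positivity
  linarith

/-- **the sum over the far records** -/
theorem sum_far (H : Lev A B J n) (hm : 1 ≤ m) (g s1 i : ℕ) :
    ∑ j ∈ far A B J g s1 i, q2 (m * (sx A B J g i j - s1) / 4) ≤ 512 * J * (s1 + 1) := by
  classical
  set F : ℕ → ℝ := fun s => if s1 < s then q2 (m * (s - s1) / 4) else 0 with hF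
  have hF0 : ∀ s, 0 ≤ F s := fun s => by
    rw [hF]
    dsimp only
    split_ifs
    · exact (q2_pos _).le
    · exact le_rfl
  have h1 : ∑ j ∈ far A B J g s1 i, q2 (m * (sx A B J g i j - s1) / 4) = ∑ j ∈ Sx A B i, F (sx A B J g i j) := by
    unfold far
    rw [Finset.sum_filter]
  rw [h1]
  refine (sum_Sx H g F hF0).trans ?_
  have h2 : ∀ t ∈ range (A i + B i + 1), 4 * J * ((t : ℝ) + 1) * F t ≤
      8 * J * (if s1 ≤ t then ((s1 + 1 : ℝ) + (t - s1 : ℕ)) * (7 / 8) ^ (t - s1) else 0) := by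
    intro t _
    rw [hF]
    dsimp only
    by_cases ht : s1 < t
    · rw [if_pos ht, if_pos ht.le]
      have e1 : q2 (m * (t - s1) / 4) ≤ 2 * (7 / 8) ^ (t - s1) := by
        have e2 : (t - s1) / 4 ≤ m * (t - s1) / 4 :=
          Nat.div_le_div_right (Nat.le_mul_of_pos_left _ (by omega))
        exact (q2_le e2).trans (q2_quart _)
      have e4 : (t : ℝ) = (s1 : ℝ) + ((t - s1 : ℕ) : ℝ) := by
        rw [Nat.cast_sub ht.le]; ring
      have e5 : (0 : ℝ) ≤ 4 * J * ((t : ℝ) + 1) := by positivity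
      have e6 := mul_le_mul_of_nonneg_left e1 e5
      refine e6.trans (le_of_eq ?_)
      rw [e4]
      ring
    · rw [if_neg ht, mul_zero]
      split_ifs <;> positivity
  refine (Finset.sum_le_sum h2).trans ?_
  rw [← Finset.mul_sum]
  have h3 : ∑ t ∈ range (A i + B i + 1), (if s1 ≤ t then ((s1 + 1 : ℝ) + (t - s1 : ℕ)) * (7 / 8) ^ (t - s1) else 0) ≤
      ∑ u ∈ range (A i + B i + 1), ((s1 + 1 : ℝ) + u) * (7 / 8) ^ u := by
    rw [← Finset.sum_filter]
    have h4 : ∑ t ∈ (range (A i + B i + 1)).filter (fun t => s1 ≤ t), ((s1 + 1 : ℝ) + (t - s1 : ℕ)) * (7 / 8) ^ (t - s1) =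
        ∑ u ∈ ((range (A i + B i + 1)).filter (fun t => s1 ≤ t)).image (fun t => t - s1),
          ((s1 + 1 : ℝ) + u) * (7 / 8) ^ u := by
      rw [Finset.sum_image]
      intro x hx y hy e
      have hx' := (Finset.mem_filter.1 hx).2
      have hy' := (Finset.mem_filter.1 hy).2
      dsimp only at e
      omega
    rw [h4]
    refine Finset.sum_le_sum_of_subset_of_nonneg ?_ fun u _ _ => by positivity
    intro u hu
    obtain ⟨t, ht, rfl⟩ := Finset.mem_image.1 hu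
    have := (Finset.mem_filter.1 ht).1
    rw [Finset.mem_range] at this ⊢
    omega
  have h5 := geo (s1 + 1 : ℝ) (by positivity) (A i + B i + 1)
  have h6 : (0 : ℝ) ≤ 8 * J := by positivity
  have h7 := mul_le_mul_of_nonneg_left (h3.trans h5) h6
  refine h7.trans ?_
  have h8 : (0 : ℝ) ≤ J := Nat.cast_nonneg _
  have h9 : (8 : ℝ) * (8 * (s1 + 1) + 56) ≤ 512 * (s1 + 1) := by
    have : (0 : ℝ) ≤ s1 := Nat.cast_nonneg _
    linarith
  nlinarith

end Vale.Agent.P106.U.H127.MtrT
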