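import Vale.Agent.P106.U.H20.Zoom
import Vale.Agent.P106.U.H416.Val
import Vale.Agent.P106.U.H61.Mac

/-!
# P106 / U / H127 : existence of near-extremal systems (helper127)

* `uzm` : inverse of `zmB`.
* `XX_cap`, `val_cap`, `Dd_cap` : the system in the caps of radius `2^-p` (rays `cp p l`, letter `(C, cc p l)`).
* `hc_cc` : the cap is a function of `(W, t_h)` up to a constant if `W` has the cap `2^-p`.
* `pNEx_of : PExtX → PNEx`.
-/

set_option autoImplicit false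

namespace Vale.Agent.P106.U.H127

open Vale.Agent.P127 Vale.Agent.P127.Stk Vale.Agent.P127.U Vale.Agent.P106.W Vale.Agent.P106.K Vale.Agent.P106.U
open Vale.Agent.P106.U.H416
open Vale.Agent.P122.C2 (fn)

/-- the box in the original coordinates -/
noncomputable def uzm (p : ℕ) (l₀ : Ry) (B : Cbx) : Cbx where
  θ := B.θ
  u1 := B.u1 / 2 ^ p
  u2 := B.u2 / 2 ^ p
  κ := B.κ * 2 ^ p
  α := B.α * 2 ^ p
  p := fun k => l₀.y k + B.p k / 2 ^ p
  v := fun k => l₀.s k + B.v k / 2 ^ p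
  ω := B.ω / 2 ^ (2 * p) - ∑ k, l₀.y k * (B.v k / 2 ^ p) + l₀.z

theorem zmB_uzm (p : ℕ) (l₀ : Ry) (B : Cbx) : zmB p l₀ (uzm p l₀ B) = B := by
  have h2 : (2 : ℝ) ^ p ≠ 0 := by positivity
  have h4 : (2 : ℝ) ^ (2 * p) ≠ 0 := by positivity
  have e1 : (2 : ℝ) ^ (2 * p) * (B.ω / 2 ^ (2 * p) - ∑ k, l₀.y k * (B.v k / 2 ^ p) + l₀.z +
      ∑ k, l₀.y k * (l₀.s k + B.v k / 2 ^ p - l₀.s k) - l₀.z) = B.ω := by
    have e : ∑ k, l₀.y k * (l₀.s k + B.v k / 2 ^ p - l₀.s k) = ∑ k, l₀.y k * (B.v k / 2 ^ p) :=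
      Finset.sum_congr rfl fun k _ => by rw [add_sub_cancel_left]
    rw [e]
    have e' : B.ω / 2 ^ (2 * p) - ∑ k, l₀.y k * (B.v k / 2 ^ p) + l₀.z +
        ∑ k, l₀.y k * (B.v k / 2 ^ p) - l₀.z = B.ω / 2 ^ (2 * p) := by ring
    rw [e', mul_div_cancel₀ _ h4]
  have e2 : (fun k => (2 : ℝ) ^ p * (l₀.y k + B.p k / 2 ^ p - l₀.y k)) = B.p := by
    funext k
    rw [add_sub_cancel_left, mul_div_cancel₀ _ h2]
  have e3 : (fun k => (2 : ℝ) ^ p * (l₀.s k + B.v k / 2 ^ p - l₀.s k)) = B.v := by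
    funext k
    rw [add_sub_cancel_left, mul_div_cancel₀ _ h2]
  unfold zmB uzm
  simp only [e1, e2, e3, mul_div_cancel₀ _ h2, mul_div_cancel_right₀ _ h2]

theorem bl_congr_t {a : ℕ} {t t' : ℝ} (h : fl1 a t = fl1 a t') (l : Ry) : bl a l t = bl a l t' := by
  unfold bl qa
  rw [h]

theorem cc_congr {p : ℕ} {l l' : Ry} (h : cc p l = cc p l') (h' : cp p l = cp p l') : l = l' := by
  unfold cp at h'
  rw [h] at h'
  exact zm_inj _ _ h'

section cap

variable {Ω : Type} [Fintype Ω] {γ : Type} {P : Law Ω} {l : Ω → Ry} {t : Ω → ℝ} {C : Ω → γ} {c lam k : ℝ}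
  {L a p R : ℕ}

/-- the functional in the caps -/
theorem XX_cap (hc : 0 ≤ c) (hl : 0 ≤ lam ∧ lam ≤ 1) (hk : 0 ≤ k) (hpR : p ≤ R) (hpL : p + a ≤ L) :
    XX c lam k 0 P (fun ω => cp p (l ω)) t (fun ω => (C ω, cc p (l ω))) (fun _ => (0, R - p)) (L - p) a +
      4 * p * Real.log 2 ≤ XX c lam k 0 P l t C (fun _ => (p, R)) L a := by
  have hlog : 0 < Real.log 2 := Real.log_pos (by norm_num)
  have key : XX c lam k 0 P (fun ω => cp p (l ω)) t (fun ω => (C ω, cc p (l ω))) (fun _ => (0, R - p)) (L - p) a ≤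
      XX c lam k 0 P l t C (fun _ => (p, R)) L a - 4 * p * Real.log 2 := by
    refine XX_le hc (by omega) fun Ω' _ P' π A h1 h2 => ?_
    set c0 : Ω' → Ry := fun ω => bl a (cc p (l (π ω))) (t (π ω)) with hc0
    set B : Ω' → Cbx := fun ω => uzm p (c0 ω) (A ω) with hB
    have hBok : ∀ ω, 0 < P'.w ω → LbOk c L a (B ω) (l (π ω)) (t (π ω)) := by
      intro ω hω
      refine LbOk_of_zm (p := p) (by omega) (cc p (l (π ω))) _ _ _ ?_
      have e : zmB p (bl a (cc p (l (π ω))) (t (π ω))) (B ω) = A ω := zmB_uzm p _ _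
      rw [e]
      exact h2 ω hω
    have hle := le_XX (e := fun _ => (p, R)) (C := C) (lam := lam) (k := k) (La := 0) hl hk le_rfl h1 hBok
    have e1 : Stk.hc P' (fun ω => cp p (l (π ω))) (fun ω => (A ω, fl1 a (t (π ω)), (C (π ω), cc p (l (π ω))))) ≤
        Stk.hc P' (fun ω => l (π ω)) (fun ω => (B ω, fl1 a (t (π ω)), C (π ω))) := by
      refine (Stk.hc_mono_left P' (X' := fun ω => l (π ω)) ?_).trans (Stk.hc_mono_right P' _ ?_)
      · intro ω ω' _ _ e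
        simp only [Prod.mk.injEq] at e
        show cp p (l (π ω)) = cp p (l (π ω'))
        rw [e.1]
      · intro ω ω' _ _ e
        simp only [Prod.mk.injEq] at e ⊢
        obtain ⟨e1, e2, e3, e4⟩ := e
        refine ⟨?_, e2, e3⟩
        show uzm p (bl a (cc p (l (π ω))) (t (π ω))) (A ω) = uzm p (bl a (cc p (l (π ω'))) (t (π ω'))) (A ω')
        rw [e1, e4, bl_congr_t e2]
    have hu : ∀ ω, 0 < P'.w ω → Real.log (B ω).u2 = Real.log (A ω).u2 - p * Real.log 2 ∧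
        Real.log (B ω).u1 = Real.log (A ω).u1 - p * Real.log 2 := by
      intro ω hω
      obtain ⟨⟨b', R', g1, g2, -, -⟩, -, -, -⟩ := h2 ω hω
      have q1 : (A ω).u2 ≠ 0 := by rw [g1]; positivity
      have q2 : (A ω).u1 ≠ 0 := by rw [g2]; positivity
      constructor
      · show Real.log ((A ω).u2 / 2 ^ p) = _
        rw [Real.log_div q1 (by positivity), Real.log_pow]
      · show Real.log ((A ω).u1 / 2 ^ p) = _
        rw [Real.log_div q2 (by positivity), Real.log_pow]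
    have e2 : P'.ex (fun ω => (3 + lam) * Real.log (B ω).u2 + (1 - lam) * Real.log (B ω).u1) =
        P'.ex (fun ω => (3 + lam) * Real.log (A ω).u2 + (1 - lam) * Real.log (A ω).u1) - 4 * p * Real.log 2 := by
      have f1 : P'.ex (fun ω => (3 + lam) * Real.log (B ω).u2 + (1 - lam) * Real.log (B ω).u1) =
          P'.ex (fun ω => ((3 + lam) * Real.log (A ω).u2 + (1 - lam) * Real.log (A ω).u1) -
            4 * p * Real.log 2) := by
        refine P'.ex_congr fun ω hω => ?_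
        rw [(hu ω hω).1, (hu ω hω).2]
        ring
      rw [f1, P'.ex_sub, P'.ex_const]
    have e3 : P'.ex (fun ω => dsh (B ω) (p, R)) = P'.ex (fun ω => dsh (A ω) (0, R - p)) := by
      refine P'.ex_congr fun ω hω => ?_
      unfold dsh
      rw [(hu ω hω).1, (hu ω hω).2]
      have f1 : ((R - p : ℕ) : ℝ) = (R : ℝ) - p := Nat.cast_sub hpR
      simp only [f1]
      congr 2
      · push_cast
        ring
      · ring
    unfold valX val at hle ⊢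
    rw [e2, e3] at hle
    have e4 : P'.ex (fun ω => dsh (A ω) ((fun _ : Ω => ((0, R - p) : ℕ × ℕ)) (π ω))) =
        P'.ex (fun ω => dsh (A ω) (0, R - p)) := rfl
    rw [e4]
    linarith
  linarith

/-- the label in the caps -/
theorem val_cap {h : ℕ} (W : Ω → Cbx) (hW : ∀ ω, 0 < P.w ω → 0 < (W ω).u1 ∧ 0 < (W ω).u2) :
    val lam P l t C h W - 4 * p * Real.log 2 -
        Stk.hc P (fun ω => cc p (l ω)) (fun ω => (W ω, fl1 h (t ω), C ω)) ≤
      val lam P (fun ω => cp p (l ω)) t (fun ω => (C ω, cc p (l ω))) h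
        (fun ω => zmB p (bl h (cc p (l ω)) (t ω)) (W ω)) := by
  have e2 : P.ex (fun ω => (3 + lam) * Real.log (zmB p (bl h (cc p (l ω)) (t ω)) (W ω)).u2 +
      (1 - lam) * Real.log (zmB p (bl h (cc p (l ω)) (t ω)) (W ω)).u1) =
      P.ex (fun ω => (3 + lam) * Real.log (W ω).u2 + (1 - lam) * Real.log (W ω).u1) + 4 * p * Real.log 2 := by
    have f1 : P.ex (fun ω => (3 + lam) * Real.log (zmB p (bl h (cc p (l ω)) (t ω)) (W ω)).u2 +
        (1 - lam) * Real.log (zmB p (bl h (cc p (l ω)) (t ω)) (W ω)).u1) =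
        P.ex (fun ω => ((3 + lam) * Real.log (W ω).u2 + (1 - lam) * Real.log (W ω).u1) +
          4 * p * Real.log 2) := by
      refine P.ex_congr fun ω hω => ?_
      rw [zmB_u1, zmB_u2, Real.log_mul (by positivity) (hW ω hω).1.ne',
        Real.log_mul (by positivity) (hW ω hω).2.ne', Real.log_pow]
      ring
    rw [f1, P.ex_add, P.ex_const]
  have e1 : Stk.hc P l (fun ω => (W ω, fl1 h (t ω), C ω)) ≤
      Stk.hc P (fun ω => cp p (l ω)) (fun ω => (zmB p (bl h (cc p (l ω)) (t ω)) (W ω), fl1 h (t ω),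
        (C ω, cc p (l ω)))) + Stk.hc P (fun ω => cc p (l ω)) (fun ω => (W ω, fl1 h (t ω), C ω)) := by
    have a1 := Stk.hc_le_add' P l (fun ω => cc p (l ω)) (fun ω => (W ω, fl1 h (t ω), C ω))
    have a2 : Stk.hc P l (fun ω => (cc p (l ω), (W ω, fl1 h (t ω), C ω))) ≤
        Stk.hc P (fun ω => cp p (l ω)) (fun ω => (zmB p (bl h (cc p (l ω)) (t ω)) (W ω), fl1 h (t ω),
        (C ω, cc p (l ω)))) := by
      refine (Stk.hc_mono_left P (X' := fun ω => cp p (l ω)) ?_).trans (Stk.hc_mono_right P _ ?_)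
      · intro ω ω' _ _ e
        simp only [Prod.mk.injEq] at e
        exact cc_congr e.2.1 e.1
      · intro ω ω' _ _ e
        simp only [Prod.mk.injEq] at e ⊢
        obtain ⟨e1, e2, e3, e4⟩ := e
        refine ⟨?_, e3, e4, e1⟩
        rw [e1, e2, bl_congr_t e3]
    linarith
  unfold val
  rw [e2]
  linarith

/-- the deficit in the caps -/
theorem Dd_cap {h : ℕ} : Dd P (fun ω => cp p (l ω)) t (fun ω => (C ω, cc p (l ω))) h ≤ Dd P l t C h := by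
  unfold Dd
  have := Stk.hc_mono_right P (fun ω => fl1 h (t ω)) (Y' := fun ω => (l ω, C ω))
    (Y := fun ω => (cp p (l ω), (C ω, cc p (l ω)))) (fun ω ω' _ _ e => by
      simp only [Prod.mk.injEq] at e ⊢
      rw [e.1]
      exact ⟨rfl, e.2, rfl⟩)
  linarith

end cap

/-! ### the cap is known given the label -/

theorem qa_mem {s : ℕ} {t : ℝ} (h0 : 0 ≤ t) (h1 : t ≤ 1) : 0 ≤ qa s t ∧ qa s t ≤ 1 := by
  have h2 : (0 : ℝ) < 2 ^ s := by positivity
  unfold qa fl1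
  constructor
  · have : (0 : ℤ) ≤ ⌊(2 : ℝ) ^ s * t⌋ := Int.floor_nonneg.2 (by positivity)
    have : (0 : ℝ) ≤ (⌊(2 : ℝ) ^ s * t⌋ : ℝ) := by exact_mod_cast this
    positivity
  · rw [div_le_one h2]
    exact (Int.floor_le _).trans (by nlinarith)

theorem half_pow_two_mul (p : ℕ) : ((1 / 2 : ℝ) ^ p) ^ 2 = (1 / 2 : ℝ) ^ (2 * p) := by
  rw [← pow_mul, mul_comm]

theorem round_close (p : ℕ) (x : ℝ) : |x - (fl1 p x : ℝ) / 2 ^ p| ≤ (1 / 2 : ℝ) ^ p := by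
  have h2 : (0 : ℝ) < 2 ^ p := by positivity
  have h1 := Int.floor_le ((2 : ℝ) ^ p * x)
  have h3 := (Int.lt_floor_add_one ((2 : ℝ) ^ p * x)).le
  have e : x - (fl1 p x : ℝ) / 2 ^ p = ((2 : ℝ) ^ p * x - (⌊(2 : ℝ) ^ p * x⌋ : ℝ)) / 2 ^ p := by
    unfold fl1
    field_simp
  have e2 : (1 / 2 : ℝ) ^ p = 1 / 2 ^ p := by rw [div_pow, one_pow]
  rw [e, e2, abs_div, abs_of_pos h2]
  refine div_le_div_of_nonneg_right ?_ h2.le
  rw [abs_le]
  constructor <;> linarith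

section ccl

variable {Ω : Type} [Fintype Ω] {γ : Type} {P : Law Ω} {l : Ω → Ry} {t : Ω → ℝ} {C : Ω → γ} {c : ℝ}
  {L h p : ℕ} {W : Ω → Cbx}

/-- the constant of `hc_cc` -/
noncomputable def kcc (c : ℝ) : ℝ :=
  2 * Real.log (2 * (⌈2 * c⌉₊ : ℕ) + 3) + 2 * Real.log (2 * (⌈c⌉₊ : ℕ) + 3) + Real.log (2 * (⌈3 * c + c ^ 2⌉₊ : ℕ) + 3)

theorem cc_slope {B : Cbx} {r : Ry} {τ : ℝ} (hb : Bin c B 0 (bl h r τ)) (k : Fin 2) : |r.s k - B.v k| ≤ c * B.u2 := hb.2.1 k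

theorem cc_pos (hc : 0 ≤ c) {B : Cbx} {r : Ry} {τ : ℝ} (h0 : 0 ≤ τ) (h1 : τ ≤ 1) (hu : 0 ≤ B.u2)
    (hb : Bin c B 0 (bl h r τ)) (k : Fin 2) :
    |r.y k - (B.p k / 2 ^ h - qa h τ * B.v k)| ≤ 2 * c * B.u2 := by
  obtain ⟨q0, q1⟩ := qa_mem (s := h) h0 h1
  have g1 : |2 ^ h * (r.y k + qa h τ * r.s k) - B.p k| ≤ c * B.u2 := hb.1 k
  have g2 := cc_slope hb k
  have hh : (1 : ℝ) ≤ 2 ^ h := one_le_pow₀ (by norm_num)
  have e : r.y k - (B.p k / 2 ^ h - qa h τ * B.v k) =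
      (2 ^ h * (r.y k + qa h τ * r.s k) - B.p k) / 2 ^ h - qa h τ * (r.s k - B.v k) := by
    field_simp
    ring
  rw [e]
  refine (abs_sub _ _).trans ?_
  rw [abs_div, abs_mul, abs_of_pos (by positivity : (0 : ℝ) < 2 ^ h), abs_of_nonneg q0]
  have a1 : |2 ^ h * (r.y k + qa h τ * r.s k) - B.p k| / 2 ^ h ≤ c * B.u2 :=
    (div_le_self (abs_nonneg _) hh).trans g1
  have a2 : qa h τ * |r.s k - B.v k| ≤ c * B.u2 :=
    (mul_le_of_le_one_left (abs_nonneg _) q1).trans g2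
  linarith

theorem cc_hgt (hc : 0 ≤ c) {B : Cbx} {r : Ry} {τ : ℝ} (h0 : 0 ≤ τ) (h1 : τ ≤ 1) (hu : B.u2 = (1 / 2 : ℝ) ^ p)
    (hb : Bin c B 0 (bl h r τ)) (y v : Fin 2 → ℝ) (hy : ∀ k, |r.y k - y k| ≤ (1 / 2 : ℝ) ^ p) :
    |(r.z + ∑ k, y k * (r.s k - v k)) - (B.ω / 2 ^ h + ∑ k, y k * (B.v k - v k) +
      qa h τ * (∑ k, B.v k ^ 2) / 2)| ≤ (3 * c + c ^ 2) * (1 / 2 : ℝ) ^ (2 * p) := by
  obtain ⟨q0, q1⟩ := qa_mem (s := h) h0 h1
  have g2 : ∀ k, |r.s k - B.v k| ≤ c * (1 / 2 : ℝ) ^ p := fun k => by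
    have := cc_slope hb k
    rwa [hu] at this
  have hh : (1 : ℝ) ≤ 2 ^ h := one_le_pow₀ (by norm_num)
  have hh0 : (0 : ℝ) < 2 ^ h := by positivity
  have g3 : |2 ^ h * (r.z - qa h τ * (∑ k, r.s k ^ 2) / 2) +
      ∑ k, (2 ^ h * (r.y k + qa h τ * r.s k)) * (r.s k - B.v k) - B.ω| ≤ c * (1 / 2 : ℝ) ^ (2 * p) := by
    have g := hb.2.2.1
    rw [hu, max_eq_left (sq_nonneg _), half_pow_two_mul] at g
    exact g
  set ζ : ℝ := 2 ^ h * (r.z - qa h τ * (∑ k, r.s k ^ 2) / 2) +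
      ∑ k, (2 ^ h * (r.y k + qa h τ * r.s k)) * (r.s k - B.v k) - B.ω with hζ
  have e : (r.z + ∑ k, y k * (r.s k - v k)) - (B.ω / 2 ^ h + ∑ k, y k * (B.v k - v k) +
      qa h τ * (∑ k, B.v k ^ 2) / 2) =
      ζ / 2 ^ h - (∑ k, (r.y k - y k) * (r.s k - B.v k)) - qa h τ * (∑ k, (r.s k - B.v k) ^ 2) / 2 := by
    have f1 : ζ / 2 ^ h = (r.z - qa h τ * (∑ k, r.s k ^ 2) / 2) +
        ∑ k, (r.y k + qa h τ * r.s k) * (r.s k - B.v k) - B.ω / 2 ^ h := by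
      rw [hζ]
      simp only [Fin.sum_univ_two]
      field_simp
    rw [f1]
    simp only [Fin.sum_univ_two]
    ring
  rw [e]
  have hpp : (1 / 2 : ℝ) ^ p * (1 / 2 : ℝ) ^ p = (1 / 2 : ℝ) ^ (2 * p) := by
    rw [← half_pow_two_mul, sq]
  have a1 : |ζ / 2 ^ h| ≤ c * (1 / 2 : ℝ) ^ (2 * p) := by
    rw [abs_div, abs_of_pos hh0]
    exact (div_le_self (abs_nonneg _) hh).trans g3
  have b1 : ∀ k, |(r.y k - y k) * (r.s k - B.v k)| ≤ c * (1 / 2 : ℝ) ^ (2 * p) := fun k => by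
    rw [abs_mul, ← hpp]
    calc |r.y k - y k| * |r.s k - B.v k| ≤ (1 / 2 : ℝ) ^ p * (c * (1 / 2 : ℝ) ^ p) :=
          mul_le_mul (hy k) (g2 k) (abs_nonneg _) (by positivity)
      _ = _ := by ring
  have b2 : ∀ k, (r.s k - B.v k) ^ 2 ≤ c ^ 2 * (1 / 2 : ℝ) ^ (2 * p) := fun k => by
    rw [← sq_abs, ← hpp]
    calc |r.s k - B.v k| ^ 2 ≤ (c * (1 / 2 : ℝ) ^ p) ^ 2 := pow_le_pow_left₀ (abs_nonneg _) (g2 k) 2
      _ = _ := by ring
  have a2 : |∑ k, (r.y k - y k) * (r.s k - B.v k)| ≤ 2 * (c * (1 / 2 : ℝ) ^ (2 * p)) := by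
    rw [Fin.sum_univ_two]
    refine (abs_add_le _ _).trans ?_
    linarith [b1 0, b1 1]
  have a3 : |qa h τ * (∑ k, (r.s k - B.v k) ^ 2) / 2| ≤ c ^ 2 * (1 / 2 : ℝ) ^ (2 * p) := by
    have s0 : 0 ≤ ∑ k, (r.s k - B.v k) ^ 2 := Finset.sum_nonneg fun k _ => sq_nonneg _
    rw [abs_of_nonneg (by positivity)]
    have s1 : ∑ k, (r.s k - B.v k) ^ 2 ≤ 2 * (c ^ 2 * (1 / 2 : ℝ) ^ (2 * p)) := by
      rw [Fin.sum_univ_two]
      linarith [b2 0, b2 1]
    have s2 : qa h τ * (∑ k, (r.s k - B.v k) ^ 2) ≤ ∑ k, (r.s k - B.v k) ^ 2 := mul_le_of_le_one_left s0 q1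
    linarith
  have t1 := abs_sub (ζ / 2 ^ h - ∑ k, (r.y k - y k) * (r.s k - B.v k)) (qa h τ * (∑ k, (r.s k - B.v k) ^ 2) / 2)
  have t2 := abs_sub (ζ / 2 ^ h) (∑ k, (r.y k - y k) * (r.s k - B.v k))
  nlinarith

/-- the cap is a function of the label and of the time, up to a constant -/
theorem hc_cc (hc : 0 ≤ c) (hs : SyOk P l t)
    (hW : ∀ ω, 0 < P.w ω → Bin c (W ω) 0 (bl h (l ω) (t ω)) ∧ (W ω).u2 = (1 / 2 : ℝ) ^ p) :
    Stk.hc P (fun ω => cc p (l ω)) (fun ω => (W ω, fl1 h (t ω), C ω)) ≤ kcc c := by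
  set Z : Ω → Cbx × ℤ × γ := fun ω => (W ω, fl1 h (t ω), C ω) with hZ
  set wy : Ω → Fin 2 → ℝ := fun ω k => (W ω).p k / 2 ^ h - qa h (t ω) * (W ω).v k with hwy
  have hnn : ∀ n : ℕ, (0 : ℝ) ≤ n := fun n => Nat.cast_nonneg _
  -- slopes
  have a1 : Stk.hc P (fun ω => fl p (l ω).s) Z ≤ 2 * Real.log (2 * (⌈c⌉₊ : ℕ) + 3) := by
    have e := Stk.hc_fl_close P (s := p) ⌈c⌉₊ (fun ω => (l ω).s) (fun ω => (W ω).v) Z (fun ω hω i => by
      have g := cc_slope (hW ω hω).1 i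
      rw [(hW ω hω).2] at g
      exact g.trans (mul_le_mul_of_nonneg_right (Nat.le_ceil c) (by positivity)))
    rw [Fintype.card_fin] at e
    refine le_trans (Stk.hc_mono_right P _ ?_) e
    intro ω ω' _ _ e
    simp only [hZ, Prod.mk.injEq] at e ⊢
    exact ⟨by rw [e.1], e⟩
  have a2 : Stk.hc P (fun ω => fl p (l ω).y) (fun ω => (fl p (l ω).s, Z ω)) ≤
      2 * Real.log (2 * (⌈2 * c⌉₊ : ℕ) + 3) := by
    have e := Stk.hc_fl_close P (s := p) ⌈2 * c⌉₊ (fun ω => (l ω).y) wy Z (fun ω hω i => by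
      have g := cc_pos hc (hs ω hω).2.1 (hs ω hω).2.2 (by rw [(hW ω hω).2]; positivity) (hW ω hω).1 i
      rw [(hW ω hω).2] at g
      exact g.trans (mul_le_mul_of_nonneg_right (Nat.le_ceil (2 * c)) (by positivity)))
    rw [Fintype.card_fin] at e
    refine le_trans (Stk.hc_mono_right P _ ?_) e
    intro ω ω' _ _ e
    simp only [hZ, Prod.mk.injEq] at e ⊢
    have e3 : qa h (t ω) = qa h (t ω') := by unfold qa; rw [e.2.2.1]
    refine ⟨?_, e.2⟩
    simp only [hwy]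
    rw [e.2.1, e3]
  set H : Ω → ℝ := fun ω => (l ω).z + ∑ k, (fl p (l ω).y k : ℝ) / 2 ^ p * ((l ω).s k - (fl p (l ω).s k : ℝ) / 2 ^ p)
    with hH
  set F : Ω → ℝ := fun ω => (W ω).ω / 2 ^ h + ∑ k, (fl p (l ω).y k : ℝ) / 2 ^ p *
    ((W ω).v k - (fl p (l ω).s k : ℝ) / 2 ^ p) + qa h (t ω) * (∑ k, (W ω).v k ^ 2) / 2 with hF
  have a3 : Stk.hc P (fun ω => fl1 (2 * p) (H ω)) (fun ω => (fl p (l ω).y, (fl p (l ω).s, Z ω))) ≤
      Real.log (2 * (⌈3 * c + c ^ 2⌉₊ : ℕ) + 3) := by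
    have e := Stk.hc_fl_close P (s := 2 * p) (ι := Unit) ⌈3 * c + c ^ 2⌉₊ (fun ω _ => H ω) (fun ω _ => F ω)
      (fun ω => (fl p (l ω).y, (fl p (l ω).s, Z ω))) (fun ω hω _ => by
      have g := cc_hgt (p := p) hc (hs ω hω).2.1 (hs ω hω).2.2 (hW ω hω).2 (hW ω hω).1
        (fun k => (fl p (l ω).y k : ℝ) / 2 ^ p) (fun k => (fl p (l ω).s k : ℝ) / 2 ^ p)
        (fun k => round_close p _)
      exact g.trans (mul_le_mul_of_nonneg_right (Nat.le_ceil _) (by positivity)))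
    rw [Fintype.card_unit, Nat.cast_one, one_mul] at e
    refine le_trans ((Stk.hc_mono_left P ?_).trans (Stk.hc_mono_right P _ ?_)) e
    · intro ω ω' _ _ e
      have := congrFun (congrArg Prod.fst e) ()
      exact this
    · intro ω ω' _ _ e
      simp only [hZ, Prod.mk.injEq] at e
      have e3 : qa h (t ω) = qa h (t ω') := by unfold qa; rw [e.2.2.2.1]
      have e4 : F ω = F ω' := by
        simp only [hF]
        rw [e.1, e.2.1, e.2.2.1, e3]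
      show ((fl (2 * p) fun _ => F ω), (fl p (l ω).y, (fl p (l ω).s, Z ω))) =
        ((fl (2 * p) fun _ => F ω'), (fl p (l ω').y, (fl p (l ω').s, Z ω')))
      rw [e4, e.1, e.2.1]
      simp only [hZ]
      rw [e.2.2.1, e.2.2.2.1, e.2.2.2.2]
  have b1 : Stk.hc P (fun ω => cc p (l ω)) Z ≤
      Stk.hc P (fun ω => (fl p (l ω).s, (fl p (l ω).y, fl1 (2 * p) (H ω)))) Z := by
    refine Stk.hc_mono_left P fun ω ω' _ _ e => ?_
    simp only [Prod.mk.injEq] at e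
    obtain ⟨⟨e1, e2, e3⟩, -⟩ := e
    refine Ry.ext' (fun k => ?_) (fun k => ?_) ?_
    · show (fl p (l ω).y k : ℝ) / 2 ^ p = (fl p (l ω').y k : ℝ) / 2 ^ p
      rw [e2]
    · show (fl p (l ω).s k : ℝ) / 2 ^ p = (fl p (l ω').s k : ℝ) / 2 ^ p
      rw [e1]
    · show (fl1 (2 * p) (H ω) : ℝ) / 2 ^ (2 * p) = (fl1 (2 * p) (H ω') : ℝ) / 2 ^ (2 * p)
      rw [e3]
  have b2 := Stk.hc_pair P (fun ω => fl p (l ω).s) (fun ω => (fl p (l ω).y, fl1 (2 * p) (H ω))) Z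
  have b3 := Stk.hc_pair P (fun ω => fl p (l ω).y) (fun ω => fl1 (2 * p) (H ω)) (fun ω => (fl p (l ω).s, Z ω))
  unfold kcc
  linarith

end ccl

/-! ### the theorem -/

theorem half_inj {b b' : ℕ} (h : (1 / 2 : ℝ) ^ b = (1 / 2 : ℝ) ^ b') : b = b' :=
  pow_right_injective₀ (by norm_num) (by norm_num) h

theorem two_half_sub {p m : ℕ} (h : p ≤ m) : (2 : ℝ) ^ p * (1 / 2 : ℝ) ^ m = (1 / 2 : ℝ) ^ (m - p) := by
  obtain ⟨x, rfl⟩ := Nat.exists_eq_add_of_le h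
  rw [Nat.add_sub_cancel_left, pow_add, ← mul_assoc, ← mul_pow]
  norm_num

theorem Dd_ge {Ω : Type} [Fintype Ω] {γ : Type} {P : Law Ω} {l : Ω → Ry} {t : Ω → ℝ} (C : Ω → γ) (s : ℕ)
    (h : SyOk P l t) : -Real.log 2 ≤ Dd P l t C s := by
  have h1 : Stk.hc P (fun ω => fl1 s (t ω)) (fun ω => (l ω, C ω)) ≤ Real.log (Finset.Icc (0 : ℤ) (2 ^ s)).card := by
    refine hc_le_card P _ _ _ fun ω hω => ?_
    obtain ⟨-, h2, h3⟩ := h ω hω
    rw [Finset.mem_Icc]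
    unfold fl1
    have h4 : (0 : ℝ) < 2 ^ s := by positivity
    constructor
    · exact Int.floor_nonneg.2 (by positivity)
    · have h5 : (⌊(2 : ℝ) ^ s * t ω⌋ : ℝ) ≤ 2 ^ s := (Int.floor_le _).trans (by nlinarith)
      exact_mod_cast h5
  have h2 : (Finset.Icc (0 : ℤ) (2 ^ s)).card = 2 ^ s + 1 := by
    rw [Int.card_Icc]
    have : ((2 : ℤ) ^ s + 1 - 0) = ((2 ^ s + 1 : ℕ) : ℤ) := by push_cast; ring
    rw [this, Int.toNat_natCast]
  have h3 : Real.log ((2 ^ s + 1 : ℕ) : ℝ) ≤ s * Real.log 2 + Real.log 2 := by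
    have e : (s : ℝ) * Real.log 2 + Real.log 2 = Real.log ((2 : ℝ) ^ (s + 1)) := by
      rw [Real.log_pow]
      push_cast
      ring
    rw [e]
    refine Real.log_le_log (by positivity) ?_
    push_cast
    have : (1 : ℝ) ≤ 2 ^ s := one_le_pow₀ (by norm_num)
    rw [pow_succ]
    linarith
  rw [h2] at h1
  unfold Dd
  linarith

/-- **existence of near-extremal systems** -/
theorem pNEx_of (hE : PExtX) : PNEx := by
  intro lam N k β d hl0 hl1 hk0 hk1 hN hd hF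
  have hlog : 0 < Real.log 2 := Real.log_pos (by norm_num)
  unfold FIXA at hF
  push Not at hF
  obtain ⟨c, hc1, hF⟩ := hF
  refine ⟨c, hc1, fun h0 => ?_⟩
  unfold FIX at hF
  push Not at hF
  obtain ⟨ε, hε, hF⟩ := hF
  obtain ⟨KE, hKE0, hE1⟩ := hE c lam hc1 hl0.le hl1.le
  have hc0 : 0 ≤ c := by linarith
  have hl : 0 ≤ lam ∧ lam ≤ 1 := ⟨hl0.le, hl1.le⟩
  obtain ⟨Ω, iF, γ, P, l, t, C, L, s, e0, W, hsL, hok, hW, hlt⟩ :=
    hF (kcc c + (|β| + d + ε + 4) * h0 * Real.log 2 + 2 * KE + N * Real.log 2)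
  obtain ⟨b, R⟩ := e0
  obtain ⟨ω0, hω0⟩ := exists_supp P
  have hbR : b ≤ R ∧ s + R ≤ L := by
    obtain ⟨⟨⟨b', R', g1, g2, g3, g4⟩, -, -, -⟩, g5, g6⟩ := hW ω0 hω0
    have e1 : b' = b := half_inj (g1.symm.trans g5)
    have e2 : R' = R := half_inj (g2.symm.trans g6)
    subst e1 e2
    exact ⟨g3, g4⟩
  obtain ⟨hbR, hsR⟩ := hbR
  have hkcc : 0 ≤ kcc c := by
    unfold kcc
    have : ∀ n : ℕ, 0 ≤ Real.log (2 * (n : ℝ) + 3) := fun n =>
      Real.log_nonneg (by linarith [Nat.cast_nonneg (α := ℝ) n])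
    have a1 := this ⌈2 * c⌉₊
    have a2 := this ⌈c⌉₊
    have a3 := this ⌈3 * c + c ^ 2⌉₊
    linarith
  have hDge := Dd_ge C s hok
  -- the value is at most the functional of the level `s`
  have hval : val lam P l t C s W ≤ XX c lam k 0 P l t C (fun _ => (b, R)) L s := by
    have e := le_XX' (C := C) (e := fun _ => (b, R)) (lam := lam) (k := k) (La := 0) hl hk0.le le_rfl
      (W := W) (fun ω hω => (hW ω hω).1)
    have e2 : P.ex (fun ω => dsh (W ω) ((fun _ : Ω => (b, R)) ω)) = 0 := by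
      have : P.ex (fun ω => dsh (W ω) ((fun _ : Ω => (b, R)) ω)) = P.ex (fun _ => (0 : ℝ)) := by
        refine P.ex_congr fun ω hω => ?_
        unfold dsh
        rw [(hW ω hω).2.1, (hW ω hω).2.2, log_half, log_half]
        simp
      rw [this, P.ex_const]
    unfold valX at e
    rw [e2] at e
    linarith
  refine ⟨Ω, iF, γ × Ry, P, fun ω => cp b (l ω), t, fun ω => (C ω, cc b (l ω)), L - b, s, R - b,
    fun ω => zmB b (bl s (cc b (l ω)) (t ω)) (W ω), ?_, ?_⟩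
  · -- `s` is large
    by_contra hcon
    push Not at hcon
    have e1 := hE1 Ω γ P l t C (fun _ => (b, R)) L 0 s k 0 hk0.le le_rfl (by omega) hok
    rw [Nat.zero_add] at e1
    have hs0 : (0 : ℝ) ≤ s := Nat.cast_nonneg _
    have hs1 : (s : ℝ) ≤ h0 := by exact_mod_cast hcon.le
    have e2 : (2 + 2 * k) * s * Real.log 2 ≤ 4 * h0 * Real.log 2 := by
      refine mul_le_mul_of_nonneg_right ?_ hlog.le
      nlinarith
    have e3 : (1 + 0 + k) * KE ≤ 2 * KE := by nlinarith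
    have e4 : -((|β| + d + ε) * h0 * Real.log 2) ≤ (β - d / 2 + ε) * s * Real.log 2 := by
      have f1 : -(|β| + d + ε) ≤ β - d / 2 + ε := by
        have := neg_abs_le β
        linarith
      have f2 : 0 ≤ |β| + d + ε := by positivity
      have f3 : -(|β| + d + ε) * s ≤ (β - d / 2 + ε) * s := mul_le_mul_of_nonneg_right f1 hs0
      have f4 : (|β| + d + ε) * s ≤ (|β| + d + ε) * h0 := mul_le_mul_of_nonneg_left hs1 f2
      have f5 : -((|β| + d + ε) * h0) ≤ (β - d / 2 + ε) * s := by linarith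
      have f6 := mul_le_mul_of_nonneg_right f5 hlog.le
      linarith
    have e5 : -(N * Real.log 2) ≤ N * Dd P l t C s := by
      have := mul_le_mul_of_nonneg_left hDge hN
      linarith
    have e6 : (|β| + d + ε + 4) * h0 * Real.log 2 = (|β| + d + ε) * h0 * Real.log 2 + 4 * h0 * Real.log 2 := by
      ring
    rw [e6] at hlt
    linarith
  · refine ⟨fun ω hω => ⟨cp_ok b (l ω), (hok ω hω).2⟩, by omega, fun ω hω => ?_, ?_⟩
    · obtain ⟨g1, g2, g3⟩ := hW ω hω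
      refine ⟨?_, ?_, ?_⟩
      · refine LbOk_zm (cc b (l ω)) (W ω) (l ω) (t ω) g1 fun b' R' q1 q2 => ?_
        have e1 : b' = b := half_inj (q1.symm.trans g2)
        have e2 : R' = R := half_inj (q2.symm.trans g3)
        subst e1 e2
        exact ⟨le_rfl, hbR⟩
      · show (zmB b (bl s (cc b (l ω)) (t ω)) (W ω)).u2 = 1
        rw [zmB_u2, g2, two_half_sub le_rfl, Nat.sub_self, pow_zero]
      · show (zmB b (bl s (cc b (l ω)) (t ω)) (W ω)).u1 = (1 / 2 : ℝ) ^ (R - b)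
        rw [zmB_u1, g3, two_half_sub hbR]
    · have e1 := XX_cap (P := P) (l := l) (t := t) (C := C) (L := L) (a := 0) hc0 hl hk0.le hbR (by omega)
      have e2 := val_cap (lam := lam) (P := P) (l := l) (t := t) (C := C) (p := b) (h := s) W (fun ω hω => by
        rw [(hW ω hω).2.1, (hW ω hω).2.2]
        constructor <;> positivity)
      have e3 := hc_cc (P := P) (l := l) (t := t) (C := C) (c := c) (h := s) (p := b) (W := W) hc0 hok
        (fun ω hω => ⟨(hW ω hω).1.inn, (hW ω hω).2.1⟩)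
      have e4 := mul_le_mul_of_nonneg_left (Dd_cap (P := P) (l := l) (t := t) (C := C) (p := b) (h := s)) hN
      have hs0 : (0 : ℝ) ≤ s := Nat.cast_nonneg _
      have e5 : (β - d) * s * Real.log 2 ≤ (β - d / 2 + ε) * s * Real.log 2 := by
        refine mul_le_mul_of_nonneg_right ?_ hlog.le
        exact mul_le_mul_of_nonneg_right (by linarith) hs0
      have e6 : 0 ≤ (|β| + d + ε + 4) * h0 * Real.log 2 := by positivity
      have e7 : 0 ≤ N * Real.log 2 := by positivity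
      linarith

end Vale.Agent.P106.U.H127
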