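import Vale.Agent.P106.U.H61.Mac

/-!
# P106 / U / H127 : the cap zoom on rays and boxes (helper127)

* `zmR c b l` : the ray `l` in the coordinates centred at the ray `c`, `x` and slope multiplied by `2^b`, adapted coordinate
  multiplied by `2^(2b)`; `zmC c b B`, `uzC c b B` : the same for boxes and back.
* `bl_zmR` : the zoom commutes with the blow-up `bl a`.
* `bin_zmC`, `bin_uzC` : the ray is in the box iff the zoomed ray is in the zoomed box.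
-/

set_option autoImplicit false

namespace Vale.Agent.P106.U.H127

open Vale.Agent.P127 Vale.Agent.P127.Stk Vale.Agent.P127.U Vale.Agent.P106.W Vale.Agent.P106.K
open Vale.Agent.P122.C2 (fn)

/-- the ray `l` in the coordinates of the cap `2^-b` around the ray `c` -/
noncomputable def zmR (c : Ry) (b : ℕ) (l : Ry) : Ry :=
  ⟨fun k => 2 ^ b * (l.y k - c.y k), fun k => 2 ^ b * (l.s k - c.s k),
    2 ^ (2 * b) * (l.z + ∑ k, c.y k * (l.s k - c.s k) - c.z)⟩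

/-- the inverse of `zmR c b` -/
noncomputable def uzR (c : Ry) (b : ℕ) (l : Ry) : Ry :=
  ⟨fun k => c.y k + (1 / 2 : ℝ) ^ b * l.y k, fun k => c.s k + (1 / 2 : ℝ) ^ b * l.s k,
    c.z + (1 / 2 : ℝ) ^ (2 * b) * l.z - ∑ k, c.y k * ((1 / 2 : ℝ) ^ b * l.s k)⟩

/-- the center of a box as a ray -/
def ctr (B : Cbx) : Ry := ⟨B.p, B.v, B.ω⟩

/-- the box in the zoomed coordinates -/
noncomputable def zmC (c : Ry) (b : ℕ) (B : Cbx) : Cbx :=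
  { θ := B.θ, u1 := 2 ^ b * B.u1, u2 := 2 ^ b * B.u2, κ := (1 / 2 : ℝ) ^ b * B.κ, α := (1 / 2 : ℝ) ^ b * B.α,
    p := (zmR c b (ctr B)).y, v := (zmR c b (ctr B)).s, ω := (zmR c b (ctr B)).z }

/-- the box in the original coordinates -/
noncomputable def uzC (c : Ry) (b : ℕ) (B : Cbx) : Cbx :=
  { θ := B.θ, u1 := (1 / 2 : ℝ) ^ b * B.u1, u2 := (1 / 2 : ℝ) ^ b * B.u2, κ := 2 ^ b * B.κ, α := 2 ^ b * B.α,
    p := (uzR c b (ctr B)).y, v := (uzR c b (ctr B)).s, ω := (uzR c b (ctr B)).z }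

theorem half_two (b : ℕ) : (1 / 2 : ℝ) ^ b * 2 ^ b = 1 := by
  rw [← mul_pow]
  norm_num

theorem two_half (b : ℕ) : (2 : ℝ) ^ b * (1 / 2 : ℝ) ^ b = 1 := by
  rw [mul_comm, half_two]

theorem two_half' (b : ℕ) (x : ℝ) : (2 : ℝ) ^ b * ((1 / 2 : ℝ) ^ b * x) = x := by
  rw [← mul_assoc, two_half, one_mul]

theorem half_two' (b : ℕ) (x : ℝ) : (1 / 2 : ℝ) ^ b * ((2 : ℝ) ^ b * x) = x := by
  rw [← mul_assoc, half_two, one_mul]

theorem Ry.ext' {l l' : Ry} (h1 : l.y = l'.y) (h2 : l.s = l'.s) (h3 : l.z = l'.z) : l = l' := by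
  cases l
  cases l'
  simp only at h1 h2 h3
  subst h1 h2 h3
  rfl

theorem zmR_uzR (c : Ry) (b : ℕ) (l : Ry) : zmR c b (uzR c b l) = l := by
  refine Ry.ext' (funext fun k => ?_) (funext fun k => ?_) ?_
  · show (2 : ℝ) ^ b * (c.y k + (1 / 2 : ℝ) ^ b * l.y k - c.y k) = l.y k
    rw [add_sub_cancel_left, two_half']
  · show (2 : ℝ) ^ b * (c.s k + (1 / 2 : ℝ) ^ b * l.s k - c.s k) = l.s k
    rw [add_sub_cancel_left, two_half']
  · show (2 : ℝ) ^ (2 * b) * (c.z + (1 / 2 : ℝ) ^ (2 * b) * l.z - ∑ k, c.y k * ((1 / 2 : ℝ) ^ b * l.s k) +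
      ∑ k, c.y k * (c.s k + (1 / 2 : ℝ) ^ b * l.s k - c.s k) - c.z) = l.z
    have e : ∑ k, c.y k * (c.s k + (1 / 2 : ℝ) ^ b * l.s k - c.s k) =
        ∑ k, c.y k * ((1 / 2 : ℝ) ^ b * l.s k) :=
      Finset.sum_congr rfl fun k _ => by rw [add_sub_cancel_left]
    rw [e]
    have e2 : c.z + (1 / 2 : ℝ) ^ (2 * b) * l.z - ∑ k, c.y k * ((1 / 2 : ℝ) ^ b * l.s k) +
      ∑ k, c.y k * ((1 / 2 : ℝ) ^ b * l.s k) - c.z = (1 / 2 : ℝ) ^ (2 * b) * l.z := by ring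
    rw [e2, two_half']

theorem uzR_zmR (c : Ry) (b : ℕ) (l : Ry) : uzR c b (zmR c b l) = l := by
  refine Ry.ext' (funext fun k => ?_) (funext fun k => ?_) ?_
  · show c.y k + (1 / 2 : ℝ) ^ b * ((2 : ℝ) ^ b * (l.y k - c.y k)) = l.y k
    rw [half_two']
    ring
  · show c.s k + (1 / 2 : ℝ) ^ b * ((2 : ℝ) ^ b * (l.s k - c.s k)) = l.s k
    rw [half_two']
    ring
  · show c.z + (1 / 2 : ℝ) ^ (2 * b) * ((2 : ℝ) ^ (2 * b) * (l.z + ∑ k, c.y k * (l.s k - c.s k) - c.z)) -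
      ∑ k, c.y k * ((1 / 2 : ℝ) ^ b * ((2 : ℝ) ^ b * (l.s k - c.s k))) = l.z
    simp only [half_two']
    ring

/-- the zoom commutes with the blow-up -/
theorem bl_zmR (a : ℕ) (c l : Ry) (b : ℕ) (t : ℝ) : bl a (zmR c b l) t = zmR (bl a c t) b (bl a l t) := by
  refine Ry.ext' (funext fun k => ?_) (funext fun k => ?_) ?_
  · show (2 : ℝ) ^ a * ((zmR c b l).y k + qa a t * (zmR c b l).s k) =
      2 ^ b * (2 ^ a * (l.y k + qa a t * l.s k) - 2 ^ a * (c.y k + qa a t * c.s k))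
    show (2 : ℝ) ^ a * (2 ^ b * (l.y k - c.y k) + qa a t * (2 ^ b * (l.s k - c.s k))) = _
    ring
  · rfl
  · show (2 : ℝ) ^ a * ((zmR c b l).z - qa a t * (∑ k, (zmR c b l).s k ^ 2) / 2) =
      2 ^ (2 * b) * ((bl a l t).z + ∑ k, (bl a c t).y k * ((bl a l t).s k - (bl a c t).s k) - (bl a c t).z)
    have e1 : ∑ k, (zmR c b l).s k ^ 2 = 2 ^ (2 * b) * ∑ k, (l.s k - c.s k) ^ 2 := by
      rw [Finset.mul_sum]
      refine Finset.sum_congr rfl fun k _ => ?_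
      show ((2 : ℝ) ^ b * (l.s k - c.s k)) ^ 2 = _
      ring
    rw [e1]
    show (2 : ℝ) ^ a * (2 ^ (2 * b) * (l.z + ∑ k, c.y k * (l.s k - c.s k) - c.z) -
        qa a t * (2 ^ (2 * b) * ∑ k, (l.s k - c.s k) ^ 2) / 2) =
      2 ^ (2 * b) * (2 ^ a * (l.z - qa a t * (∑ k, l.s k ^ 2) / 2) +
        ∑ k, (2 ^ a * (c.y k + qa a t * c.s k)) * (l.s k - c.s k) -
        2 ^ a * (c.z - qa a t * (∑ k, c.s k ^ 2) / 2))
    simp only [Fin.sum_univ_two]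
    ring

theorem fn_lin (θ : ℝ) (v w : Fin 2 → ℝ) (x : ℝ) (h : ∀ k, v k = x * w k) : fn θ v = x * fn θ w := by
  unfold fn
  rw [h 0, h 1]
  ring

theorem ze_zmC (c l : Ry) (b : ℕ) (B : Cbx) :
    (zmR c b l).z + ∑ k, (zmR c b l).y k * ((zmR c b l).s k - (zmC c b B).v k) - (zmC c b B).ω =
      2 ^ (2 * b) * (l.z + ∑ k, l.y k * (l.s k - B.v k) - B.ω) := by
  show (2 : ℝ) ^ (2 * b) * (l.z + ∑ k, c.y k * (l.s k - c.s k) - c.z) +
      ∑ k, (2 ^ b * (l.y k - c.y k)) * (2 ^ b * (l.s k - c.s k) - 2 ^ b * (B.v k - c.s k)) -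
      2 ^ (2 * b) * (B.ω + ∑ k, c.y k * (B.v k - c.s k) - c.z) = _
  simp only [Fin.sum_univ_two]
  ring

theorem zp_zmC (c l : Ry) (b : ℕ) (B : Cbx) :
    (zmR c b l).z + ∑ k, (zmC c b B).p k * ((zmR c b l).s k - (zmC c b B).v k) - (zmC c b B).ω =
      2 ^ (2 * b) * (l.z + ∑ k, B.p k * (l.s k - B.v k) - B.ω) := by
  show (2 : ℝ) ^ (2 * b) * (l.z + ∑ k, c.y k * (l.s k - c.s k) - c.z) +
      ∑ k, (2 ^ b * (B.p k - c.y k)) * (2 ^ b * (l.s k - c.s k) - 2 ^ b * (B.v k - c.s k)) -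
      2 ^ (2 * b) * (B.ω + ∑ k, c.y k * (B.v k - c.s k) - c.z) = _
  simp only [Fin.sum_univ_two]
  ring

/-- the ray is in the box iff the zoomed ray is in the zoomed box -/
theorem bin_zmC {C : ℝ} {c l : Ry} {b : ℕ} {B : Cbx} (h : Bin C B 0 l) : Bin C (zmC c b B) 0 (zmR c b l) := by
  obtain ⟨h1, h2, h3, h4, h5⟩ := h
  have hb : (0 : ℝ) < 2 ^ b := by positivity
  have hy : ∀ k, (zmR c b l).y k - (zmC c b B).p k = 2 ^ b * (l.y k - B.p k) := fun k => by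
    show (2 : ℝ) ^ b * (l.y k - c.y k) - 2 ^ b * (B.p k - c.y k) = _
    ring
  have hs : ∀ k, (zmR c b l).s k - (zmC c b B).v k = 2 ^ b * (l.s k - B.v k) := fun k => by
    show (2 : ℝ) ^ b * (l.s k - c.s k) - 2 ^ b * (B.v k - c.s k) = _
    ring
  have hκ : ∀ x : ℝ, (zmC c b B).κ * (2 ^ (2 * b) * x) = 2 ^ b * (B.κ * x) := fun x => by
    show (1 / 2 : ℝ) ^ b * B.κ * (2 ^ (2 * b) * x) = _
    have e : (1 / 2 : ℝ) ^ b * 2 ^ (2 * b) = 2 ^ b := by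
      rw [two_mul, pow_add, ← mul_assoc, half_two, one_mul]
    calc (1 / 2 : ℝ) ^ b * B.κ * (2 ^ (2 * b) * x) = ((1 / 2 : ℝ) ^ b * 2 ^ (2 * b)) * (B.κ * x) := by ring
      _ = _ := by rw [e]
  have hα : ∀ x : ℝ, (zmC c b B).α * (2 ^ (2 * b) * x) = 2 ^ b * (B.α * x) := fun x => by
    show (1 / 2 : ℝ) ^ b * B.α * (2 ^ (2 * b) * x) = _
    have e : (1 / 2 : ℝ) ^ b * 2 ^ (2 * b) = 2 ^ b := by
      rw [two_mul, pow_add, ← mul_assoc, half_two, one_mul]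
    calc (1 / 2 : ℝ) ^ b * B.α * (2 ^ (2 * b) * x) = ((1 / 2 : ℝ) ^ b * 2 ^ (2 * b)) * (B.α * x) := by ring
      _ = _ := by rw [e]
  refine ⟨fun k => ?_, fun k => ?_, ?_, ?_, ?_⟩
  · rw [hy, abs_mul, abs_of_pos hb]
    show _ ≤ C * (2 ^ b * B.u2)
    calc 2 ^ b * |l.y k - B.p k| ≤ 2 ^ b * (C * B.u2) := mul_le_mul_of_nonneg_left (h1 k) hb.le
      _ = _ := by ring
  · rw [hs, abs_mul, abs_of_pos hb]
    show _ ≤ C * (2 ^ b * B.u2)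
    calc 2 ^ b * |l.s k - B.v k| ≤ 2 ^ b * (C * B.u2) := mul_le_mul_of_nonneg_left (h2 k) hb.le
      _ = _ := by ring
  · rw [ze_zmC, abs_mul, abs_of_pos (by positivity)]
    have e : max ((zmC c b B).u2 ^ 2) 0 = 2 ^ (2 * b) * max (B.u2 ^ 2) 0 := by
      rw [max_eq_left (sq_nonneg _), max_eq_left (sq_nonneg _)]
      show (2 ^ b * B.u2) ^ 2 = _
      ring
    rw [e]
    calc 2 ^ (2 * b) * |l.z + ∑ k, l.y k * (l.s k - B.v k) - B.ω| ≤ 2 ^ (2 * b) * (C * max (B.u2 ^ 2) 0) :=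
        mul_le_mul_of_nonneg_left h3 (by positivity)
      _ = _ := by ring
  · rw [ze_zmC, hκ]
    have e1 : fn (zmC c b B).θ ((zmR c b l).y - (zmC c b B).p) = 2 ^ b * fn B.θ (l.y - B.p) :=
      fn_lin _ _ _ _ fun k => hy k
    have e2 : ∑ k, ((zmR c b l).y k - (zmC c b B).p k) ^ 2 = 2 ^ (2 * b) * ∑ k, (l.y k - B.p k) ^ 2 := by
      rw [Finset.mul_sum]
      refine Finset.sum_congr rfl fun k _ => ?_
      rw [hy]
      ring
    rw [e1, e2, hα]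
    have e3 : 2 ^ b * fn B.θ (l.y - B.p) + 2 ^ b * (B.κ * (l.z + ∑ k, l.y k * (l.s k - B.v k) - B.ω)) -
        2 ^ b * (B.α * ∑ k, (l.y k - B.p k) ^ 2) = 2 ^ b * (fn B.θ (l.y - B.p) +
        B.κ * (l.z + ∑ k, l.y k * (l.s k - B.v k) - B.ω) - B.α * ∑ k, (l.y k - B.p k) ^ 2) := by ring
    rw [e3, abs_mul, abs_of_pos hb]
    show _ ≤ C * (2 ^ b * B.u1)
    refine (mul_le_mul_of_nonneg_left h4 hb.le).trans (le_of_eq ?_)
    ring
  · rw [mul_assoc 2 (zmC c b B).α, zp_zmC, hα]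
    have e1 : fn (zmC c b B).θ ((zmR c b l).s - (zmC c b B).v) = 2 ^ b * fn B.θ (l.s - B.v) :=
      fn_lin _ _ _ _ fun k => hs k
    have e2 : ∑ k, ((zmR c b l).s k - (zmC c b B).v k) ^ 2 = 2 ^ (2 * b) * ∑ k, (l.s k - B.v k) ^ 2 := by
      rw [Finset.mul_sum]
      refine Finset.sum_congr rfl fun k _ => ?_
      rw [hs]
      ring
    rw [e1, e2, hκ]
    have e3 : 2 ^ b * fn B.θ (l.s - B.v) + 2 ^ b * (B.κ * ∑ k, (l.s k - B.v k) ^ 2) / 2 +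
        2 * (2 ^ b * (B.α * (l.z + ∑ k, B.p k * (l.s k - B.v k) - B.ω))) = 2 ^ b * (fn B.θ (l.s - B.v) +
        B.κ * (∑ k, (l.s k - B.v k) ^ 2) / 2 + 2 * B.α * (l.z + ∑ k, B.p k * (l.s k - B.v k) - B.ω)) := by
      ring
    rw [e3, abs_mul, abs_of_pos hb]
    show _ ≤ C * (2 ^ b * B.u1)
    refine (mul_le_mul_of_nonneg_left h5 hb.le).trans (le_of_eq ?_)
    ring

theorem ze_uzC (c l : Ry) (b : ℕ) (B : Cbx) :
    l.z + ∑ k, l.y k * (l.s k - (uzC c b B).v k) - (uzC c b B).ω =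
      (1 / 2 : ℝ) ^ (2 * b) * ((zmR c b l).z + ∑ k, (zmR c b l).y k * ((zmR c b l).s k - B.v k) - B.ω) := by
  have h := ze_zmC c l b (uzC c b B)
  have hv : ∀ k, (zmC c b (uzC c b B)).v k = B.v k := fun k =>
    congrFun (congrArg Ry.s (zmR_uzR c b (ctr B))) k
  have hω : (zmC c b (uzC c b B)).ω = B.ω := congrArg Ry.z (zmR_uzR c b (ctr B))
  simp only [hv, hω] at h
  rw [h, half_two']

theorem zp_uzC (c l : Ry) (b : ℕ) (B : Cbx) :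
    l.z + ∑ k, (uzC c b B).p k * (l.s k - (uzC c b B).v k) - (uzC c b B).ω =
      (1 / 2 : ℝ) ^ (2 * b) * ((zmR c b l).z + ∑ k, B.p k * ((zmR c b l).s k - B.v k) - B.ω) := by
  have h := zp_zmC c l b (uzC c b B)
  have hv : ∀ k, (zmC c b (uzC c b B)).v k = B.v k := fun k =>
    congrFun (congrArg Ry.s (zmR_uzR c b (ctr B))) k
  have hp : ∀ k, (zmC c b (uzC c b B)).p k = B.p k := fun k =>
    congrFun (congrArg Ry.y (zmR_uzR c b (ctr B))) k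
  have hω : (zmC c b (uzC c b B)).ω = B.ω := congrArg Ry.z (zmR_uzR c b (ctr B))
  simp only [hv, hp, hω] at h
  rw [h, half_two']

theorem bin_uzC {C : ℝ} {c l : Ry} {b : ℕ} {B : Cbx} (h : Bin C B 0 (zmR c b l)) : Bin C (uzC c b B) 0 l := by
  obtain ⟨h1, h2, h3, h4, h5⟩ := h
  have hb : (0 : ℝ) < (1 / 2) ^ b := by positivity
  have hy : ∀ k, l.y k - (uzC c b B).p k = (1 / 2 : ℝ) ^ b * ((zmR c b l).y k - B.p k) := fun k => by
    show l.y k - (c.y k + (1 / 2 : ℝ) ^ b * B.p k) = (1 / 2 : ℝ) ^ b * (2 ^ b * (l.y k - c.y k) - B.p k)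
    rw [mul_sub, half_two']
    ring
  have hs : ∀ k, l.s k - (uzC c b B).v k = (1 / 2 : ℝ) ^ b * ((zmR c b l).s k - B.v k) := fun k => by
    show l.s k - (c.s k + (1 / 2 : ℝ) ^ b * B.v k) = (1 / 2 : ℝ) ^ b * (2 ^ b * (l.s k - c.s k) - B.v k)
    rw [mul_sub, half_two']
    ring
  have hκ : ∀ x : ℝ, (uzC c b B).κ * ((1 / 2 : ℝ) ^ (2 * b) * x) = (1 / 2 : ℝ) ^ b * (B.κ * x) := fun x => by
    show 2 ^ b * B.κ * ((1 / 2 : ℝ) ^ (2 * b) * x) = _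
    have e : (2 : ℝ) ^ b * (1 / 2 : ℝ) ^ (2 * b) = (1 / 2 : ℝ) ^ b := by
      rw [two_mul, pow_add, ← mul_assoc, two_half, one_mul]
    calc 2 ^ b * B.κ * ((1 / 2 : ℝ) ^ (2 * b) * x) = ((2 : ℝ) ^ b * (1 / 2 : ℝ) ^ (2 * b)) * (B.κ * x) := by
          ring
      _ = _ := by rw [e]
  have hα : ∀ x : ℝ, (uzC c b B).α * ((1 / 2 : ℝ) ^ (2 * b) * x) = (1 / 2 : ℝ) ^ b * (B.α * x) := fun x => by
    show 2 ^ b * B.α * ((1 / 2 : ℝ) ^ (2 * b) * x) = _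
    have e : (2 : ℝ) ^ b * (1 / 2 : ℝ) ^ (2 * b) = (1 / 2 : ℝ) ^ b := by
      rw [two_mul, pow_add, ← mul_assoc, two_half, one_mul]
    calc 2 ^ b * B.α * ((1 / 2 : ℝ) ^ (2 * b) * x) = ((2 : ℝ) ^ b * (1 / 2 : ℝ) ^ (2 * b)) * (B.α * x) := by
          ring
      _ = _ := by rw [e]
  refine ⟨fun k => ?_, fun k => ?_, ?_, ?_, ?_⟩
  · rw [hy, abs_mul, abs_of_pos hb]
    show _ ≤ C * ((1 / 2 : ℝ) ^ b * B.u2)
    refine (mul_le_mul_of_nonneg_left (h1 k) hb.le).trans (le_of_eq ?_)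
    ring
  · rw [hs, abs_mul, abs_of_pos hb]
    show _ ≤ C * ((1 / 2 : ℝ) ^ b * B.u2)
    refine (mul_le_mul_of_nonneg_left (h2 k) hb.le).trans (le_of_eq ?_)
    ring
  · rw [ze_uzC, abs_mul, abs_of_pos (by positivity)]
    have e : max ((uzC c b B).u2 ^ 2) 0 = (1 / 2 : ℝ) ^ (2 * b) * max (B.u2 ^ 2) 0 := by
      rw [max_eq_left (sq_nonneg _), max_eq_left (sq_nonneg _)]
      show ((1 / 2 : ℝ) ^ b * B.u2) ^ 2 = _
      ring
    rw [e]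
    refine (mul_le_mul_of_nonneg_left h3 (by positivity)).trans (le_of_eq ?_)
    ring
  · rw [ze_uzC, hκ]
    have e1 : fn (uzC c b B).θ (l.y - (uzC c b B).p) = (1 / 2 : ℝ) ^ b * fn B.θ ((zmR c b l).y - B.p) :=
      fn_lin _ _ _ _ fun k => hy k
    have e2 : ∑ k, (l.y k - (uzC c b B).p k) ^ 2 = (1 / 2 : ℝ) ^ (2 * b) * ∑ k, ((zmR c b l).y k - B.p k) ^ 2 := by
      rw [Finset.mul_sum]
      refine Finset.sum_congr rfl fun k _ => ?_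
      rw [hy]
      ring
    rw [e1, e2, hα]
    have e3 : (1 / 2 : ℝ) ^ b * fn B.θ ((zmR c b l).y - B.p) +
        (1 / 2 : ℝ) ^ b * (B.κ * ((zmR c b l).z + ∑ k, (zmR c b l).y k * ((zmR c b l).s k - B.v k) - B.ω)) -
        (1 / 2 : ℝ) ^ b * (B.α * ∑ k, ((zmR c b l).y k - B.p k) ^ 2) =
        (1 / 2 : ℝ) ^ b * (fn B.θ ((zmR c b l).y - B.p) +
        B.κ * ((zmR c b l).z + ∑ k, (zmR c b l).y k * ((zmR c b l).s k - B.v k) - B.ω) -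
        B.α * ∑ k, ((zmR c b l).y k - B.p k) ^ 2) := by ring
    rw [e3, abs_mul, abs_of_pos hb]
    show _ ≤ C * ((1 / 2 : ℝ) ^ b * B.u1)
    refine (mul_le_mul_of_nonneg_left h4 hb.le).trans (le_of_eq ?_)
    ring
  · rw [mul_assoc 2 (uzC c b B).α, zp_uzC, hα]
    have e1 : fn (uzC c b B).θ (l.s - (uzC c b B).v) = (1 / 2 : ℝ) ^ b * fn B.θ ((zmR c b l).s - B.v) :=
      fn_lin _ _ _ _ fun k => hs k
    have e2 : ∑ k, (l.s k - (uzC c b B).v k) ^ 2 = (1 / 2 : ℝ) ^ (2 * b) * ∑ k, ((zmR c b l).s k - B.v k) ^ 2 := by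
      rw [Finset.mul_sum]
      refine Finset.sum_congr rfl fun k _ => ?_
      rw [hs]
      ring
    rw [e1, e2, hκ]
    have e3 : (1 / 2 : ℝ) ^ b * fn B.θ ((zmR c b l).s - B.v) +
        (1 / 2 : ℝ) ^ b * (B.κ * ∑ k, ((zmR c b l).s k - B.v k) ^ 2) / 2 +
        2 * ((1 / 2 : ℝ) ^ b * (B.α * ((zmR c b l).z + ∑ k, B.p k * ((zmR c b l).s k - B.v k) - B.ω))) =
        (1 / 2 : ℝ) ^ b * (fn B.θ ((zmR c b l).s - B.v) +
        B.κ * (∑ k, ((zmR c b l).s k - B.v k) ^ 2) / 2 +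
        2 * B.α * ((zmR c b l).z + ∑ k, B.p k * ((zmR c b l).s k - B.v k) - B.ω)) := by
      ring
    rw [e3, abs_mul, abs_of_pos hb]
    show _ ≤ C * ((1 / 2 : ℝ) ^ b * B.u1)
    refine (mul_le_mul_of_nonneg_left h5 hb.le).trans (le_of_eq ?_)
    ring

end Vale.Agent.P106.U.H127
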